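import Vale.Agent.P352.NF.F2

/-!
# P352 SL: operators that commute with the stress tensor below a plane commute with the generators
-/

set_option linter.all false

noncomputable section

open MeasureTheory Filter Topology SchwartzMap Complex
open scoped SchwartzMap ComplexConjugate ContDiff LineDeriv

namespace Vale.Agent.P352.SL

open GF (Ix V Fn Fld Theory Sch IsLor bas o sim pd tr ev bar)
open H246 H496 H755 H15 H846 H246R H746 N86 NC NF
open UniformSpace (Completion)

variable {D : Type*} [NormedAddCommGroup D] [InnerProductSpace ℂ D]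
variable {Q : GF.Theory D} {T : Ix → Ix → GF.Fld D}
variable {A : (V → V) → D → D}

section

variable {B : D → D} (hsym : ∀ v w, inner ℂ (B v) w = inner ℂ v (B w))
include hsym

lemma sym_add (v w : D) : B (v + w) = B v + B w := by
  refine ext_inner_left ℂ fun z => ?_
  rw [← hsym, inner_add_right, inner_add_right, hsym, hsym]

lemma sym_smul (c : ℂ) (v : D) : B (c • v) = c • B v := by
  refine ext_inner_left ℂ fun z => ?_
  rw [← hsym, inner_smul_right, inner_smul_right, hsym]

lemma sym_zero : B 0 = 0 := by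
  refine ext_inner_left ℂ fun z => ?_
  rw [← hsym, inner_zero_right, inner_zero_right]

lemma sym_sub (v w : D) : B (v - w) = B v - B w := by
  refine ext_inner_left ℂ fun z => ?_
  rw [← hsym, inner_sub_right, inner_sub_right, hsym, hsym]

lemma sym_sum {ι : Type*} (s : Finset ι) (x : ι → D) :
    B (∑ i ∈ s, x i) = ∑ i ∈ s, B (x i) := by
  classical
  induction s using Finset.induction_on with
  | empty => simpa using sym_zero hsym
  | insert i s hi ih => rw [Finset.sum_insert hi, Finset.sum_insert hi, sym_add hsym, ih]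

end

/-- `B` commutes with the stress tensor below the plane `a·x = M`. -/
def ComT (T : Ix → Ix → GF.Fld D) (a : V) (M : ℝ) (B : D → D) : Prop :=
  ∀ m n f, GF.IsTest f → HasCompactSupport f → (∀ y ∈ tsupport f, GF.mdot a y < M) →
    ∀ v, B (T m n f v) = T m n f (B v)

/-- the charges of the Poincaré transformations that preserve the planes `a·x = const` -/
def GenF (T : Ix → Ix → GF.Fld D) (A : (V → V) → D → D) : Prop :=
  ∀ a b κ y ψ X v w, Adm a b κ ψ → IsSim 0 X → Fol a X → Tendsto (fun R => inner ℂ w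
    (sm T (fun m n x => GF.eta m * a m * (GF.eta n * X x n) * ctf a b κ y ψ R x) v)) atTop
    (𝓝 ((∫ u, (ψ u : ℂ)) * inner ℂ w (A X v)))

section

variable {B : D → D} (hsym : ∀ v w, inner ℂ (B v) w = inner ℂ v (B w))
include hsym

lemma com_sm {a : V} {M : ℝ} (hs : ComT T a M B) {F : Ix → Ix → V → ℝ} (hF : ∀ m n, Tst (F m n))
    (hsp : ∀ m n, ∀ y ∈ tsupport (F m n), GF.mdot a y < M) (v : D) :
    B (sm T F v) = sm T F (B v) := by
  unfold sm
  rw [sym_sum hsym]
  refine Finset.sum_congr rfl fun m _ => ?_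
  rw [sym_sum hsym]
  refine Finset.sum_congr rfl fun n _ => ?_
  have hsub : tsupport (fun x => (F m n x : ℂ)) ⊆ tsupport (F m n) := by
    refine closure_mono fun x hx => ?_
    intro h0
    apply hx
    show ((F m n x : ℝ) : ℂ) = 0
    rw [h0, Complex.ofReal_zero]
  refine hs m n _ (hF m n).isTest ?_ (fun y hy => hsp m n y (hsub hy)) v
  exact (hF m n).2.mono' (subset_trans subset_closure hsub)

/-- **Symmetric operators that commute with the stress tensor below a null plane commute with the
Poincaré generators that preserve the foliation.** -/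
theorem com_A (hgen : GenF T A) {a b : V} (ha : IsNull a) (hb : IsNull b)
    (hab : GF.mdot a b = 1) {M : ℝ} (hs : ComT T a M B) {X : V → V}
    (hX : IsSim 0 X) (hXF : Fol a X) (v : D) : B (A X v) = A X (B v) := by
  obtain ⟨κ, hκ, hκ1⟩ := exists_kp
  let f : ContDiffBump (M - 3 : ℝ) := ⟨1, 2, one_pos, one_lt_two⟩
  have hφ : Tst (f.normed volume) := ⟨f.contDiff_normed, f.hasCompactSupport_normed⟩
  have hφs : tsupport (f.normed volume) = Metric.closedBall (M - 3 : ℝ) 2 :=
    f.tsupport_normed_eq
  have hφ1 : ∫ x, ((f.normed volume x : ℝ) : ℂ) = 1 := by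
    have h1 : ∫ u, ((f.normed volume u : ℝ) : ℂ) = ((∫ u, f.normed volume u : ℝ) : ℂ) :=
      integral_ofReal
    rw [h1, f.integral_normed, Complex.ofReal_one]
  set φ : ℝ → ℝ := f.normed volume with hφdef
  have hA : Adm a b κ φ := ⟨ha, hb, hab, hκ, hκ1, hφ⟩
  obtain ⟨c, w, hw, hXe⟩ := id hX
  have hcd : ∀ m n, ContDiff ℝ ∞ fun x => GF.eta m * a m * (GF.eta n * X x n) := by
    intro m n
    have e : (fun x : V => GF.eta m * a m * (GF.eta n * X x n)) = fun x : V =>
        GF.eta m * a m * (GF.eta n * (c n + 0 * x n + ∑ m, x m * w m n)) := by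
      funext x
      rw [hXe]
    rw [e]
    fun_prop
  have hF : ∀ R, 1 ≤ R → ∀ m n, Tst fun x => GF.eta m * a m * (GF.eta n * X x n) *
      ctf a b κ 0 φ R x := fun R hR m n =>
    H846.ctf_tst hA.1.1 hA.2.1.1 hA.2.2.1 hA.2.2.2.1 hA.2.2.2.2.2 hR (hcd m n)
  have hsp : ∀ R m n, ∀ y ∈ tsupport (fun x => GF.eta m * a m * (GF.eta n * X x n) *
      ctf a b κ 0 φ R x), GF.mdot a y < M := by
    intro R m n y hy
    have h1 : IsClosed {x : V | GF.mdot a x ∈ Metric.closedBall (M - 3 : ℝ) 2} :=
      Metric.isClosed_closedBall.preimage (H846.contDiff_mdot a).continuous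
    have h2 : tsupport (fun x => GF.eta m * a m * (GF.eta n * X x n) * ctf a b κ 0 φ R x) ⊆
        {x : V | GF.mdot a x ∈ Metric.closedBall (M - 3 : ℝ) 2} := by
      refine closure_minimal (fun x hx => ?_) h1
      show GF.mdot a x ∈ Metric.closedBall (M - 3 : ℝ) 2
      rw [← hφs]
      refine subset_closure fun h0 => hx ?_
      show GF.eta m * a m * (GF.eta n * X x n) * (cut a b κ R (x - 0) * φ (GF.mdot a x)) = 0
      rw [h0]
      ring
    have h3 : |GF.mdot a y - (M - 3)| ≤ 2 := by
      have := h2 hy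
      rw [Set.mem_setOf_eq, Metric.mem_closedBall, Real.dist_eq] at this
      exact this
    have := (abs_le.1 h3).2
    linarith
  have lim : ∀ v z : D, Tendsto (fun R => inner ℂ z (sm T (fun m n x =>
      GF.eta m * a m * (GF.eta n * X x n) * ctf a b κ 0 φ R x) v)) atTop (𝓝 (inner ℂ z (A X v))) := by
    intro v z
    have h1 := hgen a b κ 0 φ X v z hA hX hXF
    simpa [hφ1] using h1
  refine ext_inner_left ℂ fun z => ?_
  have l1 := lim v (B z)
  have l2 := lim (B v) z
  rw [← hsym]
  refine tendsto_nhds_unique l1 (l2.congr' ?_)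
  filter_upwards [eventually_ge_atTop (1 : ℝ)] with R hR
  rw [hsym, com_sm hsym hs (hF R hR) (hsp R)]

end

end Vale.Agent.P352.SL

end
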