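import Mathlib.Analysis.Distribution.SchwartzSpace.Basic
import Mathlib.Analysis.LocallyConvex.Barrelled
import Mathlib.Analysis.Calculus.SmoothSeries

set_option linter.all false

noncomputable section

open MeasureTheory SchwartzMap Complex Filter Topology
open scoped SchwartzMap ComplexConjugate ENNReal NNReal Uniformity

namespace Vale.Agent.P352.SL

/-! ### Completeness of Schwartz space over the line (port of H246.Compl) -/

/-- evaluation of derivatives -/
def evD (l : ℕ) (x : ℝ) : 𝓢(ℝ, ℂ) →+ (ℝ [×l]→L[ℝ] ℂ) where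
  toFun f := iteratedFDeriv ℝ l f x
  map_zero' := by
    have : ((0 : 𝓢(ℝ, ℂ)) : ℝ → ℂ) = fun _ => 0 := rfl
    rw [this]
    simp
  map_add' f g := by
    have : (⇑(f + g) : ℝ → ℂ) = ⇑f + ⇑g := rfl
    rw [this, iteratedFDeriv_add_apply (f.smooth l).contDiffAt (g.smooth l).contDiffAt]

lemma evD_apply (l : ℕ) (x : ℝ) (f : 𝓢(ℝ, ℂ)) : evD l x f = iteratedFDeriv ℝ l f x := rfl

lemma norm_evD_le (k l : ℕ) (x : ℝ) (f : 𝓢(ℝ, ℂ)) :
    ‖x‖ ^ k * ‖evD l x f‖ ≤ SchwartzMap.seminorm ℂ k l f := le_seminorm ℂ k l f x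

/-- absolutely convergent series converge -/
theorem exists_sum (d : ℕ → 𝓢(ℝ, ℂ))
    (h : ∀ k l, Summable fun i => SchwartzMap.seminorm ℂ k l (d i)) :
    ∃ S : 𝓢(ℝ, ℂ), Tendsto (fun n => ∑ i ∈ Finset.range n, d i) atTop (𝓝 S) := by
  set F : ℝ → ℂ := fun x => ∑' i, d i x with hF
  have h0 : ∀ (l i : ℕ) (x : ℝ), ‖iteratedFDeriv ℝ l (d i) x‖ ≤
      SchwartzMap.seminorm ℂ 0 l (d i) := by
    intro l i x
    have := norm_evD_le 0 l x (d i)
    rwa [pow_zero, one_mul] at this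
  have hFs : ContDiff ℝ ((⊤ : ℕ∞) : WithTop ℕ∞) F :=
    contDiff_tsum (v := fun l i => SchwartzMap.seminorm ℂ 0 l (d i)) (fun i => (d i).smooth ⊤)
      (fun l _ => h 0 l) (fun l i x _ => h0 l i x)
  have hFd : ∀ (l : ℕ) (x : ℝ), iteratedFDeriv ℝ l F x = ∑' i, evD l x (d i) := fun l x =>
    iteratedFDeriv_tsum_apply (N := ⊤) (v := fun l i => SchwartzMap.seminorm ℂ 0 l (d i))
      (fun i => (d i).smooth ⊤) (fun l _ => h 0 l) (fun l i x _ => h0 l i x) (by simp) x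
  have hs : ∀ (k l : ℕ) (x : ℝ), Summable fun i => ‖x‖ ^ k * ‖evD l x (d i)‖ := fun k l x =>
    (h k l).of_nonneg_of_le (fun i => by positivity) (fun i => norm_evD_le k l x (d i))
  have hn : ∀ (l : ℕ) (x : ℝ), Summable fun i => ‖evD l x (d i)‖ := fun l x => by
    simpa using hs 0 l x
  have hb : ∀ (k l n : ℕ) (x : ℝ), ‖x‖ ^ k * ‖∑' i, evD l x (d (i + n))‖ ≤
      ∑' i, SchwartzMap.seminorm ℂ k l (d (i + n)) := by
    intro k l n x
    have h1 : ‖∑' i, evD l x (d (i + n))‖ ≤ ∑' i, ‖evD l x (d (i + n))‖ :=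
      norm_tsum_le_tsum_norm ((summable_nat_add_iff (f := fun i => ‖evD l x (d i)‖) n).2 (hn l x))
    calc _ ≤ ‖x‖ ^ k * ∑' i, ‖evD l x (d (i + n))‖ := by gcongr
      _ = ∑' i, ‖x‖ ^ k * ‖evD l x (d (i + n))‖ := (tsum_mul_left).symm
      _ ≤ _ := by
        refine Summable.tsum_le_tsum (fun i => norm_evD_le k l x _) ?_ ?_
        · exact (summable_nat_add_iff (f := fun i => ‖x‖ ^ k * ‖evD l x (d i)‖) n).2 (hs k l x)
        · exact (summable_nat_add_iff (f := fun i => SchwartzMap.seminorm ℂ k l (d i)) n).2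
            (h k l)
  set S : 𝓢(ℝ, ℂ) := ⟨F, hFs, fun k l => ⟨_, fun x => by
    rw [hFd]
    exact hb k l 0 x⟩⟩ with hS
  refine ⟨S, ?_⟩
  rw [(schwartz_withSeminorms ℂ ℝ ℂ).tendsto_nhds]
  intro i ε hε
  have ht := tendsto_sum_nat_add fun j => SchwartzMap.seminorm ℂ i.1 i.2 (d j)
  filter_upwards [ht.eventually_lt_const hε] with n hn'
  refine lt_of_le_of_lt ?_ hn'
  change SchwartzMap.seminorm ℂ i.1 i.2 (∑ i ∈ Finset.range n, d i - S) ≤ _
  refine seminorm_le_bound ℂ i.1 i.2 _ (tsum_nonneg fun j => apply_nonneg _ _) fun x => ?_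
  have e1 : iteratedFDeriv ℝ i.2 (⇑(∑ i ∈ Finset.range n, d i - S)) x =
      -∑' j, evD i.2 x (d (j + n)) := by
    have e2 : iteratedFDeriv ℝ i.2 (⇑(∑ i ∈ Finset.range n, d i - S)) x =
        evD i.2 x (∑ i ∈ Finset.range n, d i - S) := rfl
    have e3 : evD i.2 x S = ∑' j, evD i.2 x (d j) := hFd i.2 x
    rw [e2, map_sub, map_sum, e3, ← (Summable.of_norm (hn i.2 x)).sum_add_tsum_nat_add n]
    abel
  rw [e1, norm_neg]
  exact hb i.1 i.2 n x

lemma countable_schwartz : (𝓤 (𝓢(ℝ, ℂ))).IsCountablyGenerated :=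
  IsUniformAddGroup.uniformity_countably_generated

/-- Schwartz space is complete -/
theorem complete_schwartz : CompleteSpace 𝓢(ℝ, ℂ) := by
  have := countable_schwartz
  set U : ℕ → Set (𝓢(ℝ, ℂ) × 𝓢(ℝ, ℂ)) := fun N => {p | ∀ k ≤ N, ∀ l ≤ N,
    SchwartzMap.seminorm ℂ k l (p.2 - p.1) < (1 / 2 : ℝ) ^ N} with hU
  refine UniformSpace.complete_of_convergent_controlled_sequences U (fun N => ?_) fun u hu => ?_
  · rw [uniformity_eq_comap_nhds_zero]
    refine ⟨{f | ∀ k ≤ N, ∀ l ≤ N, SchwartzMap.seminorm ℂ k l f < (1 / 2 : ℝ) ^ N}, ?_,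
      fun p hp => hp⟩
    have h1 : ∀ k l, ∀ᶠ f : 𝓢(ℝ, ℂ) in 𝓝 0,
        SchwartzMap.seminorm ℂ k l f < (1 / 2 : ℝ) ^ N := by
      intro k l
      have hc : Continuous (SchwartzMap.seminorm ℂ k l : 𝓢(ℝ, ℂ) → ℝ) :=
        (schwartz_withSeminorms ℂ ℝ ℂ).continuous_seminorm (k, l)
      have := hc.tendsto 0
      rw [map_zero] at this
      exact this.eventually_lt_const (by positivity)
    have h2 : ∀ᶠ f : 𝓢(ℝ, ℂ) in 𝓝 0, ∀ k ∈ Set.Iic N, ∀ l ∈ Set.Iic N,
        SchwartzMap.seminorm ℂ k l f < (1 / 2 : ℝ) ^ N := by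
      rw [eventually_all_finite (Set.finite_Iic N)]
      intro k _
      rw [eventually_all_finite (Set.finite_Iic N)]
      exact fun l _ => h1 k l
    exact h2
  · have h1 : ∀ k l i, k ≤ i → l ≤ i → SchwartzMap.seminorm ℂ k l (u (i + 1) - u i) <
        (1 / 2 : ℝ) ^ i := fun k l i hk hl => hu i i (i + 1) le_rfl (Nat.le_succ i) k hk l hl
    obtain ⟨S, hS⟩ := exists_sum (fun i => u (i + 1) - u i) (fun k l => by
      refine (summable_nat_add_iff (f := fun i => SchwartzMap.seminorm ℂ k l (u (i + 1) - u i))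
        (max k l)).1 ?_
      refine Summable.of_nonneg_of_le (fun i => apply_nonneg _ _)
        (fun i => (h1 k l (i + max k l) ?_ ?_).le) ?_
      · exact (le_max_left k l).trans (Nat.le_add_left _ _)
      · exact (le_max_right k l).trans (Nat.le_add_left _ _)
      · exact (summable_nat_add_iff (f := fun i => (1 / 2 : ℝ) ^ i) (max k l)).2
          summable_geometric_two)
    refine ⟨u 0 + S, ?_⟩
    have h2 : ∀ n, u 0 + ∑ i ∈ Finset.range n, (u (i + 1) - u i) = u n := by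
      intro n
      rw [Finset.sum_range_sub]
      abel
    exact ((tendsto_const_nhds (x := u 0)).add hS).congr h2

theorem barrelled_R' : BarrelledSpace ℂ 𝓢(ℝ, ℂ) := by
  have := countable_schwartz
  have := complete_schwartz
  infer_instance


end Vale.Agent.P352.SL

end
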