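import Vale.Agent.P352.NF.Ks
import Vale.Agent.P352.H746.Nec1

/-!
# P352 SL: test functions on the line and their moments
-/

set_option linter.all false

noncomputable section

open MeasureTheory Filter Topology Set
open scoped ContDiff ComplexConjugate SchwartzMap

namespace Vale.Agent.P352.SL

open GF (Ix V Fn bas eta pd bar sim o)
open H246 H496 H15 H755

/-- real test functions as Schwartz functions -/
def tS (ψ : ℝ → ℝ) (h : Tst ψ) : 𝓢(ℝ, ℂ) :=
  (h.2.comp_left (g := fun r : ℝ => (r : ℂ)) (by simp) :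
    HasCompactSupport fun u => (ψ u : ℂ)).toSchwartzMap (Complex.ofRealCLM.contDiff.comp h.1)

lemma tS_apply {ψ : ℝ → ℝ} (h : Tst ψ) (u : ℝ) : tS ψ h u = (ψ u : ℂ) := rfl

lemma a_lin {f g : ℝ → ℝ} (hf : Tst f) (hg : Tst g) (c d : ℝ) :
    Tst fun u => c * f u + d * g u :=
  ⟨(contDiff_const.mul hf.1).add (contDiff_const.mul hg.1), (hf.2.mul_left).add (hg.2.mul_left)⟩

lemma a_sub {f g : ℝ → ℝ} (hf : Tst f) (hg : Tst g) : Tst fun u => f u - g u := by
  have h := a_lin hf hg 1 (-1)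
  have e : (fun u => f u - g u) = fun u => 1 * f u + (-1) * g u := by funext u; ring
  rw [e]; exact h

lemma a_int_lin {f g : ℝ → ℝ} (hf : Integrable f) (hg : Integrable g) (c d : ℝ) :
    ∫ u, (c * f u + d * g u) = c * (∫ u, f u) + d * ∫ u, g u := by
  rw [integral_add (hf.const_mul c) (hg.const_mul d), integral_const_mul, integral_const_mul]

lemma a_int_sub {f g h : ℝ → ℝ} (hf : Integrable f) (hg : Integrable g) (hh : Integrable h)
    (c d : ℝ) : ∫ u, (f u - (c * g u + d * h u)) =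
      (∫ u, f u) - (c * (∫ u, g u) + d * ∫ u, h u) := by
  rw [← a_int_lin hg hh]
  exact integral_sub hf ((hg.const_mul c).add (hh.const_mul d))

/-- a test function with moments one and zero -/
lemma a_psi0 : ∃ ρ : ℝ → ℝ, Tst ρ ∧ ∫ u, ρ u = 1 ∧ ∫ u, u * ρ u = 0 := by
  let f : ContDiffBump (0 : ℝ) := ⟨1, 2, one_pos, one_lt_two⟩
  have hρ : Tst (f.normed volume) := ⟨f.contDiff_normed, f.hasCompactSupport_normed⟩
  refine ⟨f.normed volume, hρ, f.integral_normed, ?_⟩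
  have he : ∀ u : ℝ, f.normed volume (-u) = f.normed volume u := fun u => f.normed_neg u
  have h1 : ∫ u : ℝ, (-u) * f.normed volume (-u) = ∫ u : ℝ, u * f.normed volume u :=
    integral_neg_eq_self (fun u : ℝ => u * f.normed volume u) volume
  simp only [he, neg_mul, integral_neg] at h1
  linarith

/-- a test function with moments zero and one -/
lemma a_psi1 : ∃ ρ : ℝ → ℝ, Tst ρ ∧ ∫ u, ρ u = 0 ∧ ∫ u, u * ρ u = 1 := by
  obtain ⟨ρ, hρ, h0, h1⟩ := a_psi0
  have hd : Tst (deriv ρ) := H746.tder hρ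
  have e0 : (fun u => -1 * deriv ρ u + 0 * deriv ρ u) = fun u => -deriv ρ u := by
    funext u; ring
  refine ⟨fun u => -deriv ρ u, by rw [← e0]; exact a_lin hd hd (-1) 0, ?_, ?_⟩
  · rw [integral_neg, H746.int_deriv_real hρ, neg_zero]
  · rw [show (fun u => u * -deriv ρ u) = fun u => -(u * deriv ρ u) by funext u; ring,
      integral_neg, H746.int_mul_deriv hρ, h0, neg_neg]

/-- **moments**: a test function is a combination of two fixed ones, up to a second derivative -/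
lemma a_mom {ρ₀ ρ₁ : ℝ → ℝ} (h0 : Tst ρ₀) (h00 : ∫ u, ρ₀ u = 1) (h01 : ∫ u, u * ρ₀ u = 0)
    (h1 : Tst ρ₁) (h10 : ∫ u, ρ₁ u = 0) (h11 : ∫ u, u * ρ₁ u = 1) {ψ : ℝ → ℝ} (hψ : Tst ψ) :
    ∃ χ : ℝ → ℝ, Tst χ ∧ ∀ u, ψ u = (∫ y, ψ y) * ρ₀ u + (∫ y, y * ψ y) * ρ₁ u +
      deriv (deriv χ) u := by
  set c0 := ∫ y, ψ y with hc0
  set c1 := ∫ y, y * ψ y with hc1
  have hd : Tst fun u => ψ u - (c0 * ρ₀ u + c1 * ρ₁ u) := a_sub hψ (a_lin h0 h1 c0 c1)
  obtain ⟨M, hM⟩ := hd.2.isCompact.isBounded.subset_closedBall (0 : ℝ)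
  have i0 : ∫ u, (ψ u - (c0 * ρ₀ u + c1 * ρ₁ u)) = 0 := by
    rw [a_int_sub (H746.tst_int1 hψ) (H746.tst_int1 h0) (H746.tst_int1 h1), h00, h10, ← hc0]
    ring
  have i1 : ∫ u, u * (ψ u - (c0 * ρ₀ u + c1 * ρ₁ u)) = 0 := by
    have e : (fun u => u * (ψ u - (c0 * ρ₀ u + c1 * ρ₁ u))) =
        fun u => u * ψ u - (c0 * (u * ρ₀ u) + c1 * (u * ρ₁ u)) := by
      funext u; ring
    rw [e, a_int_sub (H746.tst_int2 hψ) (H746.tst_int2 h0) (H746.tst_int2 h1), h01, h11, ← hc1]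
    ring
  obtain ⟨χ, hχ, hχ', -⟩ := H746.second_prim hd (M := M) i0 i1 (fun t ht => by
      by_contra hne
      have h2 := hM (subset_tsupport _ (Function.mem_support.2 hne))
      rw [mem_closedBall_zero_iff, Real.norm_eq_abs] at h2
      linarith)
  refine ⟨χ, hχ, fun u => ?_⟩
  rw [hχ' u]
  ring

end Vale.Agent.P352.SL

end
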