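import Vale.Agent.P352.SL.Base
import Vale.Agent.P352.SL.H444a

/-!
# P352 SL: the second moments smeared with real test functions
-/

set_option linter.all false

noncomputable section

open MeasureTheory Filter Topology Set
open scoped ContDiff ComplexConjugate SchwartzMap

namespace Vale.Agent.P352.SL

open GF (Ix V Fn bas eta pd bar sim o)
open H246 H496 H15 H755 NF

variable {D : Type*} [NormedAddCommGroup D] [InnerProductSpace ℂ D] {Q : GF.Theory D}
  {T : Ix → Ix → GF.Fld D} {A : (V → V) → D → D} {M : V → 𝓢(ℝ, ℂ) → D → D}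

/-- sources of the smeared second moments -/
def Fs (a b : V) (κ : V → ℝ) (y : V) (ψ : ℝ → ℝ) (R : ℝ) : Ix → Ix → V → ℝ := fun m n x =>
  eta m * a m * (eta n * a n) * -GF.mdot x x * ctf a b κ y ψ R x

lemma m1_sq : ContDiff ℝ ∞ fun x : V => -GF.mdot x x := by
  have e : (fun x : V => -GF.mdot x x) = fun x => -∑ m, eta m * x m * x m := rfl
  rw [e]
  simp only [Fin.sum_univ_four]
  have : ∀ m : Ix, ContDiff ℝ ∞ fun x : V => x m := fun m => contDiff_apply ℝ ℝ m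
  have h0 := this 0
  have h1 := this 1
  have h2 := this 2
  have h3 := this 3
  fun_prop

lemma Fs_tst {a b : V} {κ : V → ℝ} {ψ : ℝ → ℝ} (h : Adm a b κ ψ) (y : V) {R : ℝ} (hR : 1 ≤ R)
    (m n : Ix) : Tst (Fs a b κ y ψ R m n) :=
  tst_smul (f := fun x => eta m * a m * (eta n * a n) * -GF.mdot x x)
    (contDiff_const.mul m1_sq) (ctf_tst h y hR)

lemma m1_tt (h : SlabMom Q T A M) {a b : V} {κ : V → ℝ} {ψ : ℝ → ℝ} (hA : Adm a b κ ψ) (y : V)
    (hψ : Tst ψ) (v w : D) :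
    Tendsto (fun R => mt T w v (Fs a b κ y ψ R)) atTop (𝓝 (inner ℂ w (M a (tS ψ hψ) v))) :=
  h.mom a b κ y ψ (tS ψ hψ) v w hA fun u => rfl

lemma m1_gen (h : SlabMom Q T A M) {a b : V} {κ : V → ℝ} {ψ : ℝ → ℝ} (hA : Adm a b κ ψ) (y : V)
    {X : V → V} (hX : IsSim 0 X) (hF : Fol a X) (v w : D) :
    Tendsto (fun R => mt T w v (Fg a b κ y ψ R X)) atTop
      (𝓝 ((∫ u, (ψ u : ℂ)) * inner ℂ w (A X v))) :=
  h.gen a b κ y ψ X v w hA hX hF

/-- symmetry -/
lemma m1_adj (hT : Q.IsStress T) (h : SlabMom Q T A M) {a : V} (ha : IsNull a) {ψ : ℝ → ℝ}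
    (hψ : Tst ψ) (v w : D) :
    inner ℂ (M a (tS ψ hψ) v) w = inner ℂ v (M a (tS ψ hψ) w) := by
  obtain ⟨b, hb, hab⟩ := exists_dual ha
  obtain ⟨κ, hκ, hκ1⟩ := exists_kp
  have hA : Adm a b κ ψ := ⟨ha, hb, hab, hκ, hκ1, hψ⟩
  have h1 := m1_tt h hA 0 hψ w v
  have h2 := (Complex.continuous_conj.tendsto _).comp (m1_tt h hA 0 hψ v w)
  have h3 : (fun R => mt T v w (Fs a b κ 0 ψ R)) =ᶠ[atTop]
      (fun z => conj z) ∘ fun R => mt T w v (Fs a b κ 0 ψ R) := by
    filter_upwards [eventually_ge_atTop 1] with R hR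
    exact mt_herm hT (fun m n => Fs_tst hA 0 hR m n) v w
  have h4 := tendsto_nhds_unique h1 (h2.congr' h3.symm)
  rw [h4]
  exact (inner_conj_symm _ _).symm

/-- the infinitesimal null rotation (or boost) `z ↦ (y·z) a - (a·z) y` -/
def ro (a y : V) : V → V := fun z => GF.mdot y z • a - GF.mdot a z • y

lemma ro_sim (a y : V) : IsSim 0 (ro a y) := by
  refine ⟨0, fun m n => (eta m * y m) * a n - (eta m * a m) * y n, ?_, ?_⟩
  · intro m n
    ring
  · intro z n
    simp only [ro, GF.mdot, Fin.sum_univ_four, Pi.add_apply, Pi.sub_apply, Pi.smul_apply,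
      smul_eq_mul, Pi.zero_apply]
    ring

lemma ro_fol {a : V} (ha : IsNull a) (y : V) : Fol a (ro a y) := by
  refine ⟨-GF.mdot a y, 0, fun z => ?_⟩
  have e : GF.mdot a (ro a y z) = GF.mdot y z * GF.mdot a a - GF.mdot a z * GF.mdot a y := by
    simp only [ro, GF.mdot, Fin.sum_univ_four, Pi.sub_apply, Pi.smul_apply, smul_eq_mul]
    ring
  rw [e, ha.1]
  ring

lemma m1_shift {ψ : ℝ → ℝ} (hψ : Tst ψ) (c : ℝ) : Tst fun u => ψ (u - c) :=
  ⟨hψ.1.comp (contDiff_id.sub contDiff_const), hψ.2.comp_homeomorph (Homeomorph.subRight c)⟩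

lemma m1_tra (hT : Q.IsStress T) (h : SlabMom Q T A M) {a : V} (ha : IsNull a) (y : V)
    {ψ : ℝ → ℝ} (hψ : Tst ψ) (v : D) :
    Q.U 1 GF.one y (M a (tS ψ hψ) (Q.U 1 GF.one (-y) v)) =
      M a (tS (fun u => ψ (u - GF.mdot a y)) (m1_shift hψ _)) v +
      (2 * ∫ u, (ψ (u - GF.mdot a y) : ℂ)) • A (ro a y) v +
      (2 * ∫ u : ℝ, (u : ℂ) * (ψ (u - GF.mdot a y) : ℂ)) • A (fun _ => y) v -
      ((GF.mdot y y : ℂ) * ∫ u, (ψ (u - GF.mdot a y) : ℂ)) • A (fun _ => a) v := by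
  obtain ⟨b, hb, hab⟩ := exists_dual ha
  obtain ⟨κ, hκ, hκ1⟩ := exists_kp
  set φ : ℝ → ℝ := fun u => ψ (u - GF.mdot a y) with hφdef
  have hφ : Tst φ := m1_shift hψ _
  refine ext_inner_left ℂ fun w => ?_
  have hA0 : Adm a b κ ψ := ⟨ha, hb, hab, hκ, hκ1, hψ⟩
  have hA : Adm a b κ φ := ⟨ha, hb, hab, hκ, hκ1, hφ⟩
  have h1 := m1_tt h hA0 0 hψ (Q.U 1 GF.one (-y) v) (Q.U 1 GF.one (-y) w)
  have h2 := m1_tt h hA y hφ v w
  have h3 := m1_gen h hA y (ro_sim a y) (ro_fol ha y) v w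
  have h4 := m1_gen h (Adm.umul hA) y (const_sim y) (fol_const a y) v w
  have h5 := m1_gen h hA y (const_sim a) (fol_const a a) v w
  have h6 := ((h2.add (h3.const_mul 2)).add (h4.const_mul 2)).add
    (h5.const_mul (-(GF.mdot y y : ℂ)))
  have h7 : (fun R => mt T (Q.U 1 GF.one (-y) w) (Q.U 1 GF.one (-y) v) (Fs a b κ 0 ψ R))
      =ᶠ[atTop] fun R => mt T w v (Fs a b κ y φ R) + 2 * mt T w v (Fg a b κ y φ R (ro a y)) +
        2 * mt T w v (Fg a b κ y (fun u => u * φ u) R fun _ => y) +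
        -(GF.mdot y y : ℂ) * mt T w v (Fg a b κ y φ R fun _ => a) := by
    filter_upwards [eventually_ge_atTop 1] with R hR
    have t1 : ∀ m n, Tst (Fs a b κ y φ R m n) := fun m n => Fs_tst hA y hR m n
    have t2 : ∀ m n, Tst (Fg a b κ y φ R (ro a y) m n) := fun m n => Fg_tst hA y hR (ro_sim a y) m n
    have t3 : ∀ m n, Tst (Fg a b κ y (fun u => u * φ u) R (fun _ => y) m n) :=
      fun m n => Fg_tst (Adm.umul hA) y hR (const_sim y) m n
    have t4 : ∀ m n, Tst (Fg a b κ y φ R (fun _ => a) m n) :=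
      fun m n => Fg_tst hA y hR (const_sim a) m n
    have s1 : ∀ m n, Tst fun x => Fs a b κ y φ R m n x + 2 * Fg a b κ y φ R (ro a y) m n x :=
      fun m n => ⟨(t1 m n).1.add (contDiff_const.mul (t2 m n).1), (t1 m n).2.add ((t2 m n).2.mul_left)⟩
    have s2 : ∀ m n, Tst fun x => Fs a b κ y φ R m n x + 2 * Fg a b κ y φ R (ro a y) m n x +
        2 * Fg a b κ y (fun u => u * φ u) R (fun _ => y) m n x :=
      fun m n => ⟨(s1 m n).1.add (contDiff_const.mul (t3 m n).1), (s1 m n).2.add ((t3 m n).2.mul_left)⟩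
    rw [mt_trans hT (fun m n => Fs_tst hA0 0 hR m n)]
    have e1 := mt_add hT t1 t2 2 w v
    have e2 := mt_add hT (F := fun m n x => Fs a b κ y φ R m n x +
      2 * Fg a b κ y φ R (ro a y) m n x) s1 t3 2 w v
    have e3 := mt_add hT (F := fun m n x => Fs a b κ y φ R m n x +
      2 * Fg a b κ y φ R (ro a y) m n x + 2 * Fg a b κ y (fun u => u * φ u) R (fun _ => y) m n x)
      s2 t4 (-GF.mdot y y) w v
    rw [e2, e1] at e3
    push_cast at e3
    rw [← e3]
    congr 1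
    funext m n x
    have c1 : ctf a b κ 0 ψ R (x + -y) = ctf a b κ y φ R x := by
      unfold ctf
      rw [sub_zero, ← sub_eq_add_neg, md_sub]
    have c2 : ctf a b κ y (fun u => u * φ u) R x = GF.mdot a x * ctf a b κ y φ R x := by
      unfold ctf
      ring
    have c3 : -GF.mdot (x + -y) (x + -y) * a n = -GF.mdot x x * a n + 2 * ro a y x n +
        2 * GF.mdot a x * y n - GF.mdot y y * a n := by
      unfold ro
      simp only [GF.mdot, Fin.sum_univ_four, Pi.add_apply, Pi.neg_apply, Pi.sub_apply,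
        Pi.smul_apply, smul_eq_mul]
      ring
    simp only [Fs, Fg]
    rw [c1, c2]
    linear_combination (eta m * a m * eta n * ctf a b κ y φ R x) * c3
  have h8 := tendsto_nhds_unique h1 (h6.congr' h7.symm)
  have e : inner ℂ w (Q.U 1 GF.one y (M a (tS ψ hψ) (Q.U 1 GF.one (-y) v))) =
      inner ℂ (Q.U 1 GF.one (-y) w) (M a (tS ψ hψ) (Q.U 1 GF.one (-y) v)) := by
    rw [← Q.U_inner 1 GF.one (-y) w _ one_pos isLor_one, Uadd1, neg_add_cancel, Uone]
  rw [e, h8, inner_sub_right, inner_add_right, inner_add_right, inner_smul_right,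
    inner_smul_right, inner_smul_right]
  have e4 : (fun u => ((u * φ u : ℝ) : ℂ)) = fun u : ℝ => (u : ℂ) * (φ u : ℂ) := by
    funext u; push_cast; rfl
  rw [e4]
  ring

/-- covariance -/
lemma m1_cov (hT : Q.IsStress T) (h : SlabMom Q T A M) {s : ℝ} {L : Ix → V} {a b : V}
    (v : D) (hs : 0 < s) (hL : GF.IsLor L) (ha : IsNull a) (hb : IsNull b)
    (hab : sim 1 L 0 a = s • b) {ψ : ℝ → ℝ} (hψ : Tst ψ) :
    Q.U s L 0 (M a (tS ψ hψ) v) = M b (tS ψ hψ) (Q.U s L 0 v) := by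
  obtain ⟨b', hb', hbb'⟩ := exists_dual hb
  obtain ⟨κ', hκ', hκ1'⟩ := exists_kp
  obtain ⟨a', ha'def⟩ : ∃ a', a' = s⁻¹ • sim 1 (linv L) 0 b' := ⟨_, rfl⟩
  have hLa' : sim 1 L 0 a' = s⁻¹ • b' := by rw [ha'def, simL_smul, sim_linv hL]
  have haa' : GF.mdot a a' = 1 := by
    rw [← md_LL hL, hab, hLa', md_smul, md_smul_l, hbb']
    field_simp
  have ha' : IsNull a' := by
    have h0 : GF.mdot a' a' = 0 := by
      rw [← md_LL hL, hLa', md_smul, md_smul_l, hb'.1]; simp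
    exact ⟨h0, null_pos ha h0 (by rw [haa']; exact one_pos)⟩
  set κ : V → ℝ := fun x => κ' (sim s L 0 x) with hκdef
  have hκ : Tst κ := tst_sim hκ' hs hL
  have hκ1 : ∀ᶠ x in 𝓝 (0 : V), κ x = 1 := by
    have hc : Tendsto (fun x : V => sim s L 0 x) (𝓝 0) (𝓝 0) := by
      have h1 : Continuous fun x : V => simE s L hs hL x :=
        (simE s L hs hL).toContinuousLinearEquiv.continuous
      have h2 := h1.tendsto 0
      have e : sim s L 0 (0 : V) = 0 := by funext n; simp [sim]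
      simpa [H755.simE_apply, e] using h2
    exact hc.eventually hκ1'
  have hsim : ∀ x, sim s L 0 x = s • sim 1 L 0 x := fun x => sim_s s L x
  have hbx : ∀ x, GF.mdot b (sim s L 0 x) = GF.mdot a x := by
    intro x
    have e : b = s⁻¹ • sim 1 L 0 a := by rw [hab, smul_smul, inv_mul_cancel₀ hs.ne', one_smul]
    rw [e, md_smul_l, hsim, md_smul, md_LL hL]
    field_simp
  have hb'x : ∀ x, GF.mdot b' (sim s L 0 x) = s * s * GF.mdot a' x := by
    intro x
    have e : b' = s • sim 1 L 0 a' := by rw [hLa', smul_smul, mul_inv_cancel₀ hs.ne', one_smul]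
    rw [e, md_smul_l, hsim, md_smul, md_LL hL]
    ring
  have hcut : ∀ R x, cut b b' κ' R (sim s L 0 x) = cut a a' κ R x := by
    intro R x
    unfold cut
    rw [hκdef]
    simp only
    congr 1
    rw [hbx, hb'x, hsim, hsim, simL_add, simL_smul, simL_smul, simL_sub, simL_sub, simL_smul,
      simL_smul L (GF.mdot a' x), hab, hLa']
    funext n
    simp only [Pi.add_apply, Pi.smul_apply, Pi.sub_apply, smul_eq_mul]
    field_simp
  have hsq : ∀ x, GF.mdot (sim s L 0 x) (sim s L 0 x) = s ^ 2 * GF.mdot x x := by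
    intro x
    rw [hsim, md_smul, md_smul_l, md_LL hL]
    ring
  have main : ∀ w, inner ℂ (Q.U s L 0 w) (M b (tS ψ hψ) (Q.U s L 0 v)) =
      inner ℂ w (M a (tS ψ hψ) v) := by
    intro w
    have hAb : Adm b b' κ' ψ := ⟨hb, hb', hbb', hκ', hκ1', hψ⟩
    have hAa : Adm a a' κ ψ := ⟨ha, ha', haa', hκ, hκ1, hψ⟩
    have h1 := m1_tt h hAb 0 hψ (Q.U s L 0 v) (Q.U s L 0 w)
    have h2 := m1_tt h hAa 0 hψ v w
    have h3 : (fun R => mt T (Q.U s L 0 w) (Q.U s L 0 v) (Fs b b' κ' 0 ψ R)) =ᶠ[atTop]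
        fun R => mt T w v (Fs a a' κ 0 ψ R) := by
      filter_upwards [eventually_ge_atTop 1] with R hR
      have hg : Tst fun x => -GF.mdot x x * ctf b b' κ' 0 ψ R x :=
        tst_smul m1_sq (ctf_tst hAb 0 hR)
      have e1 : Fs b b' κ' 0 ψ R = fun m n x => (eta m * b m) * (eta n * b n) *
          (-GF.mdot x x * ctf b b' κ' 0 ψ R x) := by
        funext m n x; unfold Fs; ring
      rw [e1, mt_cov hT hg (fun m => eta m * b m) hs hL w v (tst_sim hg hs hL)]
      congr 1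
      funext k l x
      have e2 : ∀ k, ∑ m, L k m * (eta m * b m) = s⁻¹ * (eta k * a k) := by
        intro k
        have e : b = s⁻¹ • sim 1 L 0 a := by
          rw [hab, smul_smul, inv_mul_cancel₀ hs.ne', one_smul]
        have h5 := md_L hL k a
        rw [← h5, ← md_smul, ← e]
        unfold GF.mdot
        exact Finset.sum_congr rfl fun m _ => by ring
      have e3 : ctf b b' κ' 0 ψ R (sim s L 0 x) = ctf a a' κ 0 ψ R x := by
        unfold ctf
        rw [sub_zero, sub_zero, hcut, hbx]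
      rw [e2, e2, hsq, e3]
      unfold Fs
      field_simp
    exact tendsto_nhds_unique h1 (h2.congr' h3.symm)
  refine ext_inner_left ℂ fun z => ?_
  have hz := U_linv' h.toRep hs hL z
  rw [← hz, main, Q.U_inner s L 0 _ _ hs hL]

lemma m1_dil {ψ : ℝ → ℝ} (hψ : Tst ψ) {r : ℝ} (hr : 0 < r) : Tst fun u => ψ (r * u) :=
  ⟨hψ.1.comp (contDiff_const.mul contDiff_id),
    hψ.2.comp_homeomorph (Homeomorph.mulLeft₀ r hr.ne')⟩

/-- scaling of the null vector -/
lemma m1_hom (hT : Q.IsStress T) (h : SlabMom Q T A M) {a : V} (ha : IsNull a) {r : ℝ}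
    (hr : 0 < r) {ψ : ℝ → ℝ} (hψ : Tst ψ) (v : D) :
    M (r • a) (tS ψ hψ) v = ((r ^ 2 : ℝ) : ℂ) • M a (tS (fun u => ψ (r * u)) (m1_dil hψ hr)) v := by
  obtain ⟨b, hb, hab⟩ := exists_dual ha
  obtain ⟨κ, hκ, hκ1⟩ := exists_kp
  have hra : IsNull (r • a) := ⟨by rw [md_smul, md_smul_l, ha.1]; simp, mul_pos hr ha.2⟩
  have hrb : IsNull (r⁻¹ • b) :=
    ⟨by rw [md_smul, md_smul_l, hb.1]; simp, mul_pos (inv_pos.2 hr) hb.2⟩
  have hrab : GF.mdot (r • a) (r⁻¹ • b) = 1 := by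
    rw [md_smul, md_smul_l, hab]; field_simp
  have hA : Adm (r • a) (r⁻¹ • b) κ ψ := ⟨hra, hrb, hrab, hκ, hκ1, hψ⟩
  have hB : Adm a b κ fun u => ψ (r * u) := ⟨ha, hb, hab, hκ, hκ1, m1_dil hψ hr⟩
  refine ext_inner_left ℂ fun w => ?_
  have h1 := m1_tt h hA 0 hψ v w
  have h2 := (m1_tt h hB 0 (m1_dil hψ hr) v w).const_mul ((r ^ 2 : ℝ) : ℂ)
  have h3 : (fun R => mt T w v (Fs (r • a) (r⁻¹ • b) κ 0 ψ R)) =ᶠ[atTop]
      fun R => ((r ^ 2 : ℝ) : ℂ) * mt T w v (Fs a b κ 0 (fun u => ψ (r * u)) R) := by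
    filter_upwards [eventually_ge_atTop 1] with R hR
    rw [← mt_smul hT (fun m n => Fs_tst hB 0 hR m n)]
    congr 1
    funext m n x
    have e3 : ctf (r • a) (r⁻¹ • b) κ 0 ψ R x = ctf a b κ 0 (fun u => ψ (r * u)) R x := by
      unfold ctf
      rw [sub_zero, md_smul_l]
      congr 1
      unfold cut
      congr 1
      rw [md_smul_l, md_smul_l]
      funext k
      simp only [Pi.add_apply, Pi.smul_apply, Pi.sub_apply, smul_eq_mul]
      field_simp
    simp only [Fs]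
    rw [e3]
    simp only [Pi.smul_apply, smul_eq_mul]
    ring
  rw [inner_smul_right]
  exact tendsto_nhds_unique h1 (h2.congr' h3.symm)

end Vale.Agent.P352.SL

end
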