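import Vale.Agent.P352.SL.Defs
import Vale.Agent.P352.NF.MainB

/-!
# Sharp second moments define smeared ones
-/

set_option linter.all false

noncomputable section

open MeasureTheory Filter Topology Set SchwartzMap
open scoped ContDiff ComplexConjugate SchwartzMap

namespace Vale.Agent.P352.SL

open GF (Ix V Fn Fld bas eta pd bar sim o)
open H246 H496 H15 H755 H121 NF

variable {D : Type*} [NormedAddCommGroup D] [InnerProductSpace ℂ D] {Q : GF.Theory D}
  {T : Ix → Ix → GF.Fld D} {J : Ix → GF.Fld D} {A : (V → V) → D → D} {K : V → D → D}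

/-- the boost -/
def XB (a b : V) : V → V := fun z => GF.mdot a z • b - GF.mdot b z • a

lemma XB_sim (a b : V) : IsSim 0 (XB a b) := by
  refine ⟨0, fun m n => (eta m * a m) * b n - (eta m * b m) * a n, ?_, ?_⟩
  · intro m n
    ring
  · intro z n
    simp only [XB, GF.mdot, Fin.sum_univ_four, Pi.sub_apply, Pi.smul_apply, smul_eq_mul,
      Pi.zero_apply]
    ring

lemma XB_fol {a b : V} (ha : GF.mdot a a = 0) (hab : GF.mdot a b = 1) : Fol a (XB a b) := by
  refine ⟨1, 0, fun z => ?_⟩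
  unfold XB
  rw [md_sub, md_smul, md_smul, hab, ha]
  ring

lemma conv_lim (hT : Q.IsStress T) (h : NullMom Q T A K) {a b : V} {κ : V → ℝ} {ψ : ℝ → ℝ}
    (hA : Adm a b κ ψ) (y : V) (v w : D) :
    Tendsto (fun R => mt T w v (fun m n x => eta m * a m * (eta n * a n) * -GF.mdot x x *
      ctf a b κ y ψ R x)) atTop (𝓝 ((∫ u, (ψ u : ℂ) * Kh Q K a b w v u) +
        2 * ((∫ u, ((u * ψ u : ℝ) : ℂ)) * inner ℂ w (A (XB a b) v)) -
        2 * ((∫ u, ((u * (u * ψ u) : ℝ) : ℂ)) * inner ℂ w (A (fun _ => b) v)))) := by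
  have hA1 := Adm.umul hA
  have hA2 := Adm.umul hA1
  have h1 := Mom.tt h.mom hA y v w
  have h2 := nm_gen h hA1 y (XB_sim a b) (XB_fol hA.1.1 hA.2.2.1) v w
  have h3 := nm_gen h hA2 y (const_sim b) (fol_const a b) v w
  refine ((h1.add (h2.const_mul 2)).sub (h3.const_mul 2)).congr' ?_
  filter_upwards [eventually_ge_atTop 1] with R hR
  have t1 : ∀ m n, Tst (Fm a b κ y ψ R m n) := fun m n => Fm_tst hA y hR m n
  have t2 : ∀ m n, Tst (Fg a b κ y (fun u => u * ψ u) R (XB a b) m n) := fun m n =>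
    Fg_tst hA1 y hR (XB_sim a b) m n
  have t3 : ∀ m n, Tst (Fg a b κ y (fun u => u * (u * ψ u)) R (fun _ => b) m n) :=
    fun m n => Fg_tst hA2 y hR (const_sim b) m n
  have e1 := mt_add hT t1 t2 2 w v
  have e2 := mt_add hT (F := fun m n x => Fm a b κ y ψ R m n x +
    2 * Fg a b κ y (fun u => u * ψ u) R (XB a b) m n x)
    (fun m n => ⟨(t1 m n).1.add (contDiff_const.mul (t2 m n).1),
      (t1 m n).2.add ((t2 m n).2.mul_left)⟩) t3 (-2) w v
  rw [e1] at e2
  push_cast at e2
  rw [neg_mul, ← sub_eq_add_neg] at e2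
  rw [← e2]
  congr 1
  funext m n x
  simp only [Fm, Fg]
  have c1 : ctf a b κ y (fun u => u * ψ u) R x = GF.mdot a x * ctf a b κ y ψ R x := by
    unfold ctf
    ring
  have c2 : ctf a b κ y (fun u => u * (u * ψ u)) R x =
      GF.mdot a x * (GF.mdot a x * ctf a b κ y ψ R x) := by
    unfold ctf
    ring
  rw [c1, c2]
  unfold H15.sq XB
  simp only [Pi.sub_apply, Pi.smul_apply, smul_eq_mul]
  ring

lemma XX_eq {a b : V} (hb : GF.mdot b b = 0) (hab : GF.mdot a b = 1) (u : ℝ) :
    XX a (u • b) = fun z => (fun z => (-(2 * u)) • z + (-(2 * u)) • XB a b z) z +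
      (2 * u ^ 2) • b := by
  funext z n
  unfold XX XB cK
  simp only [md_smul, md_smul_l, hb, hab, Pi.add_apply, Pi.sub_apply, Pi.smul_apply, smul_eq_mul]
  ring

lemma sim_addr {r r' : ℝ} {X X' : V → V} (hX : IsSim r X) (hX' : IsSim r' X') (c : ℝ) :
    IsSim (r + c * r') (fun z => X z + c • X' z) := by
  obtain ⟨d, w, hw, h⟩ := hX
  obtain ⟨d', w', hw', h'⟩ := hX'
  refine ⟨d + c • d', fun m n => w m n + c * w' m n, fun m n => ?_, fun z n => ?_⟩
  · have h1 := hw m n
    have h2 := hw' m n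
    linear_combination h1 + c * h2
  · simp only [Pi.add_apply, Pi.smul_apply, smul_eq_mul, h, h', Fin.sum_univ_four]
    ring

lemma A_XX (R : Rep Q A) {a b : V} (hb : GF.mdot b b = 0) (hab : GF.mdot a b = 1) (u : ℝ)
    (v : D) : A (XX a (u • b)) v = ((-(2 * u) : ℝ) : ℂ) • A (fun z => z) v +
      ((-(2 * u) : ℝ) : ℂ) • A (XB a b) v + ((2 * u ^ 2 : ℝ) : ℂ) • A (fun _ => b) v := by
  have s0 : IsSim 0 (fun _ : V => (0 : V)) := const_sim 0
  have s1 : IsSim (0 + -(2 * u) * 1) fun z : V => (fun _ : V => (0 : V)) z + (-(2 * u)) • z :=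
    sim_addr s0 f7_sim_E _
  have s2 := XB_sim a b
  have e : (fun z : V => (fun _ : V => (0 : V)) z + (-(2 * u)) • z) =
      fun z => (-(2 * u)) • z := by
    funext z
    exact zero_add _
  have h1 := R.add 0 1 (-(2 * u)) _ _ v s0 f7_sim_E
  rw [e] at s1 h1
  rw [XX_eq hb hab, R.add _ 0 _ _ _ v (sim_addr s1 s2 _) (const_sim b), R.add _ 0 _ _ _ v s1 s2,
    h1, H755.A_zero' R, zero_add]

/-- the first moment -/
def I1 : 𝓢(ℝ, ℂ) →L[ℂ] ℂ :=
  (integralCLM ℂ (volume : Measure ℝ)).comp (smulLeftCLM ℂ fun u : ℝ => (u : ℂ))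

lemma I1_apply (f : 𝓢(ℝ, ℂ)) : I1 f = ∫ u : ℝ, (u : ℂ) * f u := by
  unfold I1
  rw [ContinuousLinearMap.comp_apply, integralCLM_apply]
  refine integral_congr_ae (Eventually.of_forall fun u => ?_)
  show smulLeftCLM ℂ (fun u : ℝ => (u : ℂ)) f u = _
  rw [smulLeftCLM_apply_apply Function.Complex.hasTemperateGrowth_ofReal, smul_eq_mul]

/-- the integral -/
def I0 : 𝓢(ℝ, ℂ) →L[ℂ] ℂ := integralCLM ℂ (volume : Measure ℝ)

lemma I0_apply (f : 𝓢(ℝ, ℂ)) : I0 f = ∫ u : ℝ, f u := rfl

/-- the smeared second moments that belong to the sharp ones -/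
def Mk (A : (V → V) → D → D) (K C : V → D → D) (a : V) (f : 𝓢(ℝ, ℂ)) (v : D) : D :=
  (∫ u : ℝ, f u) • K a v - (2 * ∫ u : ℝ, (u : ℂ) * f u) • (A (fun z => z) v + C a v)

theorem slab_of (hT : Q.IsStress T) (hJ : IsVirial Q T J) (h : NullMom Q T A K) :
    ∃ C : V → D → D, (∀ a b v, IsNull a → IsNull b → GF.mdot a b = 1 →
      C a v = Cop Q A K a b v) ∧ SlabMom Q T A (Mk A K C) := by
  have hk : ∀ a b, IsNull a → IsNull b → GF.mdot a b = 1 →
      H731.KC Q A a (K a) (Cop Q A K a b) := fun a b ha hb hab => kc_all hT hJ h ha hb hab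
  have huniq : ∀ a b b' v, IsNull a → IsNull b → IsNull b' → GF.mdot a b = 1 →
      GF.mdot a b' = 1 → Cop Q A K a b v = Cop Q A K a b' v := by
    intro a b b' v ha hb hb' hab hab'
    have h1 := (hk a b ha hb hab).tra b v
    have h2 := (hk a b' ha hb' hab').tra b v
    rw [h1, hab] at h2
    have h3 : ((2 * 1 : ℝ) : ℂ) • Cop Q A K a b v = ((2 * 1 : ℝ) : ℂ) • Cop Q A K a b' v :=
      sub_right_injective h2
    exact smul_right_injective D (by norm_num : ((2 * 1 : ℝ) : ℂ) ≠ 0) h3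
  classical
  let db : V → V := fun a => if h : IsNull a then (exists_dual h).choose else 0
  have hdb : ∀ a, IsNull a → IsNull (db a) ∧ GF.mdot a (db a) = 1 := by
    intro a ha
    have : db a = (exists_dual ha).choose := dif_pos ha
    rw [this]
    exact (exists_dual ha).choose_spec
  refine ⟨fun a => Cop Q A K a (db a), fun a b v ha hb hab =>
    huniq a _ _ v ha (hdb a ha).1 hb (hdb a ha).2 hab, ?_⟩
  refine ⟨h.toRep, h.gen, ?_, ?_, ?_⟩
  · intro a f g c v _
    show Mk _ _ _ _ _ _ = _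
    unfold Mk
    rw [← I0_apply, ← I0_apply, ← I0_apply, ← I1_apply, ← I1_apply, ← I1_apply, map_add, map_add,
      map_smul, map_smul]
    simp only [smul_eq_mul]
    module
  · intro a v w _
    have : (fun f : 𝓢(ℝ, ℂ) => inner ℂ w (Mk A K (fun a => Cop Q A K a (db a)) a f v)) =
        fun f => I0 f * inner ℂ w (K a v) - 2 * I1 f *
          inner ℂ w (A (fun z => z) v + Cop Q A K a (db a) v) := by
      funext f
      unfold Mk
      rw [← I0_apply, ← I1_apply, inner_sub_right, inner_smul_right, inner_smul_right]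
    rw [this]
    exact (I0.continuous.mul continuous_const).sub
      ((continuous_const.mul I1.continuous).mul continuous_const)
  · intro a b κ y ψ f v w hA hf
    have hψ := hA.2.2.2.2.2
    have hl := conv_lim hT h hA y v w
    have hl2 : inner ℂ w (Mk A K (fun a => Cop Q A K a (db a)) a f v) =
        (∫ u, (ψ u : ℂ) * Kh Q K a b w v u) +
        2 * ((∫ u, ((u * ψ u : ℝ) : ℂ)) * inner ℂ w (A (XB a b) v)) -
        2 * ((∫ u, ((u * (u * ψ u) : ℝ) : ℂ)) * inner ℂ w (A (fun _ => b) v)) := by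
      have hC : Cop Q A K a (db a) v = Cop Q A K a b v :=
        huniq a _ _ v hA.1 (hdb a hA.1).1 hA.2.1 (hdb a hA.1).2 hA.2.2.1
      have hK : ∀ u : ℝ, Kh Q K a b w v u = inner ℂ w (K a v) -
          (u : ℂ) * (2 * (inner ℂ w (A (fun z => z) v) + inner ℂ w (A (XB a b) v) +
            inner ℂ w (Cop Q A K a b v))) + (u : ℂ) * (u : ℂ) * (2 * inner ℂ w (A (fun _ => b) v)) := by
        intro u
        have h1 := (hk a b hA.1 hA.2.1 hA.2.2.1).tra (u • b) v
        have h2 : A (H148.XK a (u • b)) v = A (XX a (u • b)) v := rfl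
        rw [h2, A_XX h.toRep hA.2.1.1 hA.2.2.1, md_smul, hA.2.2.1, mul_one] at h1
        unfold Kh
        rw [h1]
        simp only [inner_add_right, inner_sub_right, inner_smul_right]
        push_cast
        ring
      have j0 : Integrable fun u => (ψ u : ℂ) * inner ℂ w (K a v) := tst_intR hψ continuous_const
      have j1 : Integrable fun u => (ψ u : ℂ) * ((u : ℂ) * (2 * (inner ℂ w (A (fun z => z) v) +
          inner ℂ w (A (XB a b) v) + inner ℂ w (Cop Q A K a b v)))) := tst_intR hψ (by fun_prop)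
      have j2 : Integrable fun u => (ψ u : ℂ) * ((u : ℂ) * (u : ℂ) *
          (2 * inner ℂ w (A (fun _ => b) v))) := tst_intR hψ (by fun_prop)
      have e : (fun u => (ψ u : ℂ) * Kh Q K a b w v u) = fun u => ((ψ u : ℂ) * inner ℂ w (K a v) -
          (ψ u : ℂ) * ((u : ℂ) * (2 * (inner ℂ w (A (fun z => z) v) +
            inner ℂ w (A (XB a b) v) + inner ℂ w (Cop Q A K a b v))))) +
          (ψ u : ℂ) * ((u : ℂ) * (u : ℂ) * (2 * inner ℂ w (A (fun _ => b) v))) := by
        funext u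
        rw [hK]
        ring
      have j3 : Integrable fun u => (ψ u : ℂ) * inner ℂ w (K a v) -
          (ψ u : ℂ) * ((u : ℂ) * (2 * (inner ℂ w (A (fun z => z) v) +
            inner ℂ w (A (XB a b) v) + inner ℂ w (Cop Q A K a b v)))) := j0.sub j1
      rw [e, integral_add j3 j2, integral_sub j0 j1, integral_mul_const]
      have e0 : ∫ u : ℝ, f u = ∫ u : ℝ, (ψ u : ℂ) :=
        integral_congr_ae (Eventually.of_forall fun u => hf u)
      have e1 : ∫ u : ℝ, (u : ℂ) * f u = ∫ u : ℝ, ((u * ψ u : ℝ) : ℂ) :=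
        integral_congr_ae (Eventually.of_forall fun u => by simp only [hf]; push_cast; rfl)
      have e3 : ∫ u : ℝ, (ψ u : ℂ) * ((u : ℂ) * (2 * (inner ℂ w (A (fun z => z) v) +
          inner ℂ w (A (XB a b) v) + inner ℂ w (Cop Q A K a b v)))) =
          (∫ u : ℝ, ((u * ψ u : ℝ) : ℂ)) * (2 * (inner ℂ w (A (fun z => z) v) +
          inner ℂ w (A (XB a b) v) + inner ℂ w (Cop Q A K a b v))) := by
        rw [← integral_mul_const]
        refine integral_congr_ae (Eventually.of_forall fun u => ?_)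
        simp only
        push_cast
        ring
      have e4 : ∫ u : ℝ, (ψ u : ℂ) * ((u : ℂ) * (u : ℂ) * (2 * inner ℂ w (A (fun _ => b) v))) =
          (∫ u : ℝ, ((u * (u * ψ u) : ℝ) : ℂ)) * (2 * inner ℂ w (A (fun _ => b) v)) := by
        rw [← integral_mul_const]
        refine integral_congr_ae (Eventually.of_forall fun u => ?_)
        simp only
        push_cast
        ring
      unfold Mk
      rw [inner_sub_right, inner_smul_right, inner_smul_right, inner_add_right, e0, e1, e3, e4]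
      simp only [hC]
      ring
    rw [hl2]
    exact hl

end Vale.Agent.P352.SL
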