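import Mathlib.Analysis.Distribution.SchwartzSpace.Fourier
import Mathlib.Analysis.Calculus.BumpFunction.InnerProduct
import Mathlib.Analysis.Calculus.BumpFunction.FiniteDimension
import Mathlib.Analysis.Calculus.ContDiff.Bounds

/-!
# P352 SL: dense sets of Schwartz functions (Mathlib only)
-/

set_option linter.all false

noncomputable section

open MeasureTheory Filter Topology SchwartzMap Complex
open scoped SchwartzMap ComplexConjugate ContDiff FourierTransform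

namespace Vale.Agent.P352.SL

section cut

variable {E : Type*} [NormedAddCommGroup E] [NormedSpace ℝ E] [FiniteDimensional ℝ E]

/-- derivatives of scaled functions -/
theorem norm_iter_scale {h : E → ℂ} (hh : ContDiff ℝ ∞ h) {C : ℕ → ℝ}
    (hC : ∀ i x, ‖iteratedFDeriv ℝ i h x‖ ≤ C i) {c : ℝ} (hc0 : 0 ≤ c) (hc : c ≤ 1) (i : ℕ) (x : E) :
    ‖iteratedFDeriv ℝ i (fun y => h (c • y)) x‖ ≤ C i := by
  set L : E →L[ℝ] E := c • ContinuousLinearMap.id ℝ E with hL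
  have e1 : (fun y => h (c • y)) = h ∘ L := by
    funext y
    simp [hL]
  have hLn : ‖L‖ ≤ 1 := by
    refine ContinuousLinearMap.opNorm_le_bound _ zero_le_one fun y => ?_
    simp only [hL, ContinuousLinearMap.smul_apply, ContinuousLinearMap.id_apply, norm_smul,
      Real.norm_eq_abs, abs_of_nonneg hc0]
    exact mul_le_mul_of_nonneg_right hc (norm_nonneg y)
  rw [e1, L.iteratedFDeriv_comp_right (n := ∞) hh x (mod_cast le_top)]
  refine (ContinuousMultilinearMap.norm_compContinuousLinearMap_le _ _).trans ?_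
  refine (mul_le_mul (hC i _) (?_ : _ ≤ (1 : ℝ)) (by positivity) ?_).trans_eq (mul_one _)
  · exact Finset.prod_le_one (fun _ _ => norm_nonneg _) fun _ _ => hLn
  · exact (norm_nonneg _).trans (hC i x)

variable (E) in
/-- a cutoff with bounded derivatives -/
theorem exists_cut : ∃ (h : E → ℂ) (C : ℕ → ℝ), ContDiff ℝ ∞ h ∧ HasCompactSupport h ∧
    (∀ x, ‖x‖ ≤ 1 → h x = 1) ∧ ∀ i x, ‖iteratedFDeriv ℝ i h x‖ ≤ C i := by
  let b : ContDiffBump (0 : E) := ⟨1, 2, by norm_num, by norm_num⟩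
  have h1 : ContDiff ℝ ∞ (fun x => ((b x : ℝ) : ℂ)) := ofRealCLM.contDiff.comp b.contDiff
  have h2 : HasCompactSupport (fun x => ((b x : ℝ) : ℂ)) :=
    b.hasCompactSupport.comp_left (g := fun r : ℝ => (r : ℂ)) ofReal_zero
  have h3 : ∀ i, ∃ C, ∀ x, ‖iteratedFDeriv ℝ i (fun x => ((b x : ℝ) : ℂ)) x‖ ≤ C := fun i => by
    have hc : Continuous (iteratedFDeriv ℝ i fun x => ((b x : ℝ) : ℂ)) :=
      h1.continuous_iteratedFDeriv (mod_cast le_top)
    obtain ⟨C, hC⟩ := (h2.iteratedFDeriv (𝕜 := ℝ) i).exists_bound_of_continuous hc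
    exact ⟨C, hC⟩
  choose C hC using h3
  refine ⟨_, C, h1, h2, fun x hx => ?_, hC⟩
  rw [b.one_of_mem_closedBall (by simpa using hx), ofReal_one]

/-- Schwartz functions are limits of compactly supported ones. -/
theorem exists_cc (f : 𝓢(E, ℂ)) : ∃ g : ℕ → 𝓢(E, ℂ), (∀ n, HasCompactSupport (g n)) ∧
    Tendsto g atTop (𝓝 f) := by
  obtain ⟨h, C, hs, hc, h1, hC⟩ := exists_cut E
  have hC0 : ∀ i, 0 ≤ C i := fun i => (norm_nonneg _).trans (hC i 0)
  have hn : ∀ n : ℕ, (0 : ℝ) < (n + 1 : ℝ)⁻¹ := fun n => by positivity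
  have hn1 : ∀ n : ℕ, (n + 1 : ℝ)⁻¹ ≤ 1 := fun n =>
    inv_le_one_of_one_le₀ (by have := n.cast_nonneg (α := ℝ); linarith)
  have hsn : ∀ n : ℕ, ContDiff ℝ ∞ fun x => h ((n + 1 : ℝ)⁻¹ • x) := fun n =>
    hs.comp (contDiff_const_smul _)
  have hcn : ∀ n : ℕ, HasCompactSupport fun x => h ((n + 1 : ℝ)⁻¹ • x) := fun n =>
    hc.comp_homeomorph (Homeomorph.smulOfNeZero ((n + 1 : ℝ)⁻¹) (hn n).ne')
  have hgs : ∀ n : ℕ, ContDiff ℝ ∞ fun x => h ((n + 1 : ℝ)⁻¹ • x) * f x := fun n =>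
    (hsn n).mul (f.smooth ⊤)
  have hgc : ∀ n : ℕ, HasCompactSupport fun x => h ((n + 1 : ℝ)⁻¹ • x) * f x := fun n =>
    (hcn n).mul_right
  refine ⟨fun n => (hgc n).toSchwartzMap (hgs n), fun n => hgc n, ?_⟩
  rw [(schwartz_withSeminorms ℝ E ℂ).tendsto_nhds]
  rintro ⟨k, l⟩ ε hε
  set M : ℝ := (∑ i ∈ Finset.range (l + 1), (l.choose i : ℝ) * C i *
    SchwartzMap.seminorm ℝ (k + 1) (l - i) f) + SchwartzMap.seminorm ℝ (k + 1) l f with hM
  have hM0 : 0 ≤ M := by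
    rw [hM]
    refine add_nonneg (Finset.sum_nonneg fun i _ => ?_) (apply_nonneg _ _)
    exact mul_nonneg (mul_nonneg (Nat.cast_nonneg _) (hC0 i)) (apply_nonneg _ _)
  have hlim : Tendsto (fun n : ℕ => (n + 1 : ℝ)⁻¹ * M) atTop (𝓝 0) := by
    have := (tendsto_one_div_add_atTop_nhds_zero_nat (𝕜 := ℝ)).mul_const M
    simpa [one_div] using this
  filter_upwards [hlim.eventually_lt_const hε] with n hn'
  refine lt_of_le_of_lt ?_ hn'
  change SchwartzMap.seminorm ℝ k l ((hgc n).toSchwartzMap (hgs n) - f) ≤ _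
  refine seminorm_le_bound ℝ k l _ (mul_nonneg (hn n).le hM0) fun x => ?_
  have e0 : (⇑((hgc n).toSchwartzMap (hgs n) - f) : E → ℂ) =
      (fun x => h ((n + 1 : ℝ)⁻¹ • x) * f x) - ⇑f := rfl
  rw [e0]
  rcases lt_or_ge ‖x‖ (n + 1 : ℝ) with hx | hx
  · have h4 : ((fun x => h ((n + 1 : ℝ)⁻¹ • x) * f x) - ⇑f : E → ℂ) =ᶠ[𝓝 x] fun _ => 0 := by
      filter_upwards [(isOpen_lt continuous_norm continuous_const).mem_nhds hx] with y hy
      have h5 : ‖(n + 1 : ℝ)⁻¹ • y‖ ≤ 1 := by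
        rw [norm_smul, Real.norm_eq_abs, abs_of_pos (hn n), inv_mul_le_iff₀ (by positivity), mul_one]
        exact (le_of_lt hy)
      simp [h1 _ h5]
    rw [(h4.iteratedFDeriv ℝ l).eq_of_nhds]
    have : iteratedFDeriv ℝ l (fun _ : E => (0 : ℂ)) x = 0 := by
      have h6 := congrFun (iteratedFDeriv_zero_fun (𝕜 := ℝ) (n := l) (E := E) (F := ℂ)) x
      simpa using h6
    rw [this, norm_zero, mul_zero]
    exact mul_nonneg (hn n).le hM0
  · have hx0 : 0 < ‖x‖ := lt_of_lt_of_le (by positivity) hx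
    have h7 : ‖x‖ ^ k ≤ (n + 1 : ℝ)⁻¹ * ‖x‖ ^ (k + 1) := by
      rw [pow_succ, mul_comm (‖x‖ ^ k), ← mul_assoc]
      refine le_mul_of_one_le_left (by positivity) ?_
      rw [← div_eq_inv_mul, one_le_div (by positivity)]
      exact hx
    have h8 : ‖iteratedFDeriv ℝ l ((fun x => h ((n + 1 : ℝ)⁻¹ • x) * f x) - ⇑f) x‖ ≤
        ‖iteratedFDeriv ℝ l (fun x => h ((n + 1 : ℝ)⁻¹ • x) * f x) x‖ +
          ‖iteratedFDeriv ℝ l (⇑f) x‖ := by
      rw [iteratedFDeriv_sub_apply ((hgs n).of_le (mod_cast le_top)).contDiffAt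
        (f.smooth l).contDiffAt]
      exact norm_sub_le _ _
    have h9 : ‖iteratedFDeriv ℝ l (fun x => h ((n + 1 : ℝ)⁻¹ • x) * f x) x‖ ≤
        ∑ i ∈ Finset.range (l + 1), (l.choose i : ℝ) * C i * ‖iteratedFDeriv ℝ (l - i) (⇑f) x‖ := by
      refine (norm_iteratedFDeriv_mul_le (N := ∞) (hsn n) (f.smooth ⊤) x (mod_cast le_top)).trans ?_
      refine Finset.sum_le_sum fun i _ => ?_
      gcongr
      exact norm_iter_scale hs hC (hn n).le (hn1 n) i x
    have h10 : ∀ j, ‖x‖ ^ (k + 1) * ‖iteratedFDeriv ℝ j (⇑f) x‖ ≤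
        SchwartzMap.seminorm ℝ (k + 1) j f := fun j => le_seminorm ℝ (k + 1) j f x
    calc ‖x‖ ^ k * ‖iteratedFDeriv ℝ l ((fun x => h ((n + 1 : ℝ)⁻¹ • x) * f x) - ⇑f) x‖
        ≤ ((n + 1 : ℝ)⁻¹ * ‖x‖ ^ (k + 1)) * ((∑ i ∈ Finset.range (l + 1),
            (l.choose i : ℝ) * C i * ‖iteratedFDeriv ℝ (l - i) (⇑f) x‖) +
              ‖iteratedFDeriv ℝ l (⇑f) x‖) := by
          gcongr
          exact h8.trans (add_le_add_left h9 _)
      _ = (n + 1 : ℝ)⁻¹ * ((∑ i ∈ Finset.range (l + 1), (l.choose i : ℝ) * C i *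
            (‖x‖ ^ (k + 1) * ‖iteratedFDeriv ℝ (l - i) (⇑f) x‖)) +
              ‖x‖ ^ (k + 1) * ‖iteratedFDeriv ℝ l (⇑f) x‖) := by
          rw [mul_assoc, mul_add, Finset.mul_sum]
          congr 2
          refine Finset.sum_congr rfl fun i _ => ?_
          ring
      _ ≤ (n + 1 : ℝ)⁻¹ * M := by
          rw [hM]
          have := hC0
          gcongr with i _
          · exact mul_nonneg (Nat.cast_nonneg _) (hC0 i)
          · exact h10 _
          · exact h10 _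

theorem dense_hcs : Dense {f : 𝓢(E, ℂ) | HasCompactSupport f} := fun f => by
  obtain ⟨g, hg, hl⟩ := exists_cc f
  exact mem_closure_of_tendsto hl (Eventually.of_forall hg)

end cut

section four

variable {E : Type*} [NormedAddCommGroup E] [InnerProductSpace ℝ E] [FiniteDimensional ℝ E]
  [MeasurableSpace E] [BorelSpace E]

theorem dense_hcs_four : Dense {f : 𝓢(E, ℂ) | HasCompactSupport (𝓕 f : 𝓢(E, ℂ))} := by
  have h := (dense_hcs (E := E)).preimage
    (FourierTransform.fourierCLE ℂ 𝓢(E, ℂ)).toHomeomorph.isOpenMap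
  exact h

end four

theorem dense_cc : Dense {f : 𝓢(ℝ, ℂ) | HasCompactSupport f} := dense_hcs

theorem dense_FS' : Dense {f : 𝓢(ℝ, ℂ) | ∃ K : ℝ, ∀ ξ, ξ < -K ∨ K < ξ → 𝓕 f ξ = 0} := by
  refine (dense_hcs_four (E := ℝ)).mono fun f (hf : HasCompactSupport (𝓕 f : 𝓢(ℝ, ℂ))) => ?_
  obtain ⟨K, hK⟩ := hf.isBounded.subset_closedBall 0
  refine ⟨K, fun ξ hξ => ?_⟩
  by_contra h
  have h1 := hK (subset_tsupport _ h)
  rw [Metric.mem_closedBall, dist_zero_right, Real.norm_eq_abs, abs_le] at h1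
  rcases hξ with h2 | h2 <;> linarith [h1.1, h1.2]

end Vale.Agent.P352.SL

end
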