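import Vale.Agent.P352.SL.M1a
import Vale.Agent.P352.SL.S3a
import Vale.Agent.P352.H15.Lor

/-!
# P352 SL, block M1: the properties of the smeared second moments
-/

set_option linter.all false

noncomputable section

open MeasureTheory Filter Topology Set SchwartzMap
open scoped ContDiff ComplexConjugate SchwartzMap

namespace Vale.Agent.P352.SL

open GF (Ix V Fn bas eta pd bar sim o IsLor)
open H246 H496 H15 H755 NF

variable {D : Type*} [NormedAddCommGroup D] [InnerProductSpace ℂ D] {Q : GF.Theory D}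
  {T : Ix → Ix → GF.Fld D} {A : (V → V) → D → D} {M : V → 𝓢(ℝ, ℂ) → D → D}

/-- real and imaginary parts -/
lemma m1_parts {f : 𝓢(ℝ, ℂ)} (hf : HasCompactSupport f) :
    ∃ (p q : ℝ → ℝ) (hp : Tst p) (hq : Tst q), f = tS p hp + Complex.I • tS q hq := by
  have hp : Tst fun u => (f u).re :=
    ⟨Complex.reCLM.contDiff.comp (f.smooth _), hf.comp_left (g := Complex.re) rfl⟩
  have hq : Tst fun u => (f u).im :=
    ⟨Complex.imCLM.contDiff.comp (f.smooth _), hf.comp_left (g := Complex.im) rfl⟩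
  refine ⟨_, _, hp, hq, ?_⟩
  ext u
  simp only [SchwartzMap.add_apply, SchwartzMap.smul_apply, tS_apply, smul_eq_mul]
  rw [mul_comm]
  exact (Complex.re_add_im (f u)).symm

lemma m1_int {p q : ℝ → ℝ} (hp : Tst p) (hq : Tst q) {F : ℝ → ℂ} (hF : Continuous F) :
    ∫ u, F u * ((p u : ℂ) + Complex.I * (q u : ℂ)) =
      (∫ u, F u * (p u : ℂ)) + Complex.I * ∫ u, F u * (q u : ℂ) := by
  have i1 : Integrable fun u => F u * (p u : ℂ) := by
    have := tst_intR hp hF
    exact this.congr (Eventually.of_forall fun u => mul_comm _ _)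
  have i2 : Integrable fun u => F u * (q u : ℂ) := by
    have := tst_intR hq hF
    exact this.congr (Eventually.of_forall fun u => mul_comm _ _)
  rw [← integral_const_mul, ← integral_add i1 (i2.const_mul _)]
  refine integral_congr_ae (Eventually.of_forall fun u => ?_)
  simp only
  ring

/-- the translations of the second moments -/
theorem m_tra (hT : Q.IsStress T) (h : SlabMom Q T A M) {a : V} (ha : IsNull a) (y : V)
    {f g : 𝓢(ℝ, ℂ)} (hf : HasCompactSupport f) (hg : ∀ u, g u = f (u - GF.mdot a y)) (v : D) :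
    Q.U 1 GF.one y (M a f (Q.U 1 GF.one (-y) v)) = M a g v +
      (2 * ∫ u, g u) • A (fun z => GF.mdot y z • a - GF.mdot a z • y) v +
      (2 * ∫ u : ℝ, (u : ℂ) * g u) • A (fun _ => y) v -
      ((GF.mdot y y : ℂ) * ∫ u, g u) • A (fun _ => a) v := by
  obtain ⟨p, q, hp, hq, hpq⟩ := m1_parts hf
  have hg' : g = tS (fun u => p (u - GF.mdot a y)) (m1_shift hp _) +
      Complex.I • tS (fun u => q (u - GF.mdot a y)) (m1_shift hq _) := by
    ext u
    rw [hg, hpq]
    rfl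
  have hgu : ∀ u, g u = (p (u - GF.mdot a y) : ℂ) + Complex.I * (q (u - GF.mdot a y) : ℂ) := by
    intro u
    rw [hg']
    rfl
  have i0 : ∫ u, g u = (∫ u, (p (u - GF.mdot a y) : ℂ)) +
      Complex.I * ∫ u, (q (u - GF.mdot a y) : ℂ) := by
    have := m1_int (m1_shift hp (GF.mdot a y)) (m1_shift hq (GF.mdot a y)) (F := fun _ => 1)
      continuous_const
    simp only [one_mul] at this
    rw [← this]
    exact integral_congr_ae (Eventually.of_forall hgu)
  have i1 : ∫ u : ℝ, (u : ℂ) * g u = (∫ u : ℝ, (u : ℂ) * (p (u - GF.mdot a y) : ℂ)) +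
      Complex.I * ∫ u : ℝ, (u : ℂ) * (q (u - GF.mdot a y) : ℂ) := by
    have := m1_int (m1_shift hp (GF.mdot a y)) (m1_shift hq (GF.mdot a y))
      (F := fun u : ℝ => (u : ℂ)) Complex.continuous_ofReal
    rw [← this]
    refine integral_congr_ae (Eventually.of_forall fun u => ?_)
    simp only
    rw [hgu]
  have h1 := m1_tra hT h ha y hp v
  have h2 := m1_tra hT h ha y hq v
  unfold ro at h1 h2
  rw [i0, i1, hg', h.lin a _ _ Complex.I v ha, hpq, h.lin a _ _ Complex.I _ ha,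
    U_add one_pos isLor_one, U_smul one_pos isLor_one, h1, h2]
  module

/-- the complex conjugation on the Schwartz space -/
def cjL : 𝓢(ℝ, ℂ) →L[ℝ] 𝓢(ℝ, ℂ) :=
  postcompCLM (𝕜 := ℝ) (Complex.conjCLE : ℂ →L[ℝ] ℂ)

lemma cjL_apply (f : 𝓢(ℝ, ℂ)) (u : ℝ) : cjL f u = conj (f u) := rfl

/-- dilations of the Schwartz space -/
def dlL (r : ℝ) (hr : r ≠ 0) : 𝓢(ℝ, ℂ) →L[ℂ] 𝓢(ℝ, ℂ) :=
  compCLMOfContinuousLinearEquiv ℂ (ContinuousLinearEquiv.unitsEquivAut ℝ (Units.mk0 r hr))

lemma dlL_apply (r : ℝ) (hr : r ≠ 0) (f : 𝓢(ℝ, ℂ)) (u : ℝ) : dlL r hr f u = f (r * u) := by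
  show f _ = _
  congr 1
  simp [ContinuousLinearEquiv.unitsEquivAut, mul_comm]

/-- the second derivative is a continuous linear map -/
def ddL : 𝓢(ℝ, ℂ) →L[ℂ] 𝓢(ℝ, ℂ) := (derivCLM ℂ ℂ).comp (derivCLM ℂ ℂ)

lemma ddL_apply (f : 𝓢(ℝ, ℂ)) : ddL f = dd f := rfl

lemma dd_apply (f : 𝓢(ℝ, ℂ)) (u : ℝ) : dd f u = deriv (deriv f) u := rfl

lemma dd_cc {f : 𝓢(ℝ, ℂ)} (hf : HasCompactSupport f) : HasCompactSupport (dd f) := by
  have : (dd f : ℝ → ℂ) = deriv (deriv f) := funext fun u => rfl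
  rw [this]
  exact hf.deriv.deriv

lemma dd_cj (f : 𝓢(ℝ, ℂ)) : dd (cjL f) = cjL (dd f) := by
  have h : ∀ g : 𝓢(ℝ, ℂ), derivCLM ℂ ℂ (cjL g) = cjL (derivCLM ℂ ℂ g) := by
    intro g
    ext u
    have h1 := (Complex.conjCLE : ℂ →L[ℝ] ℂ).hasFDerivAt.comp_hasDerivAt u (g.hasDerivAt u)
    exact h1.deriv
  unfold dd
  rw [h, h]

lemma dd_tr (f : 𝓢(ℝ, ℂ)) (s : ℝ) : dd (compSubConstCLM ℂ s f) = compSubConstCLM ℂ s (dd f) := by
  have h : ∀ g : 𝓢(ℝ, ℂ), derivCLM ℂ ℂ (compSubConstCLM ℂ s g) =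
      compSubConstCLM ℂ s (derivCLM ℂ ℂ g) := by
    intro g
    ext u
    exact ((g.hasDerivAt (u - s)).comp_sub_const u s).deriv
  unfold dd
  rw [h, h]

lemma dd_dl (f : 𝓢(ℝ, ℂ)) {r : ℝ} (hr : r ≠ 0) :
    dd (dlL r hr f) = ((r ^ 2 : ℝ) : ℂ) • dlL r hr (dd f) := by
  have h : ∀ g : 𝓢(ℝ, ℂ), derivCLM ℂ ℂ (dlL r hr g) = (r : ℂ) • dlL r hr (derivCLM ℂ ℂ g) := by
    intro g
    ext u
    have h0 : HasDerivAt (fun u : ℝ => r * u) r u := by
      simpa using (hasDerivAt_id u).const_mul r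
    have h1 : HasDerivAt (fun u => g (r * u)) (r • deriv g (r * u)) u :=
      HasDerivAt.scomp u (g.hasDerivAt (r * u)) h0
    have h2 : (dlL r hr g : ℝ → ℂ) = fun u => g (r * u) := funext fun u => dlL_apply r hr g u
    show deriv (dlL r hr g) u = _
    rw [h2, h1.deriv, SchwartzMap.smul_apply, dlL_apply]
    simp
  unfold dd
  rw [h, map_smul, h, smul_smul]
  congr 1
  push_cast
  ring

/-- from compactly supported functions to all functions -/
lemma m1_ext {E : Type*} [TopologicalSpace E] [T2Space E] {F G : 𝓢(ℝ, ℂ) → E}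
    (hF : Continuous F) (hG : Continuous G)
    (h : ∀ f : 𝓢(ℝ, ℂ), HasCompactSupport f → F f = G f) (f : 𝓢(ℝ, ℂ)) : F f = G f :=
  congrFun (Continuous.ext_on dense_cc hF hG fun f hf => h f hf) f

lemma m1_dd_int {f : 𝓢(ℝ, ℂ)} (hf : HasCompactSupport f) :
    ∫ u, dd f u = 0 ∧ ∫ u : ℝ, (u : ℂ) * dd f u = 0 := by
  have i1 : ∀ g : 𝓢(ℝ, ℂ), ∫ u, derivCLM ℂ ℂ g u = 0 := fun g =>
    integral_eq_zero_of_hasDerivAt_of_integrable (f := g) (fun u => g.hasDerivAt u)
      (derivCLM ℂ ℂ g).integrable g.integrable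
  refine ⟨i1 _, ?_⟩
  have hd : ∀ u : ℝ, HasDerivAt (fun u : ℝ => (u : ℂ) * derivCLM ℂ ℂ f u - f u)
      ((u : ℂ) * dd f u) u := by
    intro u
    have h0 : HasDerivAt (fun u : ℝ => (u : ℂ)) ((1 : ℝ) : ℂ) u := (hasDerivAt_id u).ofReal_comp
    have h1 : HasDerivAt (fun u : ℝ => (u : ℂ) * derivCLM ℂ ℂ f u - f u)
        (((1 : ℝ) : ℂ) * derivCLM ℂ ℂ f u + (u : ℂ) * deriv (derivCLM ℂ ℂ f) u - deriv f u) u :=
      (h0.mul ((derivCLM ℂ ℂ f).hasDerivAt u)).sub (f.hasDerivAt u)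
    have e : ((1 : ℝ) : ℂ) * derivCLM ℂ ℂ f u + (u : ℂ) * deriv (derivCLM ℂ ℂ f) u - deriv f u =
        (u : ℂ) * dd f u := by
      rw [Complex.ofReal_one, one_mul]
      show deriv f u + (u : ℂ) * deriv (derivCLM ℂ ℂ f) u - deriv f u = _
      rw [add_sub_cancel_left]
      rfl
    rw [← e]
    exact h1
  have hc1 : HasCompactSupport (derivCLM ℂ ℂ f) := by
    have : (derivCLM ℂ ℂ f : ℝ → ℂ) = deriv f := rfl
    rw [this]; exact hf.deriv
  have k1 : Integrable fun u : ℝ => (u : ℂ) * dd f u :=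
    (Complex.continuous_ofReal.mul (dd f).continuous).integrable_of_hasCompactSupport
      (dd_cc hf).mul_left
  have k2 : Integrable fun u : ℝ => (u : ℂ) * derivCLM ℂ ℂ f u - f u :=
    ((Complex.continuous_ofReal.mul (derivCLM ℂ ℂ f).continuous).integrable_of_hasCompactSupport
      hc1.mul_left).sub f.integrable
  exact integral_eq_zero_of_hasDerivAt_of_integrable hd k1 k2

/-- `dd` is linear -/
lemma dd_lin (f g : 𝓢(ℝ, ℂ)) (c : ℂ) : dd (f + c • g) = dd f + c • dd g := by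
  rw [← ddL_apply, ← ddL_apply, ← ddL_apply, map_add, map_smul]

lemma m1_adjC (hT : Q.IsStress T) (h : SlabMom Q T A M) {a : V} (ha : IsNull a)
    (f : 𝓢(ℝ, ℂ)) (v w : D) : inner ℂ (M a f v) w = inner ℂ v (M a (cjL f) w) := by
  refine m1_ext (F := fun f => inner ℂ (M a f v) w) (G := fun f => inner ℂ v (M a (cjL f) w))
    ?_ ((h.cont a w v ha).comp cjL.continuous) (fun f hf => ?_) f
  · have h1 := Complex.continuous_conj.comp (h.cont a v w ha)
    have e : (fun f => inner ℂ (M a f v) w) = (fun z => conj z) ∘ fun f => inner ℂ w (M a f v) := by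
      funext f
      exact (inner_conj_symm _ _).symm
    rw [e]
    exact h1
  · obtain ⟨p, q, hp, hq, hpq⟩ := m1_parts hf
    have e : cjL f = tS p hp + (-Complex.I) • tS q hq := by
      ext u
      rw [cjL_apply, hpq]
      simp only [SchwartzMap.add_apply, SchwartzMap.smul_apply, tS_apply, smul_eq_mul, map_add,
        map_mul, Complex.conj_ofReal, Complex.conj_I]
    rw [e, hpq, h.lin a _ _ _ v ha, h.lin a _ _ _ w ha, inner_add_left, inner_smul_left,
      inner_add_right, inner_smul_right, m1_adj hT h ha hp, m1_adj hT h ha hq, Complex.conj_I]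

lemma m1_covC (hT : Q.IsStress T) (h : SlabMom Q T A M) {s : ℝ} {L : Ix → V} {a b : V}
    (v : D) (hs : 0 < s) (hL : IsLor L) (ha : IsNull a) (hb : IsNull b)
    (hab : sim 1 L 0 a = s • b) {f : 𝓢(ℝ, ℂ)} (hf : HasCompactSupport f) :
    Q.U s L 0 (M a f v) = M b f (Q.U s L 0 v) := by
  obtain ⟨p, q, hp, hq, hpq⟩ := m1_parts hf
  rw [hpq, h.lin a _ _ _ v ha, h.lin b _ _ _ _ hb, U_add hs hL, U_smul hs hL,
    m1_cov hT h v hs hL ha hb hab, m1_cov hT h v hs hL ha hb hab]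

lemma m1_homC (hT : Q.IsStress T) (h : SlabMom Q T A M) {a : V} (ha : IsNull a) {r : ℝ}
    (hr : 0 < r) {f : 𝓢(ℝ, ℂ)} (hf : HasCompactSupport f) (v : D) :
    M (r • a) f v = ((r ^ 2 : ℝ) : ℂ) • M a (dlL r hr.ne' f) v := by
  obtain ⟨p, q, hp, hq, hpq⟩ := m1_parts hf
  have hra : IsNull (r • a) := ⟨by rw [md_smul, md_smul_l, ha.1]; simp, mul_pos hr ha.2⟩
  have e : dlL r hr.ne' f = tS (fun u => p (r * u)) (m1_dil hp hr) +
      Complex.I • tS (fun u => q (r * u)) (m1_dil hq hr) := by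
    ext u
    rw [dlL_apply, hpq]
    rfl
  rw [e, hpq, h.lin _ _ _ _ v hra, h.lin a _ _ _ v ha, m1_hom hT h ha hr, m1_hom hT h ha hr]
  module

/-- the image null vector -/
lemma m1_null {s : ℝ} {L : Ix → V} {a b : V} (hs : 0 < s) (hL : IsLor L) (ha : IsNull a)
    (hab : sim 1 L 0 a = s • b) : IsNull b := by
  have h1 : IsNull (sim 1 L 0 a) := isNull_lor hL ha
  have e : b = s⁻¹ • sim 1 L 0 a := by rw [hab, smul_smul, inv_mul_cancel₀ hs.ne', one_smul]
  rw [e]
  exact ⟨by rw [md_smul, md_smul_l, h1.1]; simp, mul_pos (inv_pos.2 hs) h1.2⟩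

lemma m1_tr (f : 𝓢(ℝ, ℂ)) (c : ℝ) {g : 𝓢(ℝ, ℂ)} (hg : ∀ u, g u = f (u - c)) :
    g = compSubConstCLM ℂ c f := by
  ext u
  rw [hg, compSubConstCLM_apply]

lemma m1_trc (f : 𝓢(ℝ, ℂ)) (c : ℝ) (hf : HasCompactSupport f) :
    HasCompactSupport (compSubConstCLM ℂ c f) := by
  have : (compSubConstCLM ℂ c f : ℝ → ℂ) = fun u => f (u - c) := rfl
  rw [this]
  exact hf.comp_homeomorph (Homeomorph.subRight c)

/-- translations of the second derivatives -/
lemma m1_traN (hT : Q.IsStress T) (h : SlabMom Q T A M) {a : V} (ha : IsNull a) (y : V)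
    (f : 𝓢(ℝ, ℂ)) (v : D) :
    Q.U 1 GF.one y (M a (dd f) v) = M a (dd (compSubConstCLM ℂ (GF.mdot a y) f))
      (Q.U 1 GF.one y v) := by
  refine ext_inner_left ℂ fun w => ?_
  refine m1_ext (F := fun f => inner ℂ w (Q.U 1 GF.one y (M a (dd f) v)))
    (G := fun f => inner ℂ w (M a (dd (compSubConstCLM ℂ (GF.mdot a y) f)) (Q.U 1 GF.one y v)))
    ?_ ((h.cont a _ w ha).comp (ddL.continuous.comp
      (compSubConstCLM ℂ (GF.mdot a y)).continuous)) (fun f hf => ?_) f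
  · have e : (fun f => inner ℂ w (Q.U 1 GF.one y (M a (dd f) v))) =
        fun f => inner ℂ (Q.U 1 GF.one (-y) w) (M a (ddL f) v) := by
      funext f
      rw [← Q.U_inner 1 GF.one (-y) w _ one_pos isLor_one, Uadd1, neg_add_cancel, Uone]
      rfl
    rw [e]
    exact (h.cont a v _ ha).comp ddL.continuous
  · have h1 := m_tra hT h ha y (dd_cc hf) (g := dd (compSubConstCLM ℂ (GF.mdot a y) f))
      (fun u => by rw [dd_tr]; rfl) (Q.U 1 GF.one y v)
    obtain ⟨i0, i1⟩ := m1_dd_int (m1_trc f (GF.mdot a y) hf)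
    rw [i0, i1, Uadd1, neg_add_cancel, Uone] at h1
    rw [h1]
    simp

/-- **the properties of `N a f = M a f''`** -/
theorem sn_of (hT : Q.IsStress T) (h : SlabMom Q T A M) : SN Q fun a f => M a (dd f) where
  lin a f g c v ha := by
    rw [dd_lin]
    exact h.lin a _ _ c v ha
  cont a v w ha := (h.cont a v w ha).comp ddL.continuous
  adj a f g v w ha hg := by
    have e : g = cjL f := by
      ext u
      exact hg u
    rw [e, dd_cj]
    exact m1_adjC hT h ha (dd f) v w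
  cov s L y a b f g v hs hL ha hab hg := by
    have hb : IsNull b := m1_null hs hL ha hab
    have e : g = compSubConstCLM ℂ (GF.mdot b y) f := m1_tr f _ hg
    have h1 : ∀ z : D, Q.U s L y z = Q.U 1 GF.one y (Q.U s L 0 z) := by
      intro z
      rw [h.mul 1 GF.one y s L 0 z one_pos hs isLor_one hL, one_mul]
      congr 1
      · funext m n
        simp [sim, GF.one, bas]
      · funext n
        simp [sim]
    have h2 : Q.U s L 0 (M a (dd f) v) = M b (dd f) (Q.U s L 0 v) := by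
      refine ext_inner_left ℂ fun w => ?_
      refine m1_ext (F := fun f => inner ℂ w (Q.U s L 0 (M a (dd f) v)))
        (G := fun f => inner ℂ w (M b (dd f) (Q.U s L 0 v)))
        ?_ ((h.cont b _ w hb).comp ddL.continuous) (fun f hf => ?_) f
      · have e : (fun f => inner ℂ w (Q.U s L 0 (M a (dd f) v))) =
            fun f => inner ℂ (Q.U s⁻¹ (linv L) 0 w) (M a (ddL f) v) := by
          funext f
          conv_lhs => rw [← U_linv' h.toRep hs hL w, Q.U_inner s L 0 _ _ hs hL]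
          rfl
        rw [e]
        exact (h.cont a v _ ha).comp ddL.continuous
      · rw [m1_covC hT h v hs hL ha hb hab (dd_cc hf)]
    rw [h1, h2, m1_traN hT h hb y f, e, ← h1]
  hom r a f g v hr ha hg := by
    have e : g = dlL r hr.ne' f := by
      ext u
      rw [hg, dlL_apply]
    rw [e]
    refine ext_inner_left ℂ fun w => ?_
    have hra : IsNull (r • a) := ⟨by rw [md_smul, md_smul_l, ha.1]; simp, mul_pos hr ha.2⟩
    refine m1_ext (F := fun f => inner ℂ w (M (r • a) (dd f) v))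
      (G := fun f => inner ℂ w (M a (dd (dlL r hr.ne' f)) v))
      ((h.cont _ _ w hra).comp ddL.continuous) ((h.cont a _ w ha).comp
        (ddL.continuous.comp (dlL r hr.ne').continuous)) (fun f hf => ?_) f
    rw [m1_homC hT h ha hr (dd_cc hf), dd_dl]
    have h3 : M a (((r ^ 2 : ℝ) : ℂ) • dlL r hr.ne' (dd f)) v =
        ((r ^ 2 : ℝ) : ℂ) • M a (dlL r hr.ne' (dd f)) v := by
      have h4 := h.lin a 0 (dlL r hr.ne' (dd f)) ((r ^ 2 : ℝ) : ℂ) v ha
      have h5 := h.lin a 0 0 1 v ha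
      have h6 : M a 0 v = 0 := by simpa using h5
      rw [zero_add, h6, zero_add] at h4
      exact h4
    rw [h3]

end Vale.Agent.P352.SL

end
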