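import Vale.Agent.P352.SL.ComA
import Vale.Agent.P352.NC.E1

/-!
# P352 SL: operators that commute with the generator of translations commute with translations
-/

set_option linter.all false

noncomputable section

open MeasureTheory Filter Topology SchwartzMap Complex Asymptotics
open scoped SchwartzMap ComplexConjugate ContDiff LineDeriv

namespace Vale.Agent.P352.SL

open GF (Ix V Fn Fld Theory Sch IsLor bas o sim pd tr ev bar)
open H246 H496 H755 H15 H846 H246R H746 N86 NC NF
open UniformSpace (Completion)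

variable {D : Type*} [NormedAddCommGroup D] [InnerProductSpace ℂ D]
variable {Q : GF.Theory D} {T : Ix → Ix → GF.Fld D}
variable {A : (V → V) → D → D}

section

variable (R : H15.Rep Q A) {B : D → D} (hsym : ∀ v w, inner ℂ (B v) w = inner ℂ v (B w)) {b : V}
  (hbd : ∀ v, ∃ C : ℝ, ∀ t : ℝ, |t| ≤ 1 → ‖B (Q.U 1 GF.one (t • b) v)‖ ≤ C)
  (hc : ∀ v, B (A (fun _ => b) v) = A (fun _ => b) (B v))
include R hsym hbd hc

lemma comU_der (v w : D) : HasDerivAt (fun h : ℝ =>
    inner ℂ (Q.U 1 GF.one (h • b) w) (B (Q.U 1 GF.one (h • b) v))) 0 0 := by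
  obtain ⟨C, hC⟩ := hbd v
  set P := A (fun _ => b) with hP
  have hPs : ∀ v w, inner ℂ (P v) w = inner ℂ v (P w) := fun v w => A_symm R (const_sim b) v w
  have dw := NC.e1_der R b w
  have dv := NC.e1_der R b v
  have U0 : ∀ v : D, Q.U 1 GF.one ((0 : ℝ) • b) v = v := by
    intro v
    rw [zero_smul]
    exact Uone v
  -- the three parts
  set E : ℝ → ℂ := fun h => inner ℂ (Q.U 1 GF.one (h • b) w - w - h • (I • P w))
    (B (Q.U 1 GF.one (h • b) v)) with hE
  set m : ℝ → ℂ := fun h => inner ℂ (B (I • P w)) (Q.U 1 GF.one (h • b) v) with hm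
  set n : ℝ → ℂ := fun h => inner ℂ (B w) (Q.U 1 GF.one (h • b) v) with hn
  have hsplit : (fun h : ℝ => inner ℂ (Q.U 1 GF.one (h • b) w) (B (Q.U 1 GF.one (h • b) v))) =
      fun h => (E h + (h : ℂ) * m h) + n h := by
    funext h
    simp only [hE, hm, hn]
    rw [hsym, hsym, inner_sub_left, inner_sub_left]
    have e : (h • (I • P w) : D) = (h : ℂ) • (I • P w) := (Complex.coe_smul h _).symm
    rw [e, inner_smul_left, Complex.conj_ofReal]
    ring
  have dm : HasDerivAt m (inner ℂ (B (I • P w)) (I • P v)) 0 :=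
    ((innerSL ℂ (B (I • P w))).restrictScalars ℝ).hasFDerivAt.comp_hasDerivAt (0 : ℝ) dv
  have dn : HasDerivAt n (inner ℂ (B w) (I • P v)) 0 :=
    ((innerSL ℂ (B w)).restrictScalars ℝ).hasFDerivAt.comp_hasDerivAt (0 : ℝ) dv
  have dhm : HasDerivAt (fun h : ℝ => (h : ℂ) * m h) (m 0) 0 := by
    have h1 : HasDerivAt (fun h : ℝ => (h : ℂ)) 1 0 := Complex.ofRealCLM.hasDerivAt
    have h2 := h1.mul dm
    refine h2.congr_deriv ?_
    simp
  have dE : HasDerivAt E 0 0 := by
    rw [hasDerivAt_iff_isLittleO_nhds_zero]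
    have h1 := (hasDerivAt_iff_isLittleO_nhds_zero.1 dw)
    simp only [zero_add, U0] at h1
    simp only [zero_add, smul_zero, sub_zero]
    have hE0 : E 0 = 0 := by
      simp only [hE]
      rw [U0, zero_smul, sub_zero, sub_self, inner_zero_left]
    rw [hE0]
    simp only [sub_zero]
    have h2 : E =O[𝓝 0] fun h : ℝ => Q.U 1 GF.one (h • b) w - w - h • (I • P w) := by
      refine IsBigO.of_bound C ?_
      have h3 : ∀ᶠ h : ℝ in 𝓝 0, |h| ≤ 1 := by
        filter_upwards [Metric.closedBall_mem_nhds (0:ℝ) one_pos] with h hh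
        simpa [Real.dist_eq] using hh
      filter_upwards [h3] with h hh
      have h4 := norm_inner_le_norm (𝕜 := ℂ) (Q.U 1 GF.one (h • b) w - w - h • (I • P w))
        (B (Q.U 1 GF.one (h • b) v))
      refine h4.trans ?_
      rw [mul_comm]
      exact mul_le_mul_of_nonneg_right (hC h hh) (norm_nonneg _)
    exact h2.trans_isLittleO h1
  rw [hsplit]
  have h3 := (dE.add dhm).add dn
  refine h3.congr_deriv ?_
  simp only [hm]
  rw [U0, hsym, inner_smul_left, inner_smul_right, hPs, hsym w (P v), hc]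
  simp only [Complex.conj_I]
  ring

/-- **Symmetric operators that commute with the generator of the translations along `b` commute
with these translations**, if they are locally bounded along the orbits. -/
theorem com_U (t : ℝ) (v : D) :
    B (Q.U 1 GF.one (t • b) v) = Q.U 1 GF.one (t • b) (B v) := by
  have hk : ∀ w r, HasDerivAt (fun h : ℝ =>
      inner ℂ (Q.U 1 GF.one (h • b) w) (B (Q.U 1 GF.one (h • b) v))) 0 r := by
    intro w r
    have h1 := comU_der R hsym hbd hc (Q.U 1 GF.one (r • b) v) (Q.U 1 GF.one (r • b) w)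
    have h2 : HasDerivAt (fun h : ℝ => inner ℂ (Q.U 1 GF.one (h • b) (Q.U 1 GF.one (r • b) w))
      (B (Q.U 1 GF.one (h • b) (Q.U 1 GF.one (r • b) v)))) 0 (r - r) := by
      rw [sub_self]
      exact h1
    have h3 := h2.comp_sub_const r r
    have e : (fun x : ℝ => inner ℂ (Q.U 1 GF.one ((x - r) • b) (Q.U 1 GF.one (r • b) w))
      (B (Q.U 1 GF.one ((x - r) • b) (Q.U 1 GF.one (r • b) v)))) = fun h : ℝ =>
        inner ℂ (Q.U 1 GF.one (h • b) w) (B (Q.U 1 GF.one (h • b) v)) := by
      funext x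
      rw [Uadd1, Uadd1, ← add_smul, sub_add_cancel]
    rw [← e]
    exact h3
  refine ext_inner_left ℂ fun z => ?_
  have h4 := is_const_of_deriv_eq_zero (f := fun h : ℝ => inner ℂ
    (Q.U 1 GF.one (h • b) (Q.U 1 GF.one (-(t • b)) z)) (B (Q.U 1 GF.one (h • b) v)))
    (fun x => (hk _ x).differentiableAt) (fun x => (hk _ x).deriv) t 0
  simp only [zero_smul] at h4
  rw [Uadd1, add_neg_cancel, Uone, Uone, Uone] at h4
  rw [h4]
  exact inner_U1 (Q := Q) _ _ _

end

end Vale.Agent.P352.SL

end
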