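import Vale.Agent.P352.SL.M2
import Vale.Agent.P352.SL.ComU
import Vale.Agent.P352.NF.F4a
import Vale.Agent.P352.Bdl.B1

/-!
# P352 SL: the smeared second moments of second derivatives vanish
-/

set_option linter.all false

noncomputable section

open MeasureTheory Filter Topology SchwartzMap Complex
open scoped SchwartzMap ComplexConjugate ContDiff FourierTransform

namespace Vale.Agent.P352.SL

open GF (Ix V Fn Fld Theory Sch IsLor bas o sim pd tr ev bar)
open H246 H496 H755 H15 H846 H246R H746 N86 NC NF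
open UniformSpace (Completion)

/-! ### Translation invariant functionals -/

lemma r_conv (g k : 𝓢(ℝ, ℂ)) : ∃ c : 𝓢(ℝ, ℂ), ∀ x, c x = ∫ a, k a * g (x - a) := by
  refine ⟨SchwartzMap.convolution (ContinuousLinearMap.mul ℂ ℂ) k g, fun x => ?_⟩
  rw [SchwartzMap.convolution_apply]
  rfl

lemma r_comm {g k c : 𝓢(ℝ, ℂ)} (hc : ∀ x, c x = ∫ a, k a * g (x - a)) :
    ∀ x, c x = ∫ a, g a * k (x - a) := by
  intro x
  rw [hc, ← integral_sub_left_eq_self _ _ x]
  congr 1
  ext a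
  rw [sub_sub_cancel]
  ring

lemma inv_int {κ : 𝓢(ℝ, ℂ) →L[ℂ] ℂ} {g k : 𝓢(ℝ, ℂ)}
    (hg : ∀ (t : ℝ) (g' : 𝓢(ℝ, ℂ)), (∀ u, g' u = g (u - t)) → κ g' = κ g)
    (hk : ∀ (t : ℝ) (g' : 𝓢(ℝ, ℂ)), (∀ u, g' u = k (u - t)) → κ g' = κ k) :
    (∫ u, k u) * κ g = (∫ u, g u) * κ k := by
  obtain ⟨c, hc⟩ := r_conv g k
  have h1 := conv_identity_gen volume κ g k c hc
  have h2 := conv_identity_gen volume κ k g c (r_comm hc)
  have e1 : ∀ a, κ (compSubConstCLM ℂ a g) = κ g := fun a =>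
    hg a _ fun u => compSubConstCLM_apply ..
  have e2 : ∀ a, κ (compSubConstCLM ℂ a k) = κ k := fun a =>
    hk a _ fun u => compSubConstCLM_apply ..
  simp only [e1, smul_eq_mul] at h1
  simp only [e2, smul_eq_mul] at h2
  rw [← integral_mul_const, ← integral_mul_const, ← h1, ← h2]

/-- a real bump function with integral one -/
lemma exists_one : ∃ h : 𝓢(ℝ, ℂ), (∀ u, conj (h u) = h u) ∧ HasCompactSupport h ∧
    ∫ u, h u = 1 := by
  let f : ContDiffBump (0 : ℝ) := ⟨1, 2, one_pos, one_lt_two⟩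
  have hd : ContDiff ℝ ∞ fun u => ((f.normed volume u : ℝ) : ℂ) :=
    Complex.ofRealCLM.contDiff.comp f.contDiff_normed
  have hc : HasCompactSupport fun u => ((f.normed volume u : ℝ) : ℂ) :=
    f.hasCompactSupport_normed.comp_left (g := fun x : ℝ => (x : ℂ)) Complex.ofReal_zero
  refine ⟨hc.toSchwartzMap hd, fun u => ?_, hc, ?_⟩
  · show conj (((f.normed volume u : ℝ) : ℂ)) = ((f.normed volume u : ℝ) : ℂ)
    exact Complex.conj_ofReal _
  · show ∫ u, ((f.normed volume u : ℝ) : ℂ) = 1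
    have h1 : ∫ u, ((f.normed volume u : ℝ) : ℂ) = ((∫ u, f.normed volume u : ℝ) : ℂ) :=
      integral_ofReal
    rw [h1, f.integral_normed, Complex.ofReal_one]

variable {D : Type*} [NormedAddCommGroup D] [InnerProductSpace ℂ D]
variable {Q : GF.Theory D} {T : Ix → Ix → GF.Fld D} {J : Ix → GF.Fld D}
variable {A : (V → V) → D → D} {N M : V → 𝓢(ℝ, ℂ) → D → D}

lemma sn_ext {f g : 𝓢(ℝ, ℂ)} (h : ∀ u, f u = g u) (a : V) (v : D) : N a f v = N a g v := by
  have : f = g := by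
    ext u
    exact h u
  rw [this]

/-- the matrix elements as functionals -/
lemma sn_fun (hS : SN Q N) {a : V} (ha : IsNull a) (v w : D) :
    ∃ κ : 𝓢(ℝ, ℂ) →L[ℂ] ℂ, ∀ f, κ f = inner ℂ w (N a f v) := by
  have h0 : N a 0 v = 0 := by
    have h1 := hS.lin a 0 0 1 v ha
    rw [one_smul, one_smul, add_zero] at h1
    have h2 : N a 0 v + N a 0 v = N a 0 v + 0 := by rw [add_zero]; exact h1.symm
    exact add_left_cancel h2
  let l : 𝓢(ℝ, ℂ) →ₗ[ℂ] ℂ :=
    { toFun := fun f => inner ℂ w (N a f v)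
      map_add' := fun f g => by
        have h1 := hS.lin a f g 1 v ha
        rw [one_smul, one_smul] at h1
        rw [h1, inner_add_right]
      map_smul' := fun c f => by
        have h1 := hS.lin a 0 f c v ha
        rw [zero_add, h0, zero_add] at h1
        rw [h1, inner_smul_right]
        rfl }
  exact ⟨⟨l, hS.cont a v w ha⟩, fun f => rfl⟩

section

variable (hT : Q.IsStress T) (hJ : IsVirial Q T J) (h : SlabMom Q T A M) {a : V}
  (ha : IsNull a)
include hT hJ h ha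

/-- translations -/
lemma m_inv {f g : 𝓢(ℝ, ℂ)} (hr : ∀ u, conj (f u) = f u) (hf : HasCompactSupport f) {t : ℝ}
    (hg : ∀ u, g u = f (u - t)) (v : D) : M a (dd g) v = M a (dd f) v := by
  obtain ⟨b, hb, hab⟩ := H755.exists_dual ha
  have hS := sn_of hT h
  have h1a : sim 1 GF.one 0 a = (1 : ℝ) • a := by
    rw [sim_one, one_smul]
    funext n
    simp
  have hbd : ∀ v, ∃ C : ℝ, ∀ t : ℝ, |t| ≤ 1 → ‖M a (dd f) (Q.U 1 GF.one (t • b) v)‖ ≤ C := by
    intro v
    obtain ⟨C, k, hC, hb'⟩ := sn_grow hS ha f v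
    refine ⟨C * 2 ^ k, fun t ht => ?_⟩
    obtain ⟨g', hg'⟩ := exists_tr f (-t)
    have h2 := hS.cov 1 GF.one (t • b) a a g' f v one_pos isLor_one ha h1a (fun u => by
      rw [hg', md_smul, hab]
      congr 1
      ring)
    have h3 := hb' (-t) g' hg'
    rw [← h2, U_nrm0 one_pos isLor_one]
    refine h3.trans (mul_le_mul_of_nonneg_left ?_ hC)
    refine pow_le_pow_left₀ (by positivity) ?_ k
    rw [abs_neg]
    linarith
  have hcm : ∀ v, M a (dd f) (A (fun _ => b) v) = A (fun _ => b) (M a (dd f) v) := fun v =>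
    m_A0 hT hJ h ha hr hf (const_sim b) (fol_const a b) v
  have h3 := com_U h.toRep (m_symm hT h ha hr) hbd hcm t (Q.U 1 GF.one (-(t • b)) v)
  have h4 := hS.cov 1 GF.one (t • b) a a f g (Q.U 1 GF.one (-(t • b)) v) one_pos isLor_one ha h1a
    (fun u => by
      rw [hg, md_smul, hab, mul_one])
  rw [← h3, Uadd1, add_neg_cancel, Uone] at h4
  exact h4.symm

/-- real functions -/
lemma m_int {f k : 𝓢(ℝ, ℂ)} (hr : ∀ u, conj (f u) = f u) (hf : HasCompactSupport f)
    (hr' : ∀ u, conj (k u) = k u) (hk : HasCompactSupport k) (hk1 : ∫ u, k u = 1) (v : D) :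
    M a (dd f) v = (∫ u, f u) • M a (dd k) v := by
  refine ext_inner_left ℂ fun w => ?_
  obtain ⟨κ, hκ⟩ := sn_fun (sn_of hT h) ha v w
  have h1 := inv_int (κ := κ) (g := f) (k := k)
    (fun t g' hg' => by rw [hκ, hκ]; exact congrArg _ (m_inv hT hJ h ha hr hf hg' v))
    (fun t g' hg' => by rw [hκ, hκ]; exact congrArg _ (m_inv hT hJ h ha hr' hk hg' v))
  rw [hk1, one_mul, hκ, hκ] at h1
  rw [inner_smul_right]
  exact h1

/-- the bump function -/
lemma m_bump {k : 𝓢(ℝ, ℂ)} (hr : ∀ u, conj (k u) = k u) (hk : HasCompactSupport k)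
    (hk1 : ∫ u, k u = 1) (v : D) : M a (dd k) v = 0 := by
  obtain ⟨b, hb, hab⟩ := H755.exists_dual ha
  have hS := sn_of hT h
  obtain ⟨L, h0, hL, hd, he⟩ := f4_boost ha hb hab
  have hN := f4_Nf_sim a b
  have hsym := m_symm hT h ha hr
  have hcm : ∀ v, M a (dd k) (A (Nf a b) v) = A (Nf a b) (M a (dd k) v) := fun v =>
    m_A0 hT hJ h ha hr hk hN ⟨1, 0, fun z => by rw [f4_Nf_fol, hab, ha.1]; ring⟩ v
  have hcov : ∀ e v, Q.U 1 (L e) 0 (M a (dd k) v) =
      ((Real.exp e : ℝ) : ℂ) • M a (dd k) (Q.U 1 (L e) 0 v) := by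
    intro e v
    obtain ⟨g, hg⟩ := exists_dl k (Real.exp_pos (-e))
    have h1 := hS.cov 1 (L e) 0 a (Real.exp (-e) • a) k k v one_pos (hL e) ha
      (by rw [he, one_smul]) (fun u => by rw [show GF.mdot (Real.exp (-e) • a) 0 = 0 by
        simp [GF.mdot], sub_zero])
    have h2 := hS.hom (Real.exp (-e)) a k g (Q.U 1 (L e) 0 v) (Real.exp_pos _) ha hg
    have hgr : ∀ u, conj (g u) = g u := fun u => by rw [hg, hr]
    have hgc : HasCompactSupport g := by
      have e1 : (g : ℝ → ℂ) = (k : ℝ → ℂ) ∘ (Homeomorph.mulLeft₀ _ (Real.exp_pos (-e)).ne') :=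
        funext fun u => hg u
      rw [e1]
      exact hk.comp_homeomorph _
    have hgi : ∫ u, g u = ((Real.exp e : ℝ) : ℂ) := by
      have e1 : (fun u => g u) = fun u => k (Real.exp (-e) * u) := funext fun u => hg u
      rw [e1, Measure.integral_comp_mul_left (fun u => k u), hk1, abs_of_pos
        (inv_pos.2 (Real.exp_pos _)), Real.exp_neg, inv_inv]
      rw [Complex.real_smul, mul_one]
    have h3 := m_int hT hJ h ha hgr hgc hr hk hk1 (Q.U 1 (L e) 0 v)
    rw [h1, h2, h3, hgi]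
  have hder : ∀ v : D, HasDerivAt (fun e => Q.U 1 (L e) 0 v) (I • A (Nf a b) v) 0 := by
    intro v
    refine h.toRep.der (fun _ => 1) L (fun _ => 0) (Nf a b) v rfl h0 rfl
      (fun e => ⟨one_pos, hL e⟩) fun n x => ?_
    have e : (fun e => sim 1 (L e) 0 x n) = fun e => ∑ m, x m * L e m n := by
      funext e
      simp [sim]
    rw [e]
    have h2 : HasDerivAt (fun e => ∑ m, x m * L e m n)
        (∑ m, x m * (GF.eta m * (a m * b n - b m * a n))) 0 :=
      HasDerivAt.fun_sum fun m _ => (hd m n).const_mul (x m)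
    refine h2.congr_deriv ?_
    show _ = GF.mdot a x * b n - GF.mdot b x * a n
    simp only [GF.mdot, Fin.sum_univ_four]
    ring
  have hU0 : ∀ v : D, Q.U 1 (L 0) 0 v = v := by
    intro v
    rw [h0]
    exact U1_zero_all (Q := Q) v
  refine ext_inner_left ℂ fun z => ?_
  have h1 : HasDerivAt (fun e => inner ℂ z (Q.U 1 (L e) 0 (M a (dd k) v)))
      (inner ℂ z (I • A (Nf a b) (M a (dd k) v))) 0 :=
    ((innerSL ℂ z).restrictScalars ℝ).hasFDerivAt.comp_hasDerivAt (0 : ℝ) (hder (M a (dd k) v))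
  have h2 : HasDerivAt (fun e => inner ℂ (M a (dd k) z) (Q.U 1 (L e) 0 v))
      (inner ℂ (M a (dd k) z) (I • A (Nf a b) v)) 0 :=
    ((innerSL ℂ (M a (dd k) z)).restrictScalars ℝ).hasFDerivAt.comp_hasDerivAt (0 : ℝ) (hder v)
  have h3 : HasDerivAt (fun e : ℝ => ((Real.exp e : ℝ) : ℂ)) 1 0 := by
    have h5 := (Real.hasDerivAt_exp 0).ofReal_comp
    refine h5.congr_deriv ?_
    simp
  have h6 := h3.mul h2
  have e1 : (fun e => inner ℂ z (Q.U 1 (L e) 0 (M a (dd k) v))) =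
      (fun e : ℝ => ((Real.exp e : ℝ) : ℂ)) *
        fun e => inner ℂ (M a (dd k) z) (Q.U 1 (L e) 0 v) := by
    funext e
    rw [hcov, inner_smul_right]
    show _ = ((Real.exp e : ℝ) : ℂ) * inner ℂ (M a (dd k) z) (Q.U 1 (L e) 0 v)
    rw [hsym]
  rw [← e1] at h6
  have h7 := h1.unique h6
  rw [inner_smul_right, inner_smul_right, hU0, hsym, hsym, hcm] at h7
  simp only [Real.exp_zero, ofReal_one] at h7
  rw [inner_zero_right]
  linear_combination -h7

end

/-- **The smeared second moments of second derivatives vanish.** -/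
theorem m_zero (hT : Q.IsStress T) (hJ : IsVirial Q T J) (h : SlabMom Q T A M) {a : V}
    (ha : IsNull a) {f : 𝓢(ℝ, ℂ)} (hf : HasCompactSupport f) (v : D) : M a (dd f) v = 0 := by
  obtain ⟨f1, f2, r1, r2, rfl, s1, s2⟩ := re_im f
  obtain ⟨k, hr, hk, hk1⟩ := exists_one
  rw [m_split hT h ha,
    m_int hT hJ h ha r1 (hf.mono' (subset_closure.trans s1)) hr hk hk1,
    m_int hT hJ h ha r2 (hf.mono' (subset_closure.trans s2)) hr hk hk1,
    m_bump hT hJ h ha hr hk hk1, smul_zero, smul_zero, smul_zero, add_zero]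

end Vale.Agent.P352.SL

end
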