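import Vale.Agent.P352.SL.M1

/-!
# P352 SL, block M6: sharp second moments from smeared ones
-/

set_option linter.all false

noncomputable section

open MeasureTheory Filter Topology Set SchwartzMap
open scoped ContDiff ComplexConjugate SchwartzMap

namespace Vale.Agent.P352.SL

open GF (Ix V Fn bas eta pd bar sim o IsLor)
open H246 H496 H15 H755 NF

variable {D : Type*} [NormedAddCommGroup D] [InnerProductSpace ℂ D] {Q : GF.Theory D}
  {T : Ix → Ix → GF.Fld D} {A : (V → V) → D → D} {M : V → 𝓢(ℝ, ℂ) → D → D}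

lemma m6_smul (R : Rep Q A) {r : ℝ} {X : V → V} (hX : IsSim r X) (c : ℝ) (v : D) :
    A (fun z => c • X z) v = (c : ℂ) • A X v := by
  have h1 := R.add r r (c - 1) X X v hX hX
  have e : (fun z => X z + (c - 1) • X z) = fun z => c • X z := by
    funext z
    rw [sub_smul, one_smul]
    abel
  rw [e] at h1
  rw [h1]
  push_cast
  rw [sub_smul, one_smul]
  abel

lemma m6_dd {χ : ℝ → ℝ} (hχ : Tst χ) (u : ℝ) :
    dd (tS χ hχ) u = ((deriv (deriv χ) u : ℝ) : ℂ) := by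
  have h1 : deriv (tS χ hχ) = fun u => ((deriv χ u : ℝ) : ℂ) := by
    funext u
    exact ((H746.tdif hχ u).hasDerivAt.ofReal_comp).deriv
  rw [dd_apply, h1]
  exact ((H746.tdif (H746.tder hχ) u).hasDerivAt.ofReal_comp).deriv

lemma m6_tS_cc {χ : ℝ → ℝ} (hχ : Tst χ) : HasCompactSupport (tS χ hχ) :=
  hχ.2.comp_left (g := fun r : ℝ => (r : ℂ)) (by simp)

/-- the second moments depend only on two moments of the test function -/
lemma m6_mom (h : SlabMom Q T A M)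
    (hz : ∀ a, IsNull a → ∀ f : 𝓢(ℝ, ℂ), HasCompactSupport f → ∀ v, M a (dd f) v = 0)
    {ρ₀ ρ₁ : ℝ → ℝ} (h0 : Tst ρ₀) (h00 : ∫ u, ρ₀ u = 1) (h01 : ∫ u, u * ρ₀ u = 0)
    (h1 : Tst ρ₁) (h10 : ∫ u, ρ₁ u = 0) (h11 : ∫ u, u * ρ₁ u = 1) {ψ : ℝ → ℝ} (hψ : Tst ψ)
    {a : V} (ha : IsNull a) (v : D) :
    M a (tS ψ hψ) v = ((∫ u, ψ u : ℝ) : ℂ) • M a (tS ρ₀ h0) v +
      ((∫ u, u * ψ u : ℝ) : ℂ) • M a (tS ρ₁ h1) v := by
  obtain ⟨χ, hχ, he⟩ := a_mom h0 h00 h01 h1 h10 h11 hψ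
  have e : tS ψ hψ = (dd (tS χ hχ) + ((∫ u, ψ u : ℝ) : ℂ) • tS ρ₀ h0) +
      ((∫ u, u * ψ u : ℝ) : ℂ) • tS ρ₁ h1 := by
    ext u
    simp only [SchwartzMap.add_apply, SchwartzMap.smul_apply, tS_apply, smul_eq_mul, m6_dd]
    conv_lhs => rw [he u]
    push_cast
    ring
  rw [e, h.lin a _ _ _ v ha, h.lin a _ _ _ v ha, hz a ha _ (m6_tS_cc hχ), zero_add]

lemma m6_shift0 (ρ : ℝ → ℝ) (c : ℝ) : ∫ u, (ρ (u - c) : ℂ) = ((∫ u, ρ u : ℝ) : ℂ) := by
  rw [integral_complex_ofReal, integral_sub_right_eq_self ρ c]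

lemma m6_shift1 {ρ : ℝ → ℝ} (hρ : Tst ρ) (c : ℝ) : ∫ u : ℝ, (u : ℂ) * (ρ (u - c) : ℂ) =
    (((∫ u, u * ρ u) + c * ∫ u, ρ u : ℝ) : ℂ) := by
  have e : (fun u : ℝ => (u : ℂ) * (ρ (u - c) : ℂ)) = fun u => ((u * ρ (u - c) : ℝ) : ℂ) := by
    funext u; push_cast; rfl
  rw [e, integral_complex_ofReal]
  congr 1
  have h1 := integral_sub_right_eq_self (fun u : ℝ => (u + c) * ρ u) c (μ := volume)
  simp only [sub_add_cancel] at h1
  rw [h1, show (fun u : ℝ => (u + c) * ρ u) = fun u => u * ρ u + c * ρ u by funext u; ring,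
    integral_add (H746.tst_int2 hρ) ((H746.tst_int1 hρ).const_mul c), integral_const_mul]

/-- the translated second moment is a quadratic polynomial -/
lemma m6_poly (hT : Q.IsStress T) (h : SlabMom Q T A M)
    (hz : ∀ a, IsNull a → ∀ f : 𝓢(ℝ, ℂ), HasCompactSupport f → ∀ v, M a (dd f) v = 0)
    {ρ₀ ρ₁ : ℝ → ℝ} (h0 : Tst ρ₀) (h00 : ∫ u, ρ₀ u = 1) (h01 : ∫ u, u * ρ₀ u = 0)
    (h1 : Tst ρ₁) (h10 : ∫ u, ρ₁ u = 0) (h11 : ∫ u, u * ρ₁ u = 1) {a b : V}
    (ha : IsNull a) (hb : GF.mdot b b = 0) (u : ℝ) (v : D) :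
    Q.U 1 GF.one (u • b) (M a (tS ρ₀ h0) (Q.U 1 GF.one (-(u • b)) v)) = M a (tS ρ₀ h0) v +
      (u : ℂ) • ((GF.mdot a b : ℂ) • M a (tS ρ₁ h1) v + (2 : ℂ) • A (ro a b) v) +
      ((u : ℂ) ^ 2) • ((2 * GF.mdot a b : ℂ) • A (fun _ => b) v) := by
  have e1 : ro a (u • b) = fun z => u • ro a b z := by
    funext z
    unfold ro
    rw [md_smul_l, mul_smul, smul_sub, smul_smul (GF.mdot a z) u b, smul_smul u (GF.mdot a z) b,
      mul_comm u (GF.mdot a z)]
  have e2 : GF.mdot (u • b) (u • b) = 0 := by rw [md_smul, md_smul_l, hb]; simp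
  have e3 : GF.mdot a (u • b) = u * GF.mdot a b := by rw [md_smul]
  have e4 : A (fun _ => u • b) v = (u : ℂ) • A (fun _ => b) v :=
    m6_smul h.toRep (const_sim b) u v
  have hs0 : ∫ x, ρ₀ (x - GF.mdot a (u • b)) = 1 := by
    rw [integral_sub_right_eq_self ρ₀, h00]
  have hs1 : ∫ x, x * ρ₀ (x - GF.mdot a (u • b)) = GF.mdot a (u • b) := by
    have := m6_shift1 h0 (GF.mdot a (u • b))
    rw [h00, h01, zero_add, mul_one] at this
    have e : (fun u' : ℝ => (u' : ℂ) * (ρ₀ (u' - GF.mdot a (u • b)) : ℂ)) =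
        fun u' => ((u' * ρ₀ (u' - GF.mdot a (u • b)) : ℝ) : ℂ) := by
      funext u; push_cast; rfl
    rw [e, integral_complex_ofReal] at this
    exact_mod_cast this
  rw [m1_tra hT h ha (u • b) h0 v, m6_mom h hz h0 h00 h01 h1 h10 h11 (m1_shift h0 _) ha v,
    hs0, hs1, m6_shift0, m6_shift1 h0, h00, h01, e1, m6_smul h.toRep (ro_sim a b), e2, e3, e4]
  push_cast
  module

/-- **sharp second moments** -/
theorem nullMom (hT : Q.IsStress T) (h : SlabMom Q T A M)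
    (hz : ∀ a, IsNull a → ∀ f : 𝓢(ℝ, ℂ), HasCompactSupport f → ∀ v, M a (dd f) v = 0) :
    ∃ K : V → D → D, NullMom Q T A K := by
  obtain ⟨ρ₀, h0, h00, h01⟩ := a_psi0
  obtain ⟨ρ₁, h1, h10, h11⟩ := a_psi1
  refine ⟨fun a => M a (tS ρ₀ h0), ?_⟩
  refine { toRep := h.toRep, gen := h.gen, mom := ?_, cont := ?_ }
  · intro a b κ y ψ v w hA
    obtain ⟨ha, hb, hab, hκ, hκ1, hψ⟩ := hA
    have hA : Adm a b κ ψ := ⟨ha, hb, hab, hκ, hκ1, hψ⟩
    have l1 := m1_tt h hA y hψ v w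
    have l2 := m1_gen h (Adm.umul hA) y (ro_sim a b) (ro_fol ha b) v w
    have l3 := m1_gen h (Adm.umul (Adm.umul hA)) y (const_sim b) (fol_const a b) v w
    have l4 := (l1.add (l2.const_mul 2)).add (l3.const_mul 2)
    have l5 : (fun R => mt T w v (Fm a b κ y ψ R)) =ᶠ[atTop]
        fun R => mt T w v (Fs a b κ y ψ R) +
          2 * mt T w v (Fg a b κ y (fun u => u * ψ u) R (ro a b)) +
          2 * mt T w v (Fg a b κ y (fun u => u * (u * ψ u)) R fun _ => b) := by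
      filter_upwards [eventually_ge_atTop 1] with R hR
      have t1 : ∀ m n, Tst (Fs a b κ y ψ R m n) := fun m n => Fs_tst hA y hR m n
      have t2 : ∀ m n, Tst (Fg a b κ y (fun u => u * ψ u) R (ro a b) m n) :=
        fun m n => Fg_tst (Adm.umul hA) y hR (ro_sim a b) m n
      have t3 : ∀ m n, Tst (Fg a b κ y (fun u => u * (u * ψ u)) R (fun _ => b) m n) :=
        fun m n => Fg_tst (Adm.umul (Adm.umul hA)) y hR (const_sim b) m n
      have s1 : ∀ m n, Tst fun x => Fs a b κ y ψ R m n x +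
          2 * Fg a b κ y (fun u => u * ψ u) R (ro a b) m n x :=
        fun m n => ⟨(t1 m n).1.add (contDiff_const.mul (t2 m n).1),
          (t1 m n).2.add ((t2 m n).2.mul_left)⟩
      have e1 := mt_add hT t1 t2 2 w v
      have e2 := mt_add hT (F := fun m n x => Fs a b κ y ψ R m n x +
        2 * Fg a b κ y (fun u => u * ψ u) R (ro a b) m n x) s1 t3 2 w v
      rw [e1] at e2
      push_cast at e2
      rw [← e2]
      congr 1
      funext m n x
      have c1 : ctf a b κ y (fun u => u * ψ u) R x = GF.mdot a x * ctf a b κ y ψ R x := by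
        unfold ctf
        ring
      have c2 : ctf a b κ y (fun u => u * (u * ψ u)) R x =
          GF.mdot a x ^ 2 * ctf a b κ y ψ R x := by
        unfold ctf
        ring
      have c3 : ro a b x n = GF.mdot b x * a n - GF.mdot a x * b n := by
        simp only [ro, Pi.sub_apply, Pi.smul_apply, smul_eq_mul]
      simp only [Fs, Fg, Fm, H15.sq]
      rw [c1, c2, c3]
      ring
    have l6 := l4.congr' l5.symm
    have key : ∀ u : ℝ, Kh Q (fun a => M a (tS ρ₀ h0)) a b w v u =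
        inner ℂ w (M a (tS ρ₀ h0) v) + (u : ℂ) * (inner ℂ w (M a (tS ρ₁ h1) v) +
          2 * inner ℂ w (A (ro a b) v)) + (u : ℂ) ^ 2 * (2 * inner ℂ w (A (fun _ => b) v)) := by
      intro u
      unfold Kh
      rw [m6_poly hT h hz h0 h00 h01 h1 h10 h11 ha hb.1 u v, hab]
      simp only [inner_add_right, inner_smul_right, Complex.ofReal_one]
      ring
    have hlim : (∫ u, (ψ u : ℂ) * Kh Q (fun a => M a (tS ρ₀ h0)) a b w v u) =
        inner ℂ w (M a (tS ψ hψ) v) + 2 * ((∫ u, ((u * ψ u : ℝ) : ℂ)) *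
          inner ℂ w (A (ro a b) v)) + 2 * ((∫ u, ((u * (u * ψ u) : ℝ) : ℂ)) *
          inner ℂ w (A (fun _ => b) v)) := by
      have e : (fun u : ℝ => (ψ u : ℂ) * Kh Q (fun a => M a (tS ρ₀ h0)) a b w v u) =
          fun u : ℝ => ((ψ u : ℂ) * inner ℂ w (M a (tS ρ₀ h0) v) +
            ((u * ψ u : ℝ) : ℂ) * (inner ℂ w (M a (tS ρ₁ h1) v) +
              2 * inner ℂ w (A (ro a b) v))) +
            ((u * (u * ψ u) : ℝ) : ℂ) * (2 * inner ℂ w (A (fun _ => b) v)) := by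
        funext u
        rw [key]
        push_cast
        ring
      have j1 : Integrable fun u : ℝ => (ψ u : ℂ) * inner ℂ w (M a (tS ρ₀ h0) v) :=
        tst_intR hψ continuous_const
      have j2 : Integrable fun u : ℝ => ((u * ψ u : ℝ) : ℂ) * (inner ℂ w (M a (tS ρ₁ h1) v) +
              2 * inner ℂ w (A (ro a b) v)) := tst_intR (tst_umul hψ) continuous_const
      have j3 : Integrable fun u : ℝ => ((u * (u * ψ u) : ℝ) : ℂ) *
          (2 * inner ℂ w (A (fun _ => b) v)) := tst_intR (tst_umul (tst_umul hψ)) continuous_const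
      have j12 : Integrable fun u : ℝ => (ψ u : ℂ) * inner ℂ w (M a (tS ρ₀ h0) v) +
          ((u * ψ u : ℝ) : ℂ) * (inner ℂ w (M a (tS ρ₁ h1) v) + 2 * inner ℂ w (A (ro a b) v)) :=
        j1.add j2
      rw [e, integral_add j12 j3, integral_add j1 j2, integral_mul_const, integral_mul_const, integral_mul_const,
        m6_mom h hz h0 h00 h01 h1 h10 h11 hψ ha v, inner_add_right, inner_smul_right,
        inner_smul_right, integral_complex_ofReal, integral_complex_ofReal]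
      ring
    have l7 : Tendsto (fun R => mt T w v (Fm a b κ y ψ R)) atTop
        (𝓝 (∫ u, (ψ u : ℂ) * Kh Q (fun a => M a (tS ρ₀ h0)) a b w v u)) := by
      rw [hlim]
      exact l6
    exact l7
  · intro a b v w ha hb
    have e : (fun u : ℝ => inner ℂ w (Q.U 1 GF.one (u • b) (M a (tS ρ₀ h0)
        (Q.U 1 GF.one (-(u • b)) v)))) = fun u : ℝ => inner ℂ w (M a (tS ρ₀ h0) v) +
        (u : ℂ) * inner ℂ w ((GF.mdot a b : ℂ) • M a (tS ρ₁ h1) v + (2 : ℂ) • A (ro a b) v) +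
        (u : ℂ) ^ 2 * inner ℂ w ((2 * GF.mdot a b : ℂ) • A (fun _ => b) v) := by
      funext u
      rw [m6_poly hT h hz h0 h00 h01 h1 h10 h11 ha hb.1 u v, inner_add_right, inner_add_right,
        inner_smul_right, inner_smul_right _ _ ((u : ℂ) ^ 2)]
    show Continuous fun u : ℝ => inner ℂ w (Q.U 1 GF.one (u • b) (M a (tS ρ₀ h0)
        (Q.U 1 GF.one (-(u • b)) v)))
    rw [e]
    fun_prop

end Vale.Agent.P352.SL

end
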