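import Vale.Agent.P352.SL.Defs
import Vale.Agent.P352.NC.Defs

/-!
# P352 SL: auxiliary definitions
-/

set_option linter.all false

noncomputable section

open MeasureTheory Filter Topology SchwartzMap Complex
open scoped SchwartzMap ComplexConjugate ContDiff FourierTransform

namespace Vale.Agent.P352.SL

open GF (Ix V Fn Fld Theory Sch IsLor bas eta o sim pd tr ev bar)
open H246 H496 H755 H15 H846 H246R H746 N86 NC NF
open UniformSpace (Completion)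

variable {D : Type*} [NormedAddCommGroup D] [InnerProductSpace ℂ D]

/-- the second derivative -/
def dd (f : 𝓢(ℝ, ℂ)) : 𝓢(ℝ, ℂ) := derivCLM ℂ ℂ (derivCLM ℂ ℂ f)

/-- the properties of `N a f = M a f''` (the integral of `f (a·x) tr T(x)`, up to a constant and
a flux) -/
structure SN (Q : GF.Theory D) (N : V → 𝓢(ℝ, ℂ) → D → D) : Prop where
  lin : ∀ a (f g : 𝓢(ℝ, ℂ)) (c : ℂ) v, IsNull a → N a (f + c • g) v = N a f v + c • N a g v
  cont : ∀ a v w, IsNull a → Continuous fun f : 𝓢(ℝ, ℂ) => inner ℂ w (N a f v)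
  adj : ∀ a (f g : 𝓢(ℝ, ℂ)) v w, IsNull a → (∀ u, g u = conj (f u)) →
    inner ℂ (N a f v) w = inner ℂ v (N a g w)
  cov : ∀ s L y a b (f g : 𝓢(ℝ, ℂ)) v, 0 < s → IsLor L → IsNull a → sim 1 L 0 a = s • b →
    (∀ u, g u = f (u - GF.mdot b y)) → Q.U s L y (N a f v) = N b g (Q.U s L y v)
  hom : ∀ r a (f g : 𝓢(ℝ, ℂ)) v, 0 < r → IsNull a → (∀ u, g u = f (r * u)) →
    N (r • a) f v = N a g v

/-- the Fourier transform of `f` has its support in `[α, β]` -/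
def FS (α β : ℝ) (f : 𝓢(ℝ, ℂ)) : Prop := ∀ ξ, ξ < α ∨ β < ξ → 𝓕 f ξ = 0

/-- the Fourier transform of `f` is supported in a bounded set that does not contain a
neighbourhood of zero -/
def FZ (f : 𝓢(ℝ, ℂ)) : Prop := ∃ δ K : ℝ, 0 < δ ∧ ∀ ξ, |ξ| < δ ∨ K < |ξ| → 𝓕 f ξ = 0

/-- the spectrum of `F` is in `[α, β]` -/
def Bd (α β : ℝ) (F : ℝ → ℂ) : Prop :=
  ∀ h : 𝓢(ℝ, ℂ), (∀ ξ, α ≤ ξ → ξ ≤ β → 𝓕⁻ h ξ = 0) → ∫ t, h t * F t = 0

/-- the energies of `v` are in `[α, β]` -/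
def EB (Q : GF.Theory D) (α β : ℝ) (v : D) : Prop :=
  ∀ w : D, Bd α β fun t => inner ℂ w (Q.U 1 GF.one (t • bas o 1) v)

/-- the Fourier transform of `F` has compact support -/
def BL (F : 𝓢(Mink, ℂ)) : Prop := HasCompactSupport (𝓕 F : 𝓢(Mink, ℂ))

/-- a real test function whose Fourier transform is one near zero -/
def Chi0 (f : 𝓢(ℝ, ℂ)) : Prop := (∀ u, conj (f u) = f u) ∧ (∃ K, FS (-K) K f) ∧
  ∃ δ > 0, ∀ ξ, |ξ| < δ → 𝓕 f ξ = 1

end Vale.Agent.P352.SL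

end
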