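import Mathlib

/-!
One dimensional lemma of `SlabMom` (helper870 #7099 (2)): if `G x y` is separately continuous,
polynomially bounded, band limited in each variable, then `t ↦ G t t` is band limited.
-/

open MeasureTheory SchwartzMap Complex Filter Topology
open scoped SchwartzMap FourierTransform

namespace Vale.Agent.P352.SL

/-- `g` (a function on the line, paired with Schwartz functions) has energies in `[a, b]`. -/
def Band (g : ℝ → ℂ) (a b : ℝ) : Prop :=
  ∀ h : 𝓢(ℝ, ℂ), (∀ E ∈ Set.Icc a b, 𝓕⁻ h E = 0) → ∫ t, h t * g t = 0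

/-! ### the phase -/

/-- `e^{2 π i s}` -/
noncomputable def ph (s : ℝ) : ℂ := Complex.exp (2 * Real.pi * s * I)

lemma ph_add (s t : ℝ) : ph (s + t) = ph s * ph t := by
  unfold ph
  rw [← Complex.exp_add]
  congr 1
  push_cast
  ring

lemma norm_ph (s : ℝ) : ‖ph s‖ = 1 := by
  unfold ph
  rw [Complex.norm_exp]
  simp

lemma continuous_ph : Continuous ph := by
  unfold ph
  fun_prop

lemma fourierInv_ph (h : 𝓢(ℝ, ℂ)) (E : ℝ) : 𝓕⁻ h E = ∫ t, ph (t * E) * h t := by
  rw [SchwartzMap.fourierInv_coe, Real.fourierInv_eq']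
  refine integral_congr_ae (Eventually.of_forall fun t => ?_)
  simp only [smul_eq_mul, ph]
  congr 2
  simp [mul_comm]

lemma fourier_ph (h : 𝓢(ℝ, ℂ)) (E : ℝ) : 𝓕 h E = ∫ t, ph (-(t * E)) * h t := by
  rw [SchwartzMap.fourier_coe, Real.fourier_eq']
  refine integral_congr_ae (Eventually.of_forall fun t => ?_)
  simp only [smul_eq_mul, ph]
  congr 2
  simp [mul_comm]

/-- Fubini for the kernel `𝓕 κ (x - t)`. -/
lemma fub1 (κ : 𝓢(ℝ, ℂ)) {f : ℝ → ℂ} (hf : Integrable f) (x : ℝ) :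
    ∫ t, f t * 𝓕 κ (x - t) = ∫ E, κ E * ph (-(E * x)) * ∫ t, ph (t * E) * f t := by
  have h1 : ∀ t, f t * 𝓕 κ (x - t) = ∫ E, (κ E * ph (-(E * x))) * (ph (t * E) * f t) := by
    intro t
    rw [fourier_ph, ← integral_const_mul]
    refine integral_congr_ae (Eventually.of_forall fun E => ?_)
    simp only
    have : -(E * (x - t)) = -(E * x) + t * E := by ring
    rw [this, ph_add]
    ring
  simp_rw [h1, ← integral_const_mul]
  rw [integral_integral_swap]
  have h2 : Integrable (fun z : ℝ × ℝ => f z.1 * κ z.2) (volume.prod volume) :=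
    hf.mul_prod κ.integrable
  refine (h2.bdd_mul (c := 1) (f := fun z : ℝ × ℝ => ph (-(z.2 * x)) * ph (z.1 * z.2)) ?_ ?_).congr ?_
  · exact ((continuous_ph.comp (by fun_prop)).mul (continuous_ph.comp (by fun_prop))).aestronglyMeasurable
  · refine Eventually.of_forall fun z => ?_
    rw [norm_mul, norm_ph, norm_ph, one_mul]
  · refine Eventually.of_forall fun z => ?_
    simp only [Function.uncurry]
    ring


/-- The inner integral of the final Fubini vanishes. -/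
lemma inner_zero (κ₁ κ₂ h : 𝓢(ℝ, ℂ))
    (hh : ∀ E F, κ₁ E ≠ 0 → κ₂ F ≠ 0 → 𝓕⁻ h (E + F) = 0) (x y : ℝ) :
    ∫ t, h t * 𝓕 κ₂ (y - t) * 𝓕 κ₁ (x - t) = 0 := by
  have hi : Integrable (fun t => h t * 𝓕 κ₂ (y - t)) := by
    have h2 : Integrable (fun t => 𝓕 κ₂ (y - t)) := (𝓕 κ₂).integrable.comp_sub_left y
    obtain ⟨C, hC⟩ : ∃ C, ∀ t, ‖h t‖ ≤ C := by
      obtain ⟨C, hC⟩ := h.decay 0 0
      exact ⟨C, fun t => by simpa using hC.2 t⟩
    exact h2.bdd_mul h.continuous.aestronglyMeasurable (Eventually.of_forall hC)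
  rw [fub1 κ₁ hi]
  have : ∀ E, κ₁ E * ph (-(E * x)) * ∫ t, ph (t * E) * (h t * 𝓕 κ₂ (y - t)) = 0 := by
    intro E
    by_cases hE : κ₁ E = 0
    · rw [hE]; simp
    have hi' : Integrable (fun t => ph (t * E) * h t) := by
      refine h.integrable.bdd_mul (c := 1) (continuous_ph.comp (by fun_prop)).aestronglyMeasurable ?_
      exact Eventually.of_forall fun t => (norm_ph _).le
    have h3 : ∫ t, ph (t * E) * (h t * 𝓕 κ₂ (y - t)) = ∫ t, (ph (t * E) * h t) * 𝓕 κ₂ (y - t) := by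
      refine integral_congr_ae (Eventually.of_forall fun t => ?_)
      simp only
      ring
    rw [h3, fub1 κ₂ hi']
    have h4 : ∀ F, κ₂ F * ph (-(F * y)) * ∫ t, ph (t * F) * (ph (t * E) * h t) = 0 := by
      intro F
      by_cases hF : κ₂ F = 0
      · rw [hF]; simp
      have h5 : ∫ t, ph (t * F) * (ph (t * E) * h t) = 𝓕⁻ h (E + F) := by
        rw [fourierInv_ph]
        refine integral_congr_ae (Eventually.of_forall fun t => ?_)
        simp only
        rw [mul_add, ph_add]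
        ring
      rw [h5, hh E F hE hF, mul_zero]
    simp_rw [h4]
    simp
  simp_rw [this]
  simp

/-- polynomial weight -/
lemma pw_add (k : ℕ) (x t : ℝ) : (1 + |x|) ^ k ≤ (1 + |t|) ^ k * (1 + |x - t|) ^ k := by
  rw [← mul_pow]
  refine pow_le_pow_left₀ (by positivity) ?_ k
  have h1 : |x| ≤ |t| + |x - t| := by
    have := abs_add_le t (x - t)
    rwa [add_sub_cancel] at this
  nlinarith [abs_nonneg t, abs_nonneg (x - t), mul_nonneg (abs_nonneg t) (abs_nonneg (x - t))]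

/-- Schwartz functions times polynomial weights are integrable. -/
lemma int_pw (f : 𝓢(ℝ, ℂ)) (k : ℕ) : Integrable (fun t => (1 + |t|) ^ k * ‖f t‖) := by
  have h1 : ∀ j : ℕ, Integrable (fun t : ℝ => ‖t‖ ^ j * ‖f t‖) := fun j =>
    f.integrable_pow_mul volume j
  have h2 : (fun t : ℝ => (1 + |t|) ^ k * ‖f t‖) =
      fun t => ∑ j ∈ Finset.range (k + 1), (k.choose j : ℝ) * (‖t‖ ^ j * ‖f t‖) := by
    funext t
    rw [add_comm, add_pow, Finset.sum_mul]
    refine Finset.sum_congr rfl fun j _ => ?_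
    simp only [one_pow, mul_one, Real.norm_eq_abs]
    ring
  rw [h2]
  exact integrable_finsetSum _ fun j _ => (h1 j).const_mul _

/-- Integrability of `φ x * g x`, `g` polynomially bounded. -/
lemma int_mul_pb {g : ℝ → ℂ} (hc : Continuous g) {C : ℝ} {k : ℕ}
    (hg : ∀ x, ‖g x‖ ≤ C * (1 + |x|) ^ k) (φ : 𝓢(ℝ, ℂ)) : Integrable (fun x => φ x * g x) := by
  refine ((int_pw φ k).const_mul C).mono' ?_ (Eventually.of_forall fun x => ?_)
  · exact (φ.continuous.mul hc).aestronglyMeasurable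
  · rw [norm_mul]
    calc ‖φ x‖ * ‖g x‖ ≤ ‖φ x‖ * (C * (1 + |x|) ^ k) := by gcongr; exact hg x
      _ = _ := by ring

/-- Integrability of `g x * φ t * K (x - t)`, `g` polynomially bounded. -/
lemma int_conv {g : ℝ → ℂ} (hc : Continuous g) {C : ℝ} {k : ℕ}
    (hg : ∀ x, ‖g x‖ ≤ C * (1 + |x|) ^ k) (φ K : 𝓢(ℝ, ℂ)) :
    Integrable (fun z : ℝ × ℝ => φ z.2 * (g z.1 * K (z.1 - z.2))) (volume.prod volume) := by
  have h1 := (int_pw φ k).convolution_integrand (ContinuousLinearMap.mul ℝ ℝ) (int_pw K k)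
    (μ := (volume : Measure ℝ))
  refine (h1.const_mul C).mono' ?_ (Eventually.of_forall fun z => ?_)
  · have h2 : Continuous fun z : ℝ × ℝ => φ z.2 * (g z.1 * K (z.1 - z.2)) := by
      have := φ.continuous
      have := K.continuous
      fun_prop
    exact h2.aestronglyMeasurable
  · rw [norm_mul, norm_mul]
    simp only [ContinuousLinearMap.mul_apply']
    have hC : 0 ≤ C * (1 + |z.1|) ^ k := (norm_nonneg _).trans (hg z.1)
    have hC' : 0 ≤ C := by
      by_contra hn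
      push Not at hn
      have : C * (1 + |z.1|) ^ k < 0 := mul_neg_of_neg_of_pos hn (by positivity)
      linarith
    calc ‖φ z.2‖ * (‖g z.1‖ * ‖K (z.1 - z.2)‖)
        ≤ ‖φ z.2‖ * ((C * ((1 + |z.2|) ^ k * (1 + |z.1 - z.2|) ^ k)) * ‖K (z.1 - z.2)‖) := by
          gcongr
          exact (hg z.1).trans (by gcongr; exact pw_add k _ _)
      _ = C * ((1 + |z.2|) ^ k * ‖φ z.2‖ * ((1 + |z.1 - z.2|) ^ k * ‖K (z.1 - z.2)‖)) := by ring

lemma cont_repro {g : ℝ → ℂ} (hc : Continuous g) {C : ℝ} {k : ℕ}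
    (hg : ∀ x, ‖g x‖ ≤ C * (1 + |x|) ^ k) (K : 𝓢(ℝ, ℂ)) :
    Continuous fun t : ℝ => ∫ x, g x * K (x - t) := by
  have h1 : (fun t : ℝ => ∫ x, g x * K (x - t)) = fun t => ∫ s, g (s + t) * K s := by
    funext t
    rw [← integral_add_right_eq_self _ t]
    simp
  rw [h1, continuous_iff_continuousAt]
  intro t₀
  have hC : 0 ≤ C := by
    by_contra hn
    push Not at hn
    have h2 := (norm_nonneg _).trans (hg 0)
    have : C * (1 + |(0:ℝ)|) ^ k < 0 := mul_neg_of_neg_of_pos hn (by positivity)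
    linarith
  refine continuousAt_of_dominated (bound := fun s => C * (1 + (|t₀| + 1)) ^ k * ((1 + |s|) ^ k * ‖K s‖))
    ?_ ?_ ((int_pw K k).const_mul _) ?_
  · refine Eventually.of_forall fun t => ?_
    have := K.continuous
    exact (Continuous.aestronglyMeasurable (by fun_prop))
  · filter_upwards [Metric.ball_mem_nhds t₀ one_pos] with t ht
    refine Eventually.of_forall fun s => ?_
    rw [norm_mul]
    have h3 : |t| ≤ |t₀| + 1 := by
      rw [Metric.mem_ball, Real.dist_eq] at ht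
      have := abs_add_le t₀ (t - t₀)
      rw [add_sub_cancel] at this
      linarith
    calc ‖g (s + t)‖ * ‖K s‖ ≤ (C * ((1 + |t|) ^ k * (1 + |s|) ^ k)) * ‖K s‖ := by
          gcongr
          refine (hg _).trans ?_
          gcongr
          have := pw_add k (s + t) t
          rwa [add_sub_cancel_right] at this
      _ ≤ (C * ((1 + (|t₀| + 1)) ^ k * (1 + |s|) ^ k)) * ‖K s‖ := by gcongr
      _ = _ := by ring
  · refine Eventually.of_forall fun s => ?_
    exact Continuous.continuousAt (by fun_prop)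

/-- reproducing kernel -/
lemma repro {g : ℝ → ℂ} {a b : ℝ} (hB : Band g a b) (hc : Continuous g) {C : ℝ} {k : ℕ}
    (hg : ∀ x, ‖g x‖ ≤ C * (1 + |x|) ^ k) (κ : 𝓢(ℝ, ℂ)) (hκ : ∀ E ∈ Set.Icc a b, κ E = 1) (t : ℝ) :
    g t = ∫ x, g x * 𝓕 κ (x - t) := by
  have hcR := cont_repro hc hg (𝓕 κ)
  have key : g =ᵐ[volume] fun t => ∫ x, g x * 𝓕 κ (x - t) := by
    refine ae_eq_of_integral_contDiff_smul_eq hc.locallyIntegrable hcR.locallyIntegrable ?_
    intro φ hφ hφc
    have hφ' : ContDiff ℝ ((⊤ : ℕ∞) : WithTop ℕ∞) fun t => (φ t : ℂ) := by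
      exact Complex.ofRealCLM.contDiff.comp hφ
    have hφc' : HasCompactSupport fun t => (φ t : ℂ) := hφc.comp_left (g := fun x : ℝ => (x : ℂ)) (by simp)
    set φS : 𝓢(ℝ, ℂ) := hφc'.toSchwartzMap hφ' with hφS
    have hφa : ∀ t, φS t = (φ t : ℂ) := fun t => rfl
    set h : 𝓢(ℝ, ℂ) := φS - 𝓕 (SchwartzMap.smulLeftCLM ℂ κ (𝓕⁻ φS)) with hh
    have h0 : ∀ E ∈ Set.Icc a b, 𝓕⁻ h E = 0 := by
      intro E hE
      have e1 : 𝓕⁻ h = 𝓕⁻ φS - SchwartzMap.smulLeftCLM ℂ κ (𝓕⁻ φS) := by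
        rw [hh, sub_eq_add_neg, FourierTransform.fourierInv_add, FourierTransform.fourierInv_neg,
          FourierTransform.fourierInv_fourier_eq, ← sub_eq_add_neg]
      rw [e1, sub_apply, SchwartzMap.smulLeftCLM_apply_apply κ.hasTemperateGrowth,
        hκ E hE, one_smul, sub_self]
    have h1 := hB h h0
    have h2 : ∀ x, 𝓕 (SchwartzMap.smulLeftCLM ℂ κ (𝓕⁻ φS)) x = ∫ t, φS t * 𝓕 κ (x - t) := by
      intro x
      rw [fub1 κ φS.integrable, fourier_ph]
      refine integral_congr_ae (Eventually.of_forall fun E => ?_)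
      simp only
      rw [SchwartzMap.smulLeftCLM_apply_apply κ.hasTemperateGrowth, ← fourierInv_ph, smul_eq_mul]
      ring
    have h3 : ∫ x, h x * g x = (∫ x, φS x * g x) - ∫ x, (∫ t, φS t * 𝓕 κ (x - t)) * g x := by
      rw [← integral_sub]
      · refine integral_congr_ae (Eventually.of_forall fun x => ?_)
        simp only [hh, sub_apply, h2]
        ring
      · exact int_mul_pb hc hg φS
      · have e2 : (fun x => (∫ t, φS t * 𝓕 κ (x - t)) * g x) =
            fun x => 𝓕 (SchwartzMap.smulLeftCLM ℂ κ (𝓕⁻ φS)) x * g x := by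
          funext x
          rw [h2]
        rw [e2]
        exact int_mul_pb hc hg _
    have h4 : ∫ x, (∫ t, φS t * 𝓕 κ (x - t)) * g x = ∫ t, φS t * ∫ x, g x * 𝓕 κ (x - t) := by
      have e1 : ∀ x, (∫ t, φS t * 𝓕 κ (x - t)) * g x = ∫ t, φS t * (g x * 𝓕 κ (x - t)) := by
        intro x
        rw [← integral_mul_const]
        refine integral_congr_ae (Eventually.of_forall fun t => ?_)
        simp only
        ring
      simp_rw [e1, ← integral_const_mul]
      exact integral_integral_swap (int_conv hc hg φS (𝓕 κ))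
    rw [h1, h4] at h3
    have h5 : ∀ f : ℝ → ℂ, ∫ t, φ t • f t = ∫ t, φS t * f t := fun f => by
      refine integral_congr_ae (Eventually.of_forall fun t => ?_)
      simp only [hφa, Complex.real_smul]
    rw [h5, h5]
    exact (sub_eq_zero.1 h3.symm)
  exact congrFun ((Continuous.ae_eq_iff_eq volume hc hcR).1 key) t


/-- a Schwartz bump, `1` on `[a, b]`, `0` outside `[a - δ, b + δ]` -/
lemma exists_bump (a b : ℝ) {δ : ℝ} (hδ : 0 < δ) :
    ∃ κ : 𝓢(ℝ, ℂ), (∀ E ∈ Set.Icc a b, κ E = 1) ∧ (∀ E, κ E ≠ 0 → a - δ ≤ E ∧ E ≤ b + δ) ∧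
      HasCompactSupport κ := by
  by_cases hab : b < a
  · refine ⟨0, fun E hE => ?_, fun E hE => (hE rfl).elim, ?_⟩
    · exact absurd (hE.1.trans hE.2) (not_le.2 hab)
    · exact HasCompactSupport.zero
  push Not at hab
  let B : ContDiffBump ((a + b) / 2 : ℝ) := ⟨(b - a) / 2 + δ / 2, (b - a) / 2 + δ, by linarith, by linarith⟩
  have hB1 : ContDiff ℝ ((⊤ : ℕ∞) : WithTop ℕ∞) fun t => ((B t : ℝ) : ℂ) :=
    Complex.ofRealCLM.contDiff.comp B.contDiff
  have hB2 : HasCompactSupport fun t => ((B t : ℝ) : ℂ) :=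
    B.hasCompactSupport.comp_left (g := fun x : ℝ => (x : ℂ)) (by simp)
  refine ⟨hB2.toSchwartzMap hB1, fun E hE => ?_, fun E hE => ?_, hB2⟩
  · change ((B E : ℝ) : ℂ) = 1
    rw [B.one_of_mem_closedBall, Complex.ofReal_one]
    rw [Metric.mem_closedBall, Real.dist_eq, abs_le]
    change -((b - a) / 2 + δ / 2) ≤ E - (a + b) / 2 ∧ E - (a + b) / 2 ≤ (b - a) / 2 + δ / 2
    constructor <;> linarith [hE.1, hE.2]
  · change ((B E : ℝ) : ℂ) ≠ 0 at hE
    by_contra hn
    apply hE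
    rw [B.zero_of_le_dist, Complex.ofReal_zero]
    change (b - a) / 2 + δ ≤ dist E ((a + b) / 2)
    rw [Real.dist_eq]
    by_contra h2
    push Not at h2
    rw [abs_lt] at h2
    exact hn ⟨by linarith [h2.1], by linarith [h2.2]⟩

/-- The one dimensional lemma. -/
theorem band_diag {G : ℝ → ℝ → ℂ} (h1 : ∀ y, Continuous fun x => G x y) (h2 : ∀ x, Continuous (G x))
    (hb : ∃ (C : ℝ) (k : ℕ), ∀ x y, ‖G x y‖ ≤ C * (1 + |x|) ^ k) {a₁ b₁ a₂ b₂ ε : ℝ}
    (B1 : ∀ y, Band (fun x => G x y) a₁ b₁) (B2 : ∀ x, Band (G x) a₂ b₂) (hε : 0 < ε) :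
    Band (fun t => G t t) (a₁ + a₂ - ε) (b₁ + b₂ + ε) := by
  intro h hh
  obtain ⟨C, k, hC⟩ := hb
  obtain ⟨κ₁, hκ₁, hs₁, -⟩ := exists_bump a₁ b₁ (half_pos hε)
  obtain ⟨κ₂, hκ₂, hs₂, -⟩ := exists_bump a₂ b₂ (half_pos hε)
  have hC0 : 0 ≤ C := by
    by_contra hn
    push Not at hn
    have h2 := (norm_nonneg _).trans (hC 0 0)
    have : C * (1 + |(0:ℝ)|) ^ k < 0 := mul_neg_of_neg_of_pos hn (by positivity)
    linarith
  have hGm : Measurable (Function.uncurry G) := by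
    refine measurable_uncurry_of_continuous_of_measurable (u := G) (fun y => h1 y) fun x => (h2 x).measurable
  -- the three variable function
  set F : ℝ → ℝ × ℝ → ℂ := fun t z => h t * (𝓕 κ₁ (z.1 - t) * (𝓕 κ₂ (z.2 - t) * G z.1 z.2)) with hF
  have hGm' : Measurable fun z : ℝ × ℝ => G z.1 z.2 := hGm
  have hFm : Measurable (Function.uncurry F) := by
    have e1 : Measurable fun p : ℝ × (ℝ × ℝ) => h p.1 := (h.continuous.comp continuous_fst).measurable
    have e2 : Measurable fun p : ℝ × (ℝ × ℝ) => 𝓕 κ₁ (p.2.1 - p.1) :=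
      ((𝓕 κ₁).continuous.comp (by fun_prop)).measurable
    have e3 : Measurable fun p : ℝ × (ℝ × ℝ) => 𝓕 κ₂ (p.2.2 - p.1) :=
      ((𝓕 κ₂).continuous.comp (by fun_prop)).measurable
    have e4 : Measurable fun p : ℝ × (ℝ × ℝ) => G p.2.1 p.2.2 := hGm'.comp measurable_snd
    exact e1.mul (e2.mul (e3.mul e4))
  -- the dominating function
  have hD : Integrable (Function.uncurry fun (t : ℝ) (z : ℝ × ℝ) => (C * ((1 + |t|) ^ k * ‖h t‖)) *
      (((1 + |z.1 - t|) ^ k * ‖𝓕 κ₁ (z.1 - t)‖) * ‖𝓕 κ₂ (z.2 - t)‖)) (volume.prod (volume.prod volume)) := by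
    have hB : Integrable (fun z : ℝ × ℝ => ((1 + |z.1|) ^ k * ‖𝓕 κ₁ z.1‖) * ‖𝓕 κ₂ z.2‖)
        (volume.prod volume) := (int_pw (𝓕 κ₁) k).mul_prod (𝓕 κ₂).integrable.norm
    have hBt : ∀ t : ℝ, Integrable (fun z : ℝ × ℝ =>
        ((1 + |z.1 - t|) ^ k * ‖𝓕 κ₁ (z.1 - t)‖) * ‖𝓕 κ₂ (z.2 - t)‖) (volume.prod volume) := by
      intro t
      exact hB.comp_sub_right (t, t)
    refine (integrable_prod_iff ?_).2 ⟨Eventually.of_forall fun t =>
      (hBt t).const_mul (C * ((1 + |t|) ^ k * ‖h t‖)), ?_⟩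
    · have := h.continuous
      have := (𝓕 κ₁).continuous
      have := (𝓕 κ₂).continuous
      refine Continuous.aestronglyMeasurable ?_
      change Continuous fun p : ℝ × (ℝ × ℝ) => (C * ((1 + |p.1|) ^ k * ‖h p.1‖)) *
        (((1 + |p.2.1 - p.1|) ^ k * ‖𝓕 κ₁ (p.2.1 - p.1)‖) * ‖𝓕 κ₂ (p.2.2 - p.1)‖)
      fun_prop
    · have e1 : ∀ t : ℝ, (∫ z : ℝ × ℝ, ‖(Function.uncurry fun (t : ℝ) (z : ℝ × ℝ) =>
          (C * ((1 + |t|) ^ k * ‖h t‖)) * (((1 + |z.1 - t|) ^ k * ‖𝓕 κ₁ (z.1 - t)‖) *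
          ‖𝓕 κ₂ (z.2 - t)‖)) (t, z)‖ ∂(volume.prod volume)) =
          (C * ((1 + |t|) ^ k * ‖h t‖)) * ∫ z : ℝ × ℝ, ((1 + |z.1|) ^ k * ‖𝓕 κ₁ z.1‖) * ‖𝓕 κ₂ z.2‖
            ∂(volume.prod volume) := by
        intro t
        rw [← integral_sub_right_eq_self (fun z : ℝ × ℝ => ((1 + |z.1|) ^ k * ‖𝓕 κ₁ z.1‖) * ‖𝓕 κ₂ z.2‖)
          (t, t), ← integral_const_mul]
        refine integral_congr_ae (Eventually.of_forall fun z => ?_)
        simp only [Function.uncurry_apply_pair, Prod.fst_sub, Prod.snd_sub]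
        rw [Real.norm_of_nonneg (by positivity)]
      simp_rw [e1]
      exact ((int_pw h k).const_mul C).mul_const _
  have hFi : Integrable (Function.uncurry F) (volume.prod (volume.prod volume)) := by
    refine hD.mono' hFm.aestronglyMeasurable (Eventually.of_forall fun p => ?_)
    obtain ⟨t, x, y⟩ := p
    simp only [Function.uncurry_apply_pair, hF, norm_mul]
    calc ‖h t‖ * (‖𝓕 κ₁ (x - t)‖ * (‖𝓕 κ₂ (y - t)‖ * ‖G x y‖))
        ≤ ‖h t‖ * (‖𝓕 κ₁ (x - t)‖ * (‖𝓕 κ₂ (y - t)‖ * (C * ((1 + |t|) ^ k * (1 + |x - t|) ^ k)))) := by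
          gcongr
          exact (hC x y).trans (by gcongr; exact pw_add k _ _)
      _ = _ := by ring
  -- pointwise identity
  have hpt : ∀ t, (Integrable (F t) (volume.prod volume)) →
      h t * G t t = ∫ z, F t z ∂(volume.prod volume) := by
    intro t ht
    rw [integral_prod _ ht, repro (B1 t) (h1 t) (fun x => hC x t) κ₁ hκ₁ t, ← integral_const_mul]
    refine integral_congr_ae (Eventually.of_forall fun x => ?_)
    simp only [hF]
    rw [repro (B2 x) (h2 x) (C := C * (1 + |x|) ^ k) (k := 0)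
      (fun y => by simpa using hC x y) κ₂ hκ₂ t, ← integral_mul_const, ← integral_const_mul]
    refine integral_congr_ae (Eventually.of_forall fun y => ?_)
    simp only
    ring
  have hae : ∀ᵐ t : ℝ, Integrable (F t) (volume.prod volume) := hFi.prod_right_ae
  have e1 : ∫ t, h t * G t t = ∫ t, ∫ z, F t z ∂(volume.prod volume) := by
    refine integral_congr_ae ?_
    filter_upwards [hae] with t ht
    exact hpt t ht
  rw [e1, integral_integral_swap hFi]
  have e2 : ∀ z : ℝ × ℝ, ∫ t, F t z = 0 := by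
    intro z
    have e3 := inner_zero κ₁ κ₂ h (fun E F hE hF => hh _ ⟨by
      have := (hs₁ E hE).1; have := (hs₂ F hF).1; linarith, by
      have := (hs₁ E hE).2; have := (hs₂ F hF).2; linarith⟩) z.1 z.2
    have e4 : ∫ t, F t z = (∫ t, h t * 𝓕 κ₂ (z.2 - t) * 𝓕 κ₁ (z.1 - t)) * G z.1 z.2 := by
      rw [← integral_mul_const]
      refine integral_congr_ae (Eventually.of_forall fun t => ?_)
      simp only [hF]
      ring
    rw [e4, e3, zero_mul]
  simp_rw [e2]
  simp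

end Vale.Agent.P352.SL
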