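import Vale.Agent.P352.SL.Base
import Vale.Agent.P352.SL.H97a

/-!
# P352 SL: block D1
-/

noncomputable section

open MeasureTheory Filter Topology SchwartzMap Complex
open scoped SchwartzMap ComplexConjugate ContDiff FourierTransform

namespace Vale.Agent.P352.SL

lemma bd_iff_band (α β : ℝ) (F : ℝ → ℂ) : Bd α β F ↔ Band F α β :=
  ⟨fun h g hg => h g fun ξ h1 h2 => hg ξ ⟨h1, h2⟩, fun h g hg => h g fun ξ hξ => hg ξ hξ.1 hξ.2⟩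

theorem bd_diag {G : ℝ → ℝ → ℂ} (hx : ∀ y, Continuous fun x => G x y)
    (hy : ∀ x, Continuous fun y => G x y) {C : ℝ} {k : ℕ}
    (hb : ∀ x y, ‖G x y‖ ≤ C * (1 + |x|) ^ k) {α₁ β₁ α₂ β₂ : ℝ}
    (h1 : ∀ y, Bd α₁ β₁ fun x => G x y) (h2 : ∀ x, Bd α₂ β₂ fun y => G x y) {ε : ℝ} (hε : 0 < ε) :
    Bd (α₁ + α₂ - ε) (β₁ + β₂ + ε) fun t => G t t :=
  (bd_iff_band _ _ _).2 (band_diag hx hy ⟨C, k, hb⟩ (fun y => (bd_iff_band _ _ _).1 (h1 y))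
    (fun x => (bd_iff_band _ _ _).1 (h2 x)) hε)

end Vale.Agent.P352.SL

end
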