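import Mathlib.Analysis.Distribution.SchwartzSpace.Fourier
import Mathlib.Analysis.SpecialFunctions.SmoothTransition
import Mathlib.Analysis.Distribution.AEEqOfIntegralContDiff

/-!
# P352 SL: a smooth step and functions with negative spectrum (Mathlib only)
-/

set_option linter.all false

noncomputable section

open MeasureTheory Filter Topology SchwartzMap Complex
open scoped SchwartzMap ComplexConjugate ContDiff FourierTransform

namespace Vale.Agent.P352.SL

/-- a smooth step -/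
theorem exists_step {a b : ℝ} (hab : a < b) : ∃ χ : ℝ → ℂ, χ.HasTemperateGrowth ∧
    (∀ x, x ≤ a → χ x = 0) ∧ (∀ x, b ≤ x → χ x = 1) ∧ (∀ x, conj (χ x) = χ x) ∧
    ∀ x, ‖χ x‖ ≤ 1 := by
  set t : ℝ → ℝ := fun x => Real.smoothTransition ((x - a) / (b - a)) with ht
  have hba : 0 < b - a := sub_pos.2 hab
  have hs : ContDiff ℝ ∞ t :=
    Real.smoothTransition.contDiff.comp ((contDiff_id.sub contDiff_const).div_const _)
  have h0 : ∀ x, x ≤ a → t x = 0 := fun x hx =>
    Real.smoothTransition.zero_of_nonpos (div_nonpos_of_nonpos_of_nonneg (by linarith) hba.le)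
  have h1 : ∀ x, b ≤ x → t x = 1 := fun x hx =>
    Real.smoothTransition.one_of_one_le ((one_le_div hba).2 (by linarith))
  have hn : ∀ x, ‖t x‖ ≤ 1 := fun x => by
    rw [Real.norm_eq_abs, abs_of_nonneg (Real.smoothTransition.nonneg _)]
    exact Real.smoothTransition.le_one _
  have hds : ContDiff ℝ ∞ (fderiv ℝ t) := hs.fderiv_right (mod_cast le_top)
  have hdc : HasCompactSupport (fderiv ℝ t) := by
    refine HasCompactSupport.intro (isCompact_Icc (a := a) (b := b)) fun x hx => ?_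
    rw [Set.mem_Icc, not_and_or, not_le, not_le] at hx
    rcases hx with hx | hx
    · have : t =ᶠ[𝓝 x] fun _ => (0 : ℝ) := by
        filter_upwards [Iio_mem_nhds hx] with y hy
        exact h0 y (le_of_lt hy)
      rw [this.fderiv_eq]
      simp
    · have : t =ᶠ[𝓝 x] fun _ => (1 : ℝ) := by
        filter_upwards [Ioi_mem_nhds hx] with y hy
        exact h1 y (le_of_lt hy)
      rw [this.fderiv_eq]
      simp
  have htg : t.HasTemperateGrowth :=
    Function.HasTemperateGrowth.of_fderiv (hdc.hasTemperateGrowth hds)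
      (hs.differentiable (by simp)) (k := 0) (C := 1) fun x => by simpa using hn x
  refine ⟨fun x => (t x : ℂ), ?_, fun x hx => by
      show ((t x : ℝ) : ℂ) = 0
      rw [h0 x hx, ofReal_zero],
    fun x hx => by
      show ((t x : ℝ) : ℂ) = 1
      rw [h1 x hx, ofReal_one], fun x => conj_ofReal _, fun x => by
      rw [norm_real]
      exact hn x⟩
  exact Function.HasTemperateGrowth.comp (Function.Complex.hasTemperateGrowth_ofReal) htg

/-- a continuous function of at most polynomial growth that is orthogonal to all test functions is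
zero -/
theorem eq_zero_of_sch {F : ℝ → ℂ} (hF : Continuous F) (h : ∀ g : 𝓢(ℝ, ℂ), ∫ t, g t * F t = 0)
    (t : ℝ) : F t = 0 := by
  have h1 : ∀ᵐ x, F x = 0 := by
    refine ae_eq_zero_of_integral_contDiff_smul_eq_zero hF.locallyIntegrable fun g hg hc => ?_
    have hc' : HasCompactSupport fun x => ((g x : ℝ) : ℂ) :=
      hc.comp_left (g := fun r : ℝ => (r : ℂ)) ofReal_zero
    have hs' : ContDiff ℝ ∞ fun x => ((g x : ℝ) : ℂ) := ofRealCLM.contDiff.comp hg
    rw [← h (hc'.toSchwartzMap hs')]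
    rfl
  have h2 : F = fun _ => 0 :=
    (Continuous.ae_eq_iff_eq volume hF continuous_const).1 h1
  rw [h2]

theorem bd_zero' {F : ℝ → ℂ} (hF : Continuous F) {C : ℝ} (hb : ∀ t, ‖F t‖ ≤ C) {α β : ℝ}
    (hβ : β < 0)
    (h1 : ∀ h : 𝓢(ℝ, ℂ), (∀ ξ, α ≤ ξ → ξ ≤ β → 𝓕⁻ h ξ = 0) → ∫ t, h t * F t = 0)
    (h2 : ∀ h : 𝓢(ℝ, ℂ), (∀ ξ, 0 ≤ ξ → 𝓕⁻ h ξ = 0) → ∫ t, h t * F t = 0) (t : ℝ) : F t = 0 := by
  refine eq_zero_of_sch hF (fun g => ?_) t
  obtain ⟨χ, hχ, c0, c1, -, -⟩ := exists_step hβ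
  set u : 𝓢(ℝ, ℂ) := 𝓕⁻ g with hu
  set u1 : 𝓢(ℝ, ℂ) := smulLeftCLM ℂ χ u with hu1
  have e1 : ∀ ξ, u1 ξ = χ ξ * u ξ := fun ξ => by rw [hu1, smulLeftCLM_apply_apply hχ, smul_eq_mul]
  have e2 : g = 𝓕 u1 + 𝓕 (u - u1) := by
    rw [← FourierTransform.fourier_add, add_sub_cancel, hu, FourierTransform.fourier_fourierInv_eq]
  have i1 : ∫ t, (𝓕 u1 : 𝓢(ℝ, ℂ)) t * F t = 0 := h1 _ fun ξ _ h4 => by
    rw [FourierTransform.fourierInv_fourier_eq, e1, c0 ξ h4, zero_mul]
  have i2 : ∫ t, (𝓕 (u - u1) : 𝓢(ℝ, ℂ)) t * F t = 0 := h2 _ fun ξ h4 => by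
    rw [FourierTransform.fourierInv_fourier_eq, sub_apply, e1, c1 ξ h4, one_mul, sub_self]
  have hI : ∀ f : 𝓢(ℝ, ℂ), Integrable fun t => f t * F t := fun f =>
    (f.integrable (μ := volume)).mul_bdd hF.aestronglyMeasurable
      (Eventually.of_forall hb)
  calc ∫ t, g t * F t = ∫ t, ((𝓕 u1 : 𝓢(ℝ, ℂ)) t * F t + (𝓕 (u - u1) : 𝓢(ℝ, ℂ)) t * F t) := by
        refine integral_congr_ae (Eventually.of_forall fun t => ?_)
        simp only
        rw [← add_mul, ← add_apply, ← e2]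
    _ = 0 := by rw [integral_add (hI _) (hI _), i1, i2, add_zero]

end Vale.Agent.P352.SL

end
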