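import Vale.Agent.P352.SL.Base
import Vale.Agent.P352.SL.D2a

set_option linter.all false

noncomputable section

open MeasureTheory
open scoped SchwartzMap FourierTransform

namespace Vale.Agent.P352.SL

/-- a bounded continuous function with negative spectrum that is orthogonal to everything of
nonpositive spectrum is zero -/
theorem bd_zero {F : ℝ → ℂ} (hF : Continuous F) {C : ℝ} (hb : ∀ t, ‖F t‖ ≤ C) {α β : ℝ}
    (hβ : β < 0) (h1 : Bd α β F)
    (h2 : ∀ h : 𝓢(ℝ, ℂ), (∀ ξ, 0 ≤ ξ → 𝓕⁻ h ξ = 0) → ∫ t, h t * F t = 0) (t : ℝ) : F t = 0 :=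
  bd_zero' hF hb hβ h1 h2 t

end Vale.Agent.P352.SL

end
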