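import Vale.Agent.P352.SL.Base

/-!
# P352 SL, block D3: positivity of the energy
-/

set_option linter.all false

noncomputable section

open MeasureTheory Filter Topology SchwartzMap Complex
open scoped SchwartzMap ComplexConjugate ContDiff FourierTransform

namespace Vale.Agent.P352.SL

open GF (Ix V Fn Fld Theory Sch IsLor bas eta o sim pd tr ev bar)
open H246 H496 H755 H15 H846 H246R H746 N86 NC NF
open UniformSpace (Completion)

variable {D : Type*} [NormedAddCommGroup D] [InnerProductSpace ℂ D]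
variable {Q : GF.Theory D}

/-- the inverse Fourier transform as an integral -/
lemma d3_inv (h : 𝓢(ℝ, ℂ)) (ξ : ℝ) :
    𝓕⁻ h ξ = ∫ t, h t * Complex.exp (I * ((2 * Real.pi * ξ * t : ℝ) : ℂ)) := by
  rw [SchwartzMap.fourierInv_coe, Real.fourierInv_eq']
  refine integral_congr_ae (Eventually.of_forall fun t => ?_)
  simp only [smul_eq_mul]
  rw [mul_comm]
  congr 2
  simp only [RCLike.inner_apply, conj_trivial]
  push_cast
  ring

/-- continuity of the translations along the time direction -/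
lemma d3_cont (v w : D) : Continuous fun t : ℝ => inner ℂ w (Q.U 1 GF.one (t • bas o 1) v) := by
  have h1 : Continuous fun t : ℝ => (t • (WithLp.toLp 2 (bas o 1) : Mink)) := by fun_prop
  exact continuous_const.inner ((continuous_U1a (Q := Q) v).comp h1)

lemma d3_bd (v w : D) (t : ℝ) : ‖inner ℂ w (Q.U 1 GF.one (t • bas o 1) v)‖ ≤ ‖w‖ * ‖v‖ := by
  refine (norm_inner_le_norm _ _).trans_eq ?_
  congr 1
  exact U1_norm (Q := Q) (WithLp.toLp 2 (t • bas o 1)) v

lemma d3_int (h : 𝓢(ℝ, ℂ)) (v w : D) :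
    Integrable fun t : ℝ => h t * inner ℂ w (Q.U 1 GF.one (t • bas o 1) v) := by
  refine Integrable.mul_bdd (c := ‖w‖ * ‖v‖) (h.integrable) (d3_cont v w).aestronglyMeasurable ?_
  exact Eventually.of_forall fun t => d3_bd v w t

/-- one vector -/
lemma d3_one (v : D) (h : 𝓢(ℝ, ℂ)) (hh : ∀ ξ, 0 ≤ ξ → 𝓕⁻ h ξ = 0) :
    ∫ t, h t * inner ℂ v (Q.U 1 GF.one (t • bas o 1) v) = 0 := by
  obtain ⟨ν, hν, hp, hU⟩ := Q.spectrum v
  have e1 : ∀ (p : V) (t : ℝ), GF.mdot p (t • bas o 1) = t * p o := by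
    intro p t
    simp [GF.mdot, Fin.sum_univ_four, bas, o, GF.eta]
    ring
  have e2 : ∀ t : ℝ, h t * inner ℂ v (Q.U 1 GF.one (t • bas o 1) v) =
      ∫ p, h t * Complex.exp (I * ((t * p o : ℝ) : ℂ)) ∂ν := by
    intro t
    rw [hU, integral_const_mul]
    simp only [e1]
  simp only [e2]
  rw [integral_integral_swap]
  · refine integral_eq_zero_of_ae ?_
    filter_upwards [hp] with p hp1
    have h1 := hh (p o / (2 * Real.pi)) (div_nonneg hp1.1 (by positivity))
    rw [d3_inv] at h1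
    rw [Pi.zero_apply, ← h1]
    refine integral_congr_ae (Eventually.of_forall fun t => ?_)
    simp only
    congr 4
    field_simp
  · have h3 : Integrable (fun q : ℝ × V => ‖h q.1‖ * 1) ((volume : Measure ℝ).prod ν) :=
      (h.integrable.norm).mul_prod (integrable_const (1 : ℝ))
    refine h3.mono' ?_ (Eventually.of_forall fun q => ?_)
    · refine Continuous.aestronglyMeasurable ?_
      have hc : Continuous fun q : ℝ × V => Complex.exp (I * ((q.1 * q.2 o : ℝ) : ℂ)) := by
        fun_prop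
      exact (h.continuous.comp continuous_fst).mul hc
    · simp only [Function.uncurry]
      rw [norm_mul, Complex.norm_exp]
      simp

lemma d3_comb {f1 f2 f3 f4 : ℝ → ℂ} (i1 : Integrable f1) (i2 : Integrable f2) (i3 : Integrable f3)
    (i4 : Integrable f4) (z1 : ∫ t, f1 t = 0) (z2 : ∫ t, f2 t = 0) (z3 : ∫ t, f3 t = 0)
    (z4 : ∫ t, f4 t = 0) (c1 c2 c3 c4 : ℂ) :
    ∫ t, (c1 * f1 t - c2 * f2 t + c3 * f3 t - c4 * f4 t) = 0 := by
  have j1 : Integrable fun t => c1 * f1 t - c2 * f2 t := (i1.const_mul c1).sub (i2.const_mul c2)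
  have j2 : Integrable fun t => c1 * f1 t - c2 * f2 t + c3 * f3 t := j1.add (i3.const_mul c3)
  rw [integral_sub j2 (i4.const_mul c4), integral_add j1 (i3.const_mul c3),
    integral_sub (i1.const_mul c1) (i2.const_mul c2)]
  simp only [integral_const_mul, z1, z2, z3, z4, mul_zero, sub_zero, add_zero]

theorem spec_pos (v w : D) (h : 𝓢(ℝ, ℂ)) (hh : ∀ ξ, 0 ≤ ξ → 𝓕⁻ h ξ = 0) :
    ∫ t, h t * inner ℂ w (Q.U 1 GF.one (t • bas o 1) v) = 0 := by
  have key : ∀ t : ℝ, inner ℂ w (Q.U 1 GF.one (t • bas o 1) v) =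
      (1 / 4 : ℂ) * (inner ℂ (v + w) (Q.U 1 GF.one (t • bas o 1) (v + w)) -
        inner ℂ (v - w) (Q.U 1 GF.one (t • bas o 1) (v - w)) +
        I * inner ℂ (v + I • w) (Q.U 1 GF.one (t • bas o 1) (v + I • w)) -
        I * inner ℂ (v - I • w) (Q.U 1 GF.one (t • bas o 1) (v - I • w))) := by
    intro t
    have ha := U_add (Q := Q) one_pos isLor_one (t • bas o 1)
    have hs := U_smul (Q := Q) one_pos isLor_one (t • bas o 1)
    have hb : ∀ v w, Q.U 1 GF.one (t • bas o 1) (v - w) = Q.U 1 GF.one (t • bas o 1) v -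
        Q.U 1 GF.one (t • bas o 1) w := fun v w =>
      U1_sub (Q := Q) (WithLp.toLp 2 (t • bas o 1)) v w
    simp only [ha, hs, hb, inner_add_left, inner_add_right, inner_sub_left, inner_sub_right,
      inner_smul_left, inner_smul_right, conj_I]
    have hI : I * I = -1 := I_mul_I
    linear_combination ((inner ℂ w (Q.U 1 GF.one (t • bas o 1) v) -
      inner ℂ v (Q.U 1 GF.one (t • bas o 1) w)) / 2 : ℂ) * hI
  simp only [key]
  have i1 := d3_int (Q := Q) h (v + w) (v + w)
  have i2 := d3_int (Q := Q) h (v - w) (v - w)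
  have i3 := d3_int (Q := Q) h (v + I • w) (v + I • w)
  have i4 := d3_int (Q := Q) h (v - I • w) (v - I • w)
  have z1 := d3_one (Q := Q) (v + w) h hh
  have z2 := d3_one (Q := Q) (v - w) h hh
  have z3 := d3_one (Q := Q) (v + I • w) h hh
  have z4 := d3_one (Q := Q) (v - I • w) h hh
  have e : ∀ (x a b c d : ℂ), x * ((1 / 4 : ℂ) * (a - b + I * c - I * d)) =
      (1 / 4 : ℂ) * (x * a) - (1 / 4 : ℂ) * (x * b) + (I / 4) * (x * c) - (I / 4) * (x * d) := by
    intro x a b c d
    ring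
  simp only [e]
  exact d3_comb i1 i2 i3 i4 z1 z2 z3 z4 _ _ _ _

end Vale.Agent.P352.SL

end
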