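import Vale.Agent.P352.SL.Base

/-!
# P352 SL, block D4: rotations and translations of energy bounded vectors
-/

set_option linter.all false

noncomputable section

open MeasureTheory Filter Topology SchwartzMap Complex
open scoped SchwartzMap ComplexConjugate ContDiff FourierTransform

namespace Vale.Agent.P352.SL

open GF (Ix V Fn Fld Theory Sch IsLor bas eta o sim pd tr ev bar)
open H246 H496 H755 H15 H846 H246R H746 N86 NC NF
open UniformSpace (Completion)

variable {D : Type*} [NormedAddCommGroup D] [InnerProductSpace ℂ D]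
variable {Q : GF.Theory D} {A : (V → V) → D → D}

lemma d4_rot (R : H15.Rep Q A) {L : Ix → V} (hL : GF.IsLor L)
    (h0 : ∀ t : ℝ, sim 1 L 0 (t • bas o 1) = t • bas o 1) (t : ℝ) (v : D) :
    Q.U 1 GF.one (t • bas o 1) (Q.U 1 L 0 v) = Q.U 1 L 0 (Q.U 1 GF.one (t • bas o 1) v) := by
  rw [R.mul 1 GF.one _ 1 L 0 v one_pos one_pos isLor_one hL,
    R.mul 1 L 0 1 GF.one _ v one_pos one_pos hL isLor_one]
  have e1 : (fun m => sim 1 GF.one 0 (L m)) = fun m => sim 1 L 0 (GF.one m) := by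
    funext m n
    simp [sim, GF.one, bas]
  have e2 : sim 1 GF.one (t • bas o 1) 0 = sim 1 L 0 (t • bas o 1) := by
    rw [h0]
    funext n
    simp [sim]
  rw [e1, e2]

lemma d4_rot0 (θ ψ t : ℝ) : sim 1 (linv (Rt θ ψ)) 0 (t • bas o 1) = t • bas o 1 := by
  funext n
  fin_cases n <;> simp [sim, linv, Rt, bas, o, GF.eta, Fin.sum_univ_four]

theorem eb_rot (R : H15.Rep Q A) {α β : ℝ} {X : D} (hX : EB Q α β X) (θ ψ : ℝ) :
    EB Q α β (Q.U 1 (linv (Rt θ ψ)) 0 X) := by
  intro w h hh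
  have hL : GF.IsLor (linv (Rt θ ψ)) := isLor_linv (isLor_Rt θ ψ)
  have h1 := hX (Q.U 1 (linv (linv (Rt θ ψ))) 0 w) h hh
  rw [← h1]
  refine integral_congr_ae (Eventually.of_forall fun t => ?_)
  simp only
  congr 1
  rw [d4_rot R hL (d4_rot0 θ ψ)]
  have h2 := Q.U_inner 1 (linv (Rt θ ψ)) 0 (Q.U 1 (linv (linv (Rt θ ψ))) 0 w)
    (Q.U 1 GF.one (t • bas o 1) X) one_pos hL
  rw [← h2]
  congr 1
  have h3 := H755.U_linv' R one_pos hL w
  rw [inv_one] at h3
  exact h3.symm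

theorem eb_tra (R : H15.Rep Q A) {α β : ℝ} {X : D} (hX : EB Q α β X) (x : V) :
    EB Q α β (Q.U 1 GF.one x X) := by
  intro w h hh
  have h1 := hX (Q.U 1 GF.one (-x) w) h hh
  rw [← h1]
  refine integral_congr_ae (Eventually.of_forall fun t => ?_)
  simp only
  congr 1
  rw [← Q.U_inner 1 GF.one x (Q.U 1 GF.one (-x) w) _ one_pos isLor_one, Uadd1, Uadd1, Uadd1,
    add_neg_cancel, Uone, add_comm]

end Vale.Agent.P352.SL

end
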