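import Vale.Agent.P352.NF.Defs

open MeasureTheory Filter Topology
open scoped SchwartzMap

namespace Vale.Agent.P352.SL

open GF H246 H496 H755 H15 NF

noncomputable section

variable {D : Type*} [NormedAddCommGroup D] [InnerProductSpace ℂ D]

/-- The charges of the stress tensor `T` between null hyperplanes orthogonal to `a`: the charges of
the currents `X^n T_{mn}`, `X` an infinitesimal Poincaré transformation that preserves the foliation
by these hyperplanes, are the generators `A X`, and the second moments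
`M a f = - ∫ f (a·x) (x·x) T_aa(x) dx` of `T_aa` exist, as an operator valued tempered distribution
`f ↦ M a f` on the line, with values in the operators on `D`. -/
structure SlabMom (Q : Theory D) (T : Ix → Ix → Fld D) (A : (V → V) → D → D)
    (M : V → 𝓢(ℝ, ℂ) → D → D) : Prop extends Rep Q A where
  gen : ∀ a b κ y ψ X v w, Adm a b κ ψ → IsSim 0 X → Fol a X → Tendsto (fun R => inner ℂ w
    (sm T (fun m n x => eta m * a m * (eta n * X x n) * ctf a b κ y ψ R x) v)) atTop
    (𝓝 ((∫ u, (ψ u : ℂ)) * inner ℂ w (A X v)))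
  lin : ∀ a (f g : 𝓢(ℝ, ℂ)) (c : ℂ) v, IsNull a → M a (f + c • g) v = M a f v + c • M a g v
  cont : ∀ a v w, IsNull a → Continuous fun f : 𝓢(ℝ, ℂ) => inner ℂ w (M a f v)
  mom : ∀ a b κ y ψ (f : 𝓢(ℝ, ℂ)) v w, Adm a b κ ψ → (∀ u, f u = ψ u) → Tendsto (fun R =>
    inner ℂ w (sm T (fun m n x => eta m * a m * (eta n * a n) * -GF.mdot x x *
      ctf a b κ y ψ R x) v)) atTop (𝓝 (inner ℂ w (M a f v)))

end

end Vale.Agent.P352.SL
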