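import Vale.Agent.P352.SL.H788a

/-! P352 SL: `eb_dir` is in `H788a`. -/
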