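import Vale.Agent.P352.NC.E11

/-!
# P352 SL: covariant families of operators indexed by null vectors, the vanishing lemma

`B a`, `a` null, is a family of operators with adjoints, covariant under the similitudes that fix
the origin, and invariant under translations along `a·x = 0`. If its one-field components tend to
zero along the null rotations, `B a X` is orthogonal to the vectors created by `T` and `J`.
-/

set_option linter.all false

noncomputable section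

open MeasureTheory Filter Topology SchwartzMap Complex
open scoped SchwartzMap ComplexConjugate ContDiff LineDeriv NNReal

namespace Vale.Agent.P352.SL

open GF (Ix V Fn Fld Theory Sch IsLor bas eta o sim pd tr ev bar)
open H246 H496 H755 H15 H846 H246R H746 N86 NC
open UniformSpace (Completion)

variable {D : Type*} [NormedAddCommGroup D] [InnerProductSpace ℂ D]
variable {Q : GF.Theory D} {T : Ix → Ix → GF.Fld D} {J : Ix → GF.Fld D}
variable {A : (V → V) → D → D}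

/-- covariant families of operators -/
structure BF (Q : GF.Theory D) (B : V → D → D) : Prop where
  adj : ∀ a, IsNull a → HasAdj (B a)
  cov : ∀ s L a a' v, 0 < s → GF.IsLor L → IsNull a → IsNull a' → sim 1 L 0 a = s • a' →
    Q.U s L 0 (B a v) = B a' (Q.U s L 0 v)
  tra : ∀ a w v, IsNull a → GF.mdot a w = 0 → B a (Q.U 1 GF.one w v) = Q.U 1 GF.one w (B a v)

variable {B : V → D → D}

lemma bf_n0 : IsNull n0 := e3_n0

lemma bf_smul_null {a : V} (ha : IsNull a) {r : ℝ} (hr : 0 < r) : IsNull (r • a) :=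
  e11_null_smul ha hr

/-- the rescaled family -/
lemma BF.smul (h : BF Q B) {r : ℝ} (hr : 0 < r) : BF Q fun a => B (r • a) where
  adj a ha := h.adj _ (bf_smul_null ha hr)
  cov s L a a' v hs hL ha ha' he := by
    refine h.cov s L _ _ v hs hL (bf_smul_null ha hr) (bf_smul_null ha' hr) ?_
    rw [simL_smul, he, smul_smul, smul_smul, mul_comm]
  tra a w v ha hw := h.tra _ w v (bf_smul_null ha hr) (by rw [e11_gm_smul_left, hw, mul_zero])

/-- covariance under Lorentz transformations -/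
lemma BF.lor (h : BF Q B) {L : Ix → V} (hL : GF.IsLor L) {a : V} (ha : IsNull a) (v : D) :
    Q.U 1 L 0 (B a v) = B (sim 1 L 0 a) (Q.U 1 L 0 v) :=
  h.cov 1 L a _ v one_pos hL ha (isNull_lor hL ha) (one_smul ℝ _).symm

lemma BF.wd (h : BF Q B) (t : ℝ) (v : D) :
    B n0 (H496.Wd Q t v) = H496.Wd Q t (B n0 v) := by
  have h1 := h.cov (Real.exp t) _ n0 n0 v (Real.exp_pos t) (isLor_boost t) e3_n0 e3_n0
    (C6.boost_a0' t)
  exact h1.symm

lemma BF.rn (R : H15.Rep Q A) (h : BF Q B) (c : ℝ × ℝ) (v : D) :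
    Rn Q c (B n0 (Rn Q (-c) v)) = B (e3_m c) v := by
  have h1 := h.lor (isLor_nr c) e3_n0 (Rn Q (-c) v)
  have h2 : Q.U 1 (nr c) 0 (Rn Q (-c) v) = v := by
    have h3 := e9_Rn R (-c) v
    rw [neg_neg] at h3
    exact h3
  rw [h2] at h1
  exact h1

/-- the components along the null rotations -/
lemma BF.lm_eq (R : H15.Rep Q A) (h : BF Q B) {Φ : V → Fn → D} {lm : V → D → ℂ}
    (P : PV Q A Φ lm) (u : ℝ) (c : ℝ × ℝ) (X : D) :
    lm (nu (-1)) (Q.U 1 GF.one (-(u • nu (-1))) (B n0 (Rn Q (-c) X))) =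
      lm (nu (-1)) (Q.U 1 GF.one (-(u • nu (-1))) (B (e3_m c) X)) := by
  have e2 : -(u • nu (-1)) = (-u) • nu (-1) := by rw [neg_smul]
  rw [← h.rn R c X, e2, e8_tr R]
  exact (P.cov (nr c) (nu (-1)) (nu (-1)) _ (isLor_nr c) (by rw [nr_nu, one_smul])).symm

/-- **The vanishing lemma in the frame.** -/
theorem bf_frame (R : H15.Rep Q A) {Φ : V → Fn → D} {lm : V → D → ℂ} (P : PV Q A Φ lm)
    (h : BF Q B) (u : ℝ) (X : D)
    (h0 : Tendsto (fun k : ℕ => lm (nu (-1)) (Q.U 1 GF.one (-(u • nu (-1)))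
      (B (e3_m ((-(k : ℝ), (0 : ℝ)) : ℝ × ℝ)) X))) atTop (𝓝 0)) :
    lm (nu (-1)) (Q.U 1 GF.one (-(u • nu (-1))) (B n0 X)) = 0 := by
  have hB : HasAdj (B n0) := h.adj n0 e3_n0
  have h1 : Tendsto (fun k : ℕ => lm (nu (-1)) (Q.U 1 GF.one (-(u • nu (-1)))
      (B n0 (Rn Q (((k : ℝ), (0 : ℝ)) : ℝ × ℝ) X)))) atTop (𝓝 0) := by
    refine h0.congr fun k => ?_
    rw [← h.lm_eq R P]
    have e6 : -((-(k : ℝ), (0 : ℝ)) : ℝ × ℝ) = (((k : ℝ), (0 : ℝ)) : ℝ × ℝ) := by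
      ext <;> simp
    rw [e6]
  have h2 := e8_prog (f := fun k : ℕ => lm (nu (-1)) (Q.U 1 GF.one (-(u • nu (-1)))
      (B n0 (Rn Q (((k : ℝ), (0 : ℝ)) : ℝ × ℝ) X)))) (fun k => ?_) h1
  · have e0 : Rn Q ((((0 : ℕ) : ℝ), (0 : ℝ)) : ℝ × ℝ) X = X := by
      have : ((((0 : ℕ) : ℝ), (0 : ℝ)) : ℝ × ℝ) = 0 := by simp
      rw [this, lw_Rn_zero]
    simp only [e0] at h2
    exact h2
  · have h3 := lemW' R P hB h.wd (((1 : ℝ), (0 : ℝ)) : ℝ × ℝ) u
      (Rn Q (((k : ℝ), (0 : ℝ)) : ℝ × ℝ) X)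
    rw [lw_Rn_Rn R, lw_Rn_Rn R] at h3
    have e2 : (2 : ℝ) • (((1 : ℝ), (0 : ℝ)) : ℝ × ℝ) + (((k : ℝ), (0 : ℝ)) : ℝ × ℝ) =
        ((((k + 2 : ℕ) : ℝ), (0 : ℝ)) : ℝ × ℝ) := by
      ext <;> simp <;> ring
    have e3 : (((1 : ℝ), (0 : ℝ)) : ℝ × ℝ) + (((k : ℝ), (0 : ℝ)) : ℝ × ℝ) =
        ((((k + 1 : ℕ) : ℝ), (0 : ℝ)) : ℝ × ℝ) := by
      ext <;> simp <;> ring
    have e4 : ∀ v w : D, v - (2 : ℂ) • w = v + (-2 : ℂ) • w := fun v w => by
      rw [neg_smul, sub_eq_add_neg]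
    rw [e2, e3, e4, hB.add, hB.add, hB.smul, U_add one_pos isLor_one, U_add one_pos isLor_one,
      U_smul one_pos isLor_one, P.add, P.add, P.smul] at h3
    rw [← h3]
    ring

/-- all null vectors `a` with `a·b = 1` and all points -/
theorem bf_all (R : H15.Rep Q A) {Φ : V → Fn → D} {lm : V → D → ℂ} (P : PV Q A Φ lm)
    (h : BF Q B) {S : Set D} (hS : ∀ L y X, GF.IsLor L → X ∈ S → Q.U 1 L y X ∈ S)
    (hfr : ∀ (u : ℝ) (X : D), X ∈ S →
      lm (nu (-1)) (Q.U 1 GF.one (-(u • nu (-1))) (B n0 X)) = 0)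
    {a b : V} (ha : IsNull a) (hb : IsNull b) (hab : GF.mdot a b = 1) (hb0 : b o = 1) (x : V)
    {X : D} (hX : X ∈ S) : lm b (Q.U 1 GF.one (-x) (B a X)) = 0 := by
  obtain ⟨θ, ψ, hrot⟩ := exists_rot hb
  have hL := isLor_Rt θ ψ
  have hb0' : b 0 = 1 := hb0
  rw [hb0', inv_one, one_smul] at hrot
  -- the component of `x` along the null plane
  set u : ℝ := GF.mdot a x with hu
  set w : V := x - u • b with hw
  have haw : GF.mdot a (-w) = 0 := by
    have h1 := md_smul a (-1) w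
    rw [neg_one_smul] at h1
    rw [h1, hw, md_sub, md_smul, hab]
    ring
  have ex : -x = -(u • b) + -w := by rw [hw]; abel
  rw [ex, ← e9_UU R, ← h.tra a (-w) X ha haw]
  have hX0 : Q.U 1 GF.one (-w) X ∈ S := hS _ _ _ isLor_one hX
  set X0 := Q.U 1 GF.one (-w) X with hX0d
  -- the rotation
  have hX1 : Q.U 1 (linv (Rt θ ψ)) 0 X0 ∈ S := hS _ _ _ (isLor_linv hL) hX0
  set X1 := Q.U 1 (linv (Rt θ ψ)) 0 X0 with hX1d
  have hv : X0 = Q.U 1 (Rt θ ψ) 0 X1 := by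
    have h4 := H755.U_linv' R one_pos hL X0
    rw [inv_one] at h4
    exact h4.symm
  set a' : V := sim 1 (linv (Rt θ ψ)) 0 a with ha'
  have hna' : IsNull a' := isNull_lor (isLor_linv hL) ha
  have hra : sim 1 (Rt θ ψ) 0 a' = a := by rw [ha', sim_linv hL]
  have hab' : GF.mdot a' (nu (-1)) = 1 := by
    rw [ha', ← md_LL hL, sim_linv hL, hrot]
    exact hab
  have hX' : ∀ v, B a (Q.U 1 (Rt θ ψ) 0 v) = Q.U 1 (Rt θ ψ) 0 (B a' v) := by
    intro v
    rw [h.lor hL hna' v, hra]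
  rw [hv, hX']
  -- the null rotation
  set c : ℝ × ℝ := (a' 2, a' 3) with hc
  have hm : a' = e3_m c := e9_m hna' hab'
  have hX2 : Rn Q (-c) X1 ∈ S := hS _ _ _ (isLor_nr (-c)) hX1
  rw [hm, ← h.rn R c X1]
  -- the translation
  have hub : u • b = sim 1 (Rt θ ψ) 0 (u • nu (-1)) := by rw [simL_smul, hrot]
  have hun : u • nu (-1) = sim 1 (nr c) 0 (u • nu (-1)) := by
    rw [simL_smul, nr_nu, one_smul]
  rw [hub, e9_UL R hL, P.cov (Rt θ ψ) (nu (-1)) b _ hL hrot]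
  unfold Rn
  conv_lhs => rw [hun]
  rw [e9_UL R (isLor_nr c), P.cov (nr c) (nu (-1)) (nu (-1)) _ (isLor_nr c)
    (by rw [nr_nu, one_smul])]
  exact hfr u _ hX2

/-- the components of `J Ω` along `b` -/
def PhJ (Q : GF.Theory D) (J : Ix → GF.Fld D) (b : V) (f : Fn) : D :=
  ∑ m, ((GF.eta m * b m : ℝ) : ℂ) • J m f Q.vac

/-- the components of `T Ω` along `b` -/
def PhT (Q : GF.Theory D) (T : Ix → Ix → GF.Fld D) (b : V) (f : Fn) : D :=
  ∑ m, ∑ n, ((GF.eta m * b m * (GF.eta n * b n) : ℝ) : ℂ) • T m n f Q.vac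

/-- the components of a vector along the one-field vectors vanish if the components along null
vectors do -/
theorem orth_of' (hT : Q.IsStress T) (hJ : IsVirial Q T J) (R : H15.Rep Q A) {a : V}
    (ha : IsNull a) (w : D)
    (hz : ∀ (Φ : V → Fn → D) (lm : V → D → ℂ), Φ = PhJ Q J ∨ Φ = PhT Q T → PV Q A Φ lm →
      ∀ b, IsNull b → b o = 1 → 0 < GF.mdot a b → ∀ x : Mink, lm b (U1 Q (-x) w) = 0) :
    (∀ m (F : 𝓢(Mink, ℂ)), inner ℂ (J m (fl F) Q.vac) w = 0) ∧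
    (∀ m n (F : 𝓢(Mink, ℂ)), inner ℂ (T m n (fl F) Q.vac) w = 0) := by
  obtain ⟨lj, hjr, hjc, Pj⟩ := pv_J (A := A) hJ R
  obtain ⟨lt, htr, htc, Pt⟩ := pv_T (A := A) hT R
  have hj0 : ∀ (m : Ix) (y : Mink), lj m (U1 Q (-y) w) = 0 := by
    intro m y
    refine span_J ha (z := fun m => lj m (U1 Q (-y) w)) (fun b hb hb0 hab => ?_) m
    exact hz _ _ (Or.inl rfl) Pj b hb hb0 hab y
  have hsym : ∀ (m n : Ix) (y : Mink), lt m n (U1 Q (-y) w) = lt n m (U1 Q (-y) w) := by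
    intro m n y
    refine congrFun (H746.fun_unique (htc m n w) (htc n m w) fun F _ => ?_) y
    rw [← htr, ← htr, hT.symm m n _ _ (isTest_fl F)]
  have htrace : ∀ y : Mink, ∑ m, (GF.eta m : ℂ) * lt m m (U1 Q (-y) w) = 0 := by
    intro y
    refine congrFun (H746.fun_unique (h := fun y => ∑ m, (GF.eta m : ℂ) * lt m m (U1 Q (-y) w))
      (h' := fun _ => 0) (continuous_finset_sum _ fun m _ => continuous_const.mul (htc m m w))
      continuous_const fun F hF => ?_) y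
    have e1 : (fun x : Mink => conj (F x) * ∑ m, (GF.eta m : ℂ) * lt m m (U1 Q (-x) w)) =
        fun x : Mink => ∑ m, (GF.eta m : ℂ) * (conj (F x) * lt m m (U1 Q (-x) w)) := by
      funext x
      rw [Finset.mul_sum]
      exact Finset.sum_congr rfl fun m _ => by ring
    rw [e1, integral_finset_sum _ fun m _ => (e11_int F hF (htc m m w)).const_mul _]
    simp only [integral_const_mul, ← htr]
    have e2 : inner ℂ (tr T (fl F) Q.vac) w =
        ∑ m, (GF.eta m : ℂ) * inner ℂ (T m m (fl F) Q.vac) w := by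
      simp only [tr, sum_inner, inner_smul_left, conj_ofReal]
    rw [← e2, hJ.div _ _ (isTest_fl F), inner_neg_left, sum_inner]
    simp only [pd_fl, hjr, hj0, mul_zero, integral_zero, Finset.sum_const_zero, neg_zero]
  have ht0 : ∀ (m n : Ix) (y : Mink), lt m n (U1 Q (-y) w) = 0 := by
    intro m n y
    refine span_T ha (z := fun m n => lt m n (U1 Q (-y) w)) (fun m n => hsym m n y) (htrace y)
      (fun b hb hb0 hab => ?_) m n
    exact hz _ _ (Or.inr rfl) Pt b hb hb0 hab y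
  exact ⟨fun m F => by simp only [hjr, hj0, mul_zero, integral_zero],
    fun m n F => by simp only [htr, ht0, mul_zero, integral_zero]⟩

theorem orth_of (hT : Q.IsStress T) (hJ : IsVirial Q T J) (R : H15.Rep Q A) {a : V}
    (ha : IsNull a) (w : D)
    (hz : ∀ (Φ : V → Fn → D) (lm : V → D → ℂ), PV Q A Φ lm → ∀ b, IsNull b → b o = 1 →
      0 < GF.mdot a b → ∀ x : Mink, lm b (U1 Q (-x) w) = 0) :
    (∀ m (F : 𝓢(Mink, ℂ)), inner ℂ (J m (fl F) Q.vac) w = 0) ∧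
    (∀ m n (F : 𝓢(Mink, ℂ)), inner ℂ (T m n (fl F) Q.vac) w = 0) :=
  orth_of' hT hJ R ha w fun Φ lm _ P => hz Φ lm P

/-- **The vanishing lemma.** `B a X` is orthogonal to the one-field vectors of `T` and `J`, if the
components of `B (r m) Y` along `b` tend to zero for the null vectors `m` with `m·b = 1` that
approach the direction `b`. -/
theorem bf_orth' (hT : Q.IsStress T) (hJ : IsVirial Q T J) (R : H15.Rep Q A) (h : BF Q B)
    {S : Set D} (hS : ∀ L y X, GF.IsLor L → X ∈ S → Q.U 1 L y X ∈ S)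
    (h0 : ∀ (Φ : V → Fn → D) (lm : V → D → ℂ), Φ = PhJ Q J ∨ Φ = PhT Q T → PV Q A Φ lm →
      ∀ (r u : ℝ) (X : D), 0 < r →
      X ∈ S → Tendsto (fun k : ℕ => lm (nu (-1)) (Q.U 1 GF.one (-(u • nu (-1)))
        (B (r • e3_m ((-(k : ℝ), (0 : ℝ)) : ℝ × ℝ)) X))) atTop (𝓝 0))
    {a : V} (ha : IsNull a) {X : D} (hX : X ∈ S) :
    (∀ m (F : 𝓢(Mink, ℂ)), inner ℂ (J m (fl F) Q.vac) (B a X) = 0) ∧
    (∀ m n (F : 𝓢(Mink, ℂ)), inner ℂ (T m n (fl F) Q.vac) (B a X) = 0) := by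
  refine orth_of' hT hJ R ha (B a X) fun Φ lm hΦ P b hb hb0 hab x => ?_
  have ha' : IsNull ((GF.mdot a b)⁻¹ • a) := bf_smul_null ha (inv_pos.2 hab)
  have h1 : GF.mdot ((GF.mdot a b)⁻¹ • a) b = 1 := by
    rw [e11_gm_smul_left, inv_mul_cancel₀ hab.ne']
  have h2 := bf_all R P (h.smul hab) hS (fun u Y hY => bf_frame R P (h.smul hab) u Y
    (h0 Φ lm hΦ P _ u Y hab hY)) ha' hb h1 hb0 x.ofLp hX
  rw [smul_smul, mul_inv_cancel₀ hab.ne', one_smul] at h2
  exact h2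

theorem bf_orth (hT : Q.IsStress T) (hJ : IsVirial Q T J) (R : H15.Rep Q A) (h : BF Q B)
    {S : Set D} (hS : ∀ L y X, GF.IsLor L → X ∈ S → Q.U 1 L y X ∈ S)
    (h0 : ∀ (Φ : V → Fn → D) (lm : V → D → ℂ), PV Q A Φ lm → ∀ (r u : ℝ) (X : D), 0 < r →
      X ∈ S → Tendsto (fun k : ℕ => lm (nu (-1)) (Q.U 1 GF.one (-(u • nu (-1)))
        (B (r • e3_m ((-(k : ℝ), (0 : ℝ)) : ℝ × ℝ)) X))) atTop (𝓝 0))
    {a : V} (ha : IsNull a) {X : D} (hX : X ∈ S) :
    (∀ m (F : 𝓢(Mink, ℂ)), inner ℂ (J m (fl F) Q.vac) (B a X) = 0) ∧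
    (∀ m n (F : 𝓢(Mink, ℂ)), inner ℂ (T m n (fl F) Q.vac) (B a X) = 0) :=
  bf_orth' hT hJ R h hS (fun Φ lm _ P => h0 Φ lm P) ha hX

end Vale.Agent.P352.SL

end
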