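import Vale.Agent.P352.SL.Base
import Vale.Agent.P352.SL.S2a
import Vale.Agent.P352.H496.Net

/-!
# P352 SL, block N1: the operators `N a f` as vector valued distributions on the line
-/

set_option linter.all false

noncomputable section

open MeasureTheory Filter Topology SchwartzMap Complex
open scoped SchwartzMap ComplexConjugate ContDiff FourierTransform NNReal

namespace Vale.Agent.P352.SL

open GF (Ix V Fn Fld Theory Sch IsLor bas eta o sim pd tr ev bar)
open H246 H496 H755 H15 H846 H246R H746 N86 NC NF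
open UniformSpace (Completion)

variable {D : Type*} [NormedAddCommGroup D] [InnerProductSpace ℂ D]
variable {Q : GF.Theory D} {A : (V → V) → D → D} {N : V → 𝓢(ℝ, ℂ) → D → D}

theorem sn_cl (hS : SN Q N) {a : V} (ha : IsNull a) (v : D) :
    ∃ κ : 𝓢(ℝ, ℂ) →L[ℂ] Completion D, ∀ f, κ f = ((N a f v : D) : Completion D) := by
  have hz : N a 0 v = 0 := by
    have h1 := hS.lin a 0 0 1 v ha
    rw [one_smul, one_smul, add_zero] at h1
    have h2 := congrArg (fun z => z - N a 0 v) h1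
    have h3 : 0 = N a 0 v := by simpa using h2
    exact h3.symm
  set Ψ : 𝓢(ℝ, ℂ) →ₗ[ℂ] Completion D :=
    { toFun := fun f => ((N a f v : D) : Completion D)
      map_add' := fun f g => by
        have h1 := hS.lin a f g 1 v ha
        rw [one_smul, one_smul] at h1
        rw [h1, Completion.coe_add]
      map_smul' := fun c f => by
        have h1 := hS.lin a 0 f c v ha
        rw [hz, zero_add, zero_add] at h1
        rw [h1, Completion.coe_smul, RingHom.id_apply] } with hΨ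
  have := barrelled_R'
  have hcont : Continuous Ψ := by
    refine cont_of_weak Ψ (Z := Set.range ((↑) : D → Completion D)) Completion.denseRange_coe ?_
    rintro _ ⟨z, rfl⟩
    have e : (fun f : 𝓢(ℝ, ℂ) => inner ℂ (z : Completion D) (Ψ f)) =
        fun f : 𝓢(ℝ, ℂ) => inner ℂ z (N a f v) := by
      funext f
      show inner ℂ (z : Completion D) ((N a f v : D) : Completion D) = _
      rw [Completion.inner_coe]
    rw [e]
    exact hS.cont a v z ha
  exact ⟨⟨Ψ, hcont⟩, fun f => rfl⟩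

/-- the complex conjugate of a test function -/
def cjR (f : 𝓢(ℝ, ℂ)) : 𝓢(ℝ, ℂ) :=
  SchwartzMap.postcompCLM (𝕜 := ℝ) (Complex.conjCLE : ℂ →L[ℝ] ℂ) f

lemma cjR_apply (f : 𝓢(ℝ, ℂ)) (u : ℝ) : cjR f u = conj (f u) := by
  simp only [cjR, postcompCLM_apply, ContinuousLinearEquiv.coe_coe,
    ContinuousAlgEquiv.coeCLE_apply, Complex.conjCAE_apply]

theorem sn_hasAdj (hS : SN Q N) {a : V} (ha : IsNull a) (f : 𝓢(ℝ, ℂ)) : HasAdj (N a f) :=
  ⟨N a (cjR f), fun v w => hS.adj a f (cjR f) v w ha (cjR_apply f)⟩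

theorem sn_grow (hS : SN Q N) {a : V} (ha : IsNull a) (f : 𝓢(ℝ, ℂ)) (v : D) :
    ∃ (C : ℝ) (k : ℕ), 0 ≤ C ∧ ∀ (x : ℝ) (g : 𝓢(ℝ, ℂ)), (∀ u, g u = f (u - x)) →
      ‖N a g v‖ ≤ C * (1 + |x|) ^ k := by
  obtain ⟨κ, hκ⟩ := sn_cl hS ha v
  obtain ⟨s, C, _, hC⟩ := Seminorm.bound_of_continuous (schwartz_withSeminorms ℂ ℝ ℂ)
    ((normSeminorm ℂ (Completion D)).comp (κ : 𝓢(ℝ, ℂ) →ₗ[ℂ] Completion D)) (by
      exact continuous_norm.comp κ.continuous)
  -- the seminorms of the translates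
  have h1 : ∀ i : ℕ × ℕ, ∃ M, 0 ≤ M ∧ ∀ x : ℝ,
      (schwartzSeminormFamily ℂ ℝ ℂ i) (compSubConstCLM ℂ x f) ≤ M * (1 + |x|) ^ (i.1 + 1) := by
    rintro ⟨k, n⟩
    refine ⟨2 ^ k * (SchwartzMap.seminorm ℂ k (n + 1) f + SchwartzMap.seminorm ℂ 0 (n + 1) f) +
      SchwartzMap.seminorm ℂ k n f, by positivity, fun x => ?_⟩
    have h := seminorm_shift_sub_le f k n x 0 |x| (by rw [Real.norm_eq_abs])
      (by rw [norm_zero]; positivity)
    have h2 : compSubConstCLM ℂ (0 : ℝ) f = f := by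
      ext u
      simp
    rw [h2, sub_zero, Real.norm_eq_abs] at h
    have h4 := map_add_le_add (SchwartzMap.seminorm ℂ k n) (compSubConstCLM ℂ x f - f) f
    rw [sub_add_cancel] at h4
    have hx1 : (1 : ℝ) ≤ 1 + |x| := by linarith [abs_nonneg x]
    have hx0 : (0 : ℝ) ≤ 1 + |x| := by linarith
    have e1 : SchwartzMap.seminorm ℂ k (n + 1) f + |x| ^ k * SchwartzMap.seminorm ℂ 0 (n + 1) f ≤
        (SchwartzMap.seminorm ℂ k (n + 1) f + SchwartzMap.seminorm ℂ 0 (n + 1) f) *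
          (1 + |x|) ^ k := by
      rw [add_mul]
      refine add_le_add ?_ ?_
      · exact le_mul_of_one_le_right (apply_nonneg _ _) (one_le_pow₀ hx1)
      · rw [mul_comm]
        refine mul_le_mul_of_nonneg_left ?_ (apply_nonneg _ _)
        exact pow_le_pow_left₀ (abs_nonneg x) (by linarith) k
    have e2 : 2 ^ k * (SchwartzMap.seminorm ℂ k (n + 1) f +
        |x| ^ k * SchwartzMap.seminorm ℂ 0 (n + 1) f) * |x| ≤
        2 ^ k * (SchwartzMap.seminorm ℂ k (n + 1) f + SchwartzMap.seminorm ℂ 0 (n + 1) f) *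
          (1 + |x|) ^ (k + 1) := by
      calc _ ≤ 2 ^ k * ((SchwartzMap.seminorm ℂ k (n + 1) f +
            SchwartzMap.seminorm ℂ 0 (n + 1) f) * (1 + |x|) ^ k) * (1 + |x|) := by
            gcongr
            linarith
        _ = _ := by ring
    have e3 : SchwartzMap.seminorm ℂ k n f ≤ SchwartzMap.seminorm ℂ k n f * (1 + |x|) ^ (k + 1) :=
      le_mul_of_one_le_right (apply_nonneg _ _) (one_le_pow₀ hx1)
    show SchwartzMap.seminorm ℂ k n (compSubConstCLM ℂ x f) ≤ _
    calc _ ≤ SchwartzMap.seminorm ℂ k n (compSubConstCLM ℂ x f - f) +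
          SchwartzMap.seminorm ℂ k n f := h4
      _ ≤ _ := add_le_add (h.trans e2) e3
      _ = _ := by ring
  choose M hM0 hM using h1
  refine ⟨C * ∑ i ∈ s, M i, ∑ i ∈ s, (i.1 + 1),
    mul_nonneg C.2 (Finset.sum_nonneg fun i _ => hM0 i), fun x g hg => ?_⟩
  have e : g = compSubConstCLM ℂ x f := by
    ext u
    rw [hg, compSubConstCLM_apply]
  have hx1 : (1 : ℝ) ≤ 1 + |x| := by linarith [abs_nonneg x]
  have h2 : ‖κ g‖ ≤ C * (s.sup (schwartzSeminormFamily ℂ ℝ ℂ)) g := hC g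
  rw [hκ, Completion.norm_coe] at h2
  refine h2.trans ?_
  rw [mul_assoc]
  refine mul_le_mul_of_nonneg_left ?_ C.2
  refine Seminorm.finset_sup_apply_le (mul_nonneg (Finset.sum_nonneg fun i _ => hM0 i)
    (by positivity)) fun i hi => ?_
  rw [e]
  refine (hM i x).trans ?_
  refine mul_le_mul (Finset.single_le_sum (fun j _ => hM0 j) hi) ?_ (by positivity)
    (Finset.sum_nonneg fun i _ => hM0 i)
  refine pow_le_pow_right₀ hx1 ?_
  exact Finset.single_le_sum (f := fun i : ℕ × ℕ => i.1 + 1) (fun j _ => Nat.zero_le _) hi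

end Vale.Agent.P352.SL

end
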