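import Vale.Agent.P352.SL.N1
import Mathlib.Analysis.Fourier.Convolution

/-!
# P352 SL, block N2: the spectrum of the translates of `N a f`
-/

set_option linter.all false

noncomputable section

open MeasureTheory Filter Topology SchwartzMap Complex
open scoped SchwartzMap ComplexConjugate ContDiff FourierTransform

namespace Vale.Agent.P352.SL

open GF (Ix V Fn Fld Theory Sch IsLor bas eta o sim pd tr ev bar)
open H246 H496 H755 H15 H846 H246R H746 N86 NC NF
open UniformSpace (Completion)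

variable {D : Type*} [NormedAddCommGroup D] [InnerProductSpace ℂ D]
variable {Q : GF.Theory D} {A : (V → V) → D → D} {N : V → 𝓢(ℝ, ℂ) → D → D}

/-- dilations of test functions -/
def n2_dl {r : ℝ} (hr : r ≠ 0) : 𝓢(ℝ, ℂ) →L[ℂ] 𝓢(ℝ, ℂ) :=
  compCLMOfContinuousLinearEquiv ℂ (ContinuousLinearEquiv.unitsEquivAut ℝ (Units.mk0 r hr))

lemma n2_dl_apply {r : ℝ} (hr : r ≠ 0) (f : 𝓢(ℝ, ℂ)) (u : ℝ) : n2_dl hr f u = f (r * u) := by
  show f (u * r) = _
  rw [mul_comm]

lemma n2_fourier {r : ℝ} (hr : 0 < r) {f g : 𝓢(ℝ, ℂ)} (hg : ∀ u, g u = f (r * u)) (ξ : ℝ) :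
    𝓕 g ξ = ((r⁻¹ : ℝ) : ℂ) * 𝓕 f (r⁻¹ * ξ) := by
  rw [fourier_coe, fourier_coe, Real.fourier_real_eq, Real.fourier_real_eq]
  have h1 := Measure.integral_comp_mul_left
    (fun t : ℝ => Real.fourierChar (-(t * (r⁻¹ * ξ))) • f t) r
  have h2 : ∀ u : ℝ, Real.fourierChar (-(u * ξ)) • g u =
      Real.fourierChar (-((r * u) * (r⁻¹ * ξ))) • f (r * u) := by
    intro u
    rw [hg]
    congr 3
    field_simp
  simp only [h2]
  rw [h1, abs_of_pos (inv_pos.2 hr), Complex.real_smul]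

theorem sn_bd (hS : SN Q N) {a : V} (ha : IsNull a) {f : 𝓢(ℝ, ℂ)} {δ K : ℝ} (hf : FS δ K f)
    (v w : D) {G : ℝ → 𝓢(ℝ, ℂ)} (hG : ∀ x u, G x u = f (u - x * a o)) :
    Bd (-(a o * K)) (-(a o * δ)) fun x => inner ℂ w (N a (G x) v) := by
  intro h hh
  obtain ⟨κ, hκ⟩ := sn_cl hS ha v
  have hr : 0 < a o := ha.2
  obtain ⟨r, hrdef⟩ : ∃ r, r = a o := ⟨_, rfl⟩
  rw [← hrdef] at hr hh hG
  set fr : 𝓢(ℝ, ℂ) := n2_dl hr.ne' f with hfr
  set ℓ : 𝓢(ℝ, ℂ) →L[ℂ] ℂ := (innerSL ℂ (w : Completion D)).comp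
    (κ.comp (n2_dl (inv_ne_zero hr.ne'))) with hℓ
  have hℓa : ∀ x, ℓ (compSubConstCLM ℂ x fr) = inner ℂ w (N a (G x) v) := by
    intro x
    have e : n2_dl (inv_ne_zero hr.ne') (compSubConstCLM ℂ x fr) = G x := by
      ext u
      rw [n2_dl_apply, compSubConstCLM_apply, hfr, n2_dl_apply, hG]
      congr 1
      field_simp
    show inner ℂ (w : Completion D) (κ (n2_dl (inv_ne_zero hr.ne') (compSubConstCLM ℂ x fr))) = _
    rw [e, hκ, Completion.inner_coe]
  -- the convolution vanishes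
  have hc0 : SchwartzMap.convolution (ContinuousLinearMap.mul ℂ ℂ) h fr = 0 := by
    have h1 : 𝓕 (SchwartzMap.convolution (ContinuousLinearMap.mul ℂ ℂ) h fr) = 0 := by
      rw [SchwartzMap.fourier_convolution]
      ext ξ
      rw [SchwartzMap.pairing_apply_apply]
      show 𝓕 h ξ * 𝓕 fr ξ = 0
      by_cases hξ : r * δ ≤ ξ ∧ ξ ≤ r * K
      · have h2 : 𝓕 h ξ = 𝓕⁻ h (-ξ) := by
          rw [fourier_coe, fourierInv_coe, Real.fourierInv_eq_fourier_neg, neg_neg]
        rw [h2, hh (-ξ) (by linarith [hξ.2]) (by linarith [hξ.1]), zero_mul]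
      · have h2 : 𝓕 fr ξ = 0 := by
          rw [n2_fourier hr (fun u => n2_dl_apply hr.ne' f u), hf, mul_zero]
          rw [not_and_or, not_le, not_le] at hξ
          rcases hξ with h3 | h3
          · left
            rw [inv_mul_lt_iff₀ hr]
            exact h3
          · right
            rw [lt_inv_mul_iff₀ hr]
            exact h3
        rw [h2, mul_zero]
    have h2 := congrArg (fun g : 𝓢(ℝ, ℂ) => 𝓕⁻ g) h1
    simpa using h2
  have hid := conv_identity_gen volume ℓ fr h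
    (SchwartzMap.convolution (ContinuousLinearMap.mul ℂ ℂ) h fr) (fun x => by
      rw [SchwartzMap.convolution_apply]
      rfl)
  rw [hc0, map_zero] at hid
  rw [hid]
  refine integral_congr_ae (Eventually.of_forall fun x => ?_)
  show h x * inner ℂ w (N a (G x) v) = h x • ℓ (compSubConstCLM ℂ x fr)
  rw [hℓa, smul_eq_mul]

end Vale.Agent.P352.SL

end
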