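import Vale.Agent.P352.SL.D2
import Vale.Agent.P352.SL.D3
import Vale.Agent.P352.SL.N1
import Vale.Agent.P352.SL.N2
import Vale.Agent.P352.SL.D1

/-!
# P352 SL: block N3 (energy bounds for `N a f X`, the lowering lemma)
-/

set_option linter.all false

noncomputable section

open MeasureTheory Filter Topology SchwartzMap Complex
open scoped SchwartzMap ComplexConjugate ContDiff FourierTransform

namespace Vale.Agent.P352.SL

open GF (Ix V Fn Fld Theory Sch IsLor bas eta o sim pd tr ev bar)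
open H246 H496 H755 H15 H846 H246R H746 N86 NC NF
open UniformSpace (Completion)

variable {D : Type*} [NormedAddCommGroup D] [InnerProductSpace ℂ D]
variable {Q : GF.Theory D} {T : Ix → Ix → GF.Fld D} {J : Ix → GF.Fld D}
variable {A : (V → V) → D → D} {N M : V → 𝓢(ℝ, ℂ) → D → D}

lemma n3_cj (f : 𝓢(ℝ, ℂ)) : ∃ g : 𝓢(ℝ, ℂ), ∀ u, g u = conj (f u) :=
  ⟨SchwartzMap.postcompCLM (𝕜 := ℝ) (Complex.conjCLE : ℂ →L[ℝ] ℂ) f, fun u => rfl⟩

/-- the shift by `x` -/
def sh (f : 𝓢(ℝ, ℂ)) (x : ℝ) : 𝓢(ℝ, ℂ) := compSubConstCLM ℂ x f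

lemma sh_apply (f : 𝓢(ℝ, ℂ)) (x u : ℝ) : sh f x u = f (u - x) := rfl

lemma continuous_Ut (v : D) : Continuous fun t : ℝ => Q.U 1 GF.one (t • bas o 1) v := by
  have h1 := continuous_U1a (Q := Q) v
  have h2 : Continuous fun t : ℝ => (WithLp.toLp 2 (t • bas o 1) : Mink) := by fun_prop
  exact h1.comp h2

/-- time translations of `N a f X` -/
lemma sn_time (hS : SN Q N) {a : V} (ha : IsNull a) (f : 𝓢(ℝ, ℂ)) (t : ℝ) (X : D) :
    Q.U 1 GF.one (t • bas o 1) (N a f X) =
      N a (sh f (t * a o)) (Q.U 1 GF.one (t • bas o 1) X) := by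
  refine hS.cov 1 GF.one (t • bas o 1) a a f (sh f (t * a o)) X one_pos isLor_one ha ?_ ?_
  · funext n
    simp [sim, GF.one, bas]
  · intro u
    rw [sh_apply]
    congr 2
    simp [GF.mdot, bas, GF.eta, o, mul_comm]

theorem eb_N (R : H15.Rep Q A) (hS : SN Q N) {a : V} (ha : IsNull a) {f : 𝓢(ℝ, ℂ)} {δ K : ℝ}
    (hf : FS δ K f) {α β : ℝ} {X : D} (hX : EB Q α β X) {ε : ℝ} (hε : 0 < ε) :
    EB Q (α - a o * K - ε) (β - a o * δ + ε) (N a f X) := by
  intro w
  obtain ⟨fb, hfb⟩ := n3_cj f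
  have hadj : ∀ (x : ℝ) (v w' : D), inner ℂ w' (N a (sh f x) v) = inner ℂ (N a (sh fb x) w') v := by
    intro x v w'
    refine (hS.adj a (sh fb x) (sh f x) w' v ha fun u => ?_).symm
    rw [sh_apply, sh_apply, hfb, Complex.conj_conj]
  obtain ⟨C, k, hC0, hC⟩ := sn_grow hS ha fb w
  have key := bd_diag (G := fun x y => inner ℂ w (N a (sh f (x * a o)) (Q.U 1 GF.one (y • bas o 1) X)))
    (C := C * (1 + |a o|) ^ k * ‖X‖) (k := k) (α₁ := -(a o * K)) (β₁ := -(a o * δ)) (α₂ := α)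
    (β₂ := β) ?_ ?_ ?_ ?_ ?_ hε
  · have e : (fun t : ℝ => inner ℂ w (Q.U 1 GF.one (t • bas o 1) (N a f X))) =
        fun t => inner ℂ w (N a (sh f (t * a o)) (Q.U 1 GF.one (t • bas o 1) X)) := by
      funext t
      rw [sn_time hS ha]
    rw [e]
    have e1 : α - a o * K - ε = -(a o * K) + α - ε := by ring
    have e2 : β - a o * δ + ε = -(a o * δ) + β + ε := by ring
    rw [e1, e2]
    exact key
  · intro y
    have h1 := hS.cont a (Q.U 1 GF.one (y • bas o 1) X) w ha
    have h2 : Continuous fun x : ℝ => sh f (x * a o) :=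
      (continuous_shift f).comp (by fun_prop : Continuous fun x : ℝ => x * a o)
    exact h1.comp h2
  · intro x
    simp only [hadj]
    exact (continuous_const.inner (continuous_Ut X))
  · intro x y
    rw [hadj]
    refine (norm_inner_le_norm _ _).trans ?_
    rw [nU]
    have h1 := hC (x * a o) (sh fb (x * a o)) fun u => rfl
    calc ‖N a (sh fb (x * a o)) w‖ * ‖X‖ ≤ (C * (1 + |x * a o|) ^ k) * ‖X‖ := by gcongr
      _ ≤ (C * ((1 + |a o|) * (1 + |x|)) ^ k) * ‖X‖ := by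
          gcongr
          rw [abs_mul]
          nlinarith [abs_nonneg x, abs_nonneg (a o)]
      _ = C * (1 + |a o|) ^ k * ‖X‖ * (1 + |x|) ^ k := by rw [mul_pow]; ring
  · intro y
    exact sn_bd hS ha hf _ w fun x u => rfl
  · intro x
    simp only [hadj]
    exact hX _

/-- the lowering lemma -/
theorem low (R : H15.Rep Q A) (hS : SN Q N) {a : V} (ha : IsNull a) {f : 𝓢(ℝ, ℂ)} {δ K : ℝ}
    (hf : FS δ K f) {α β : ℝ} {X : D} (hX : EB Q α β X) (h : β < a o * δ) : N a f X = 0 := by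
  have hε : 0 < (a o * δ - β) / 2 := by linarith
  have h1 := eb_N R hS ha hf hX hε
  have h2 : ∀ w : D, inner ℂ w (N a f X) = 0 := by
    intro w
    have h3 := bd_zero (F := fun t => inner ℂ w (Q.U 1 GF.one (t • bas o 1) (N a f X)))
      (continuous_const.inner (continuous_Ut _)) (C := ‖w‖ * ‖N a f X‖) (fun t => by
        refine (norm_inner_le_norm _ _).trans ?_
        rw [nU]) (β := β - a o * δ + (a o * δ - β) / 2) (by linarith) (h1 w)
      (fun g hg => spec_pos _ _ g hg) 0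
    have h0 : Q.U 1 GF.one 0 (N a f X) = N a f X := U1_zero_all (Q := Q) _
    simpa only [zero_smul, h0] using h3
  have h4 := h2 (N a f X)
  exact inner_self_eq_zero.1 h4

end Vale.Agent.P352.SL

end
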