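import Vale.Agent.P352.SL.Base
import Vale.Agent.P352.SL.S3a

set_option linter.all false

noncomputable section

open scoped SchwartzMap FourierTransform

namespace Vale.Agent.P352.SL

theorem dense_FS : Dense {f : 𝓢(ℝ, ℂ) | ∃ K, FS (-K) K f} := dense_FS'

theorem dense_BL : Dense {F : 𝓢(Mink, ℂ) | BL F} := dense_hcs_four

end Vale.Agent.P352.SL

end
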