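import Vale.Agent.P352.SL.S1
import Vale.Agent.P352.SL.S3
import Vale.Agent.P352.SL.N3
import Vale.Agent.P352.SL.EbDir
import Vale.Agent.P352.SL.H555a

/-!
# P352 SL, block F4: the parts of `N a f` that raise or lower the energy kill the field vectors
-/

set_option linter.all false

noncomputable section

open MeasureTheory Filter Topology SchwartzMap Complex
open scoped SchwartzMap ComplexConjugate ContDiff FourierTransform

namespace Vale.Agent.P352.SL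

open GF (Ix V Fn Fld Theory Sch IsLor bas eta o sim pd tr ev bar)
open H246 H496 H755 H15 H846 H246R H746 N86 NC NF
open UniformSpace (Completion)

variable {D : Type*} [NormedAddCommGroup D] [InnerProductSpace ℂ D]
variable {Q : GF.Theory D} {T : Ix → Ix → GF.Fld D} {J : Ix → GF.Fld D}
variable {A : (V → V) → D → D} {N : V → 𝓢(ℝ, ℂ) → D → D}

/-- energy bounded in all frames -/
def EL (Q : GF.Theory D) : Set D := {X | ∀ L y, GF.IsLor L → ∃ α β, EB Q α β (Q.U 1 L y X)}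

lemma el_mul (R : H15.Rep Q A) {L L' : Ix → V} (hL : GF.IsLor L) (hL' : GF.IsLor L') (y y' : V)
    (v : D) : ∃ L'' y'', GF.IsLor L'' ∧ Q.U 1 L y (Q.U 1 L' y' v) = Q.U 1 L'' y'' v :=
  ⟨_, _, N86.c1_lor hL hL', by rw [R.mul 1 L y 1 L' y' v one_pos one_pos hL hL', one_mul]⟩

lemma el_U (R : H15.Rep Q A) {L : Ix → V} (y : V) {X : D} (hL : GF.IsLor L) (hX : X ∈ EL Q) :
    Q.U 1 L y X ∈ EL Q := by
  intro L' y' hL'
  obtain ⟨L'', y'', h1, h2⟩ := el_mul R hL' hL y' y X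
  rw [h2]
  exact hX L'' y'' h1

lemma el_eb {X : D} (hX : X ∈ EL Q) : ∃ α β, EB Q α β X := by
  obtain ⟨α, β, h⟩ := hX GF.one 0 isLor_one
  rw [Uone] at h
  exact ⟨α, β, h⟩

/-- vectors that are band-limited in all directions -/
lemma el_dir (R : H15.Rep Q A) {X : D} (hX : ∀ e : V, ∃ α β, ∀ w : D,
    Bd α β fun t => inner ℂ w (Q.U 1 GF.one (t • e) X)) : X ∈ EL Q := by
  intro L y hL
  obtain ⟨α, β, h⟩ := hX (sim 1 (linv L) 0 (bas o 1))
  refine ⟨α, β, fun w g hg => ?_⟩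
  have h1 := h (Q.U 1 (linv L) 0 (Q.U 1 GF.one (-y) w)) g hg
  rw [← h1]
  refine integral_congr_ae (Eventually.of_forall fun t => ?_)
  simp only
  congr 1
  have e1 : Q.U 1 L y X = Q.U 1 GF.one y (Q.U 1 L 0 X) := by
    rw [R.mul 1 GF.one y 1 L 0 X one_pos one_pos isLor_one hL, one_mul]
    congr 1
    · funext m n
      simp [sim, GF.one, bas]
    · funext n
      simp [sim]
  have e2 : Q.U 1 GF.one (t • bas o 1) (Q.U 1 L 0 X) =
      Q.U 1 L 0 (Q.U 1 GF.one (t • sim 1 (linv L) 0 (bas o 1)) X) := by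
    rw [R.mul 1 GF.one _ 1 L 0 X one_pos one_pos isLor_one hL,
      R.mul 1 L 0 1 GF.one _ X one_pos one_pos hL isLor_one]
    congr 1
    · funext m n
      simp [sim, GF.one, bas]
    · rw [simL_smul, sim_linv hL]
      funext n
      simp [sim]
  have e3 := H755.U_linv' R one_pos hL (Q.U 1 GF.one (-y) w)
  rw [inv_one] at e3
  have e4 : inner ℂ w (Q.U 1 GF.one (t • bas o 1) (Q.U 1 L y X)) =
      inner ℂ (Q.U 1 GF.one (-y) w) (Q.U 1 GF.one (t • bas o 1) (Q.U 1 L 0 X)) := by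
    rw [← Q.U_inner 1 GF.one y (Q.U 1 GF.one (-y) w) _ one_pos isLor_one, e1, Uadd1, Uadd1, Uadd1,
      add_neg_cancel, Uone, add_comm]
  rw [e4, e2]
  rw [← Q.U_inner 1 L 0 (Q.U 1 (linv L) 0 (Q.U 1 GF.one (-y) w)) _ one_pos hL, e3]

/-- the operators `N a f` preserve the class -/
lemma el_N (R : H15.Rep Q A) (hS : SN Q N) {a : V} (ha : IsNull a) {f : 𝓢(ℝ, ℂ)} {δ K : ℝ}
    (hf : FS δ K f) {X : D} (hX : X ∈ EL Q) : N a f X ∈ EL Q := by
  intro L y hL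
  obtain ⟨g, hg⟩ := exists_tr f (GF.mdot (sim 1 L 0 a) y)
  have ha' : IsNull (sim 1 L 0 a) := isNull_lor hL ha
  rw [hS.cov 1 L y a (sim 1 L 0 a) f g X one_pos hL ha (one_smul ℝ _).symm hg]
  obtain ⟨α, β, h⟩ := hX L y hL
  exact ⟨_, _, eb_N R hS ha' (FS_tr hf hg) h one_pos⟩

/-- the family `N a f` -/
lemma f4_bfN (hS : SN Q N) (f : 𝓢(ℝ, ℂ)) : BF Q fun a => N a f where
  adj a ha := sn_hasAdj hS ha f
  cov s L a a' v hs hL ha ha' he :=
    hS.cov s L 0 a a' f f v hs hL ha he fun u => by simp [GF.mdot]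
  tra a w v ha hw := by
    have h1 := hS.cov 1 GF.one w a a f f v one_pos isLor_one ha
      (by rw [sim_one, one_smul]; funext n; simp) (fun u => by rw [hw, sub_zero])
    exact h1.symm

/-- products -/
lemma f4_bfmul {B B' : V → D → D} (h : BF Q B) (h' : BF Q B') : BF Q fun a v => B a (B' a v) where
  adj a ha := by
    obtain ⟨Y, hY⟩ := h.adj a ha
    obtain ⟨Y', hY'⟩ := h'.adj a ha
    exact ⟨fun w => Y' (Y w), fun v w => by rw [hY, hY']⟩
  cov s L a a' v hs hL ha ha' he := by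
    rw [h.cov s L a a' _ hs hL ha ha' he, h'.cov s L a a' _ hs hL ha ha' he]
  tra a w v ha hw := by rw [h'.tra a w v ha hw, h.tra a w _ ha hw]

lemma f4_e3 (k : ℕ) : (e3_m ((-(k : ℝ), (0 : ℝ)) : ℝ × ℝ)) o = (1 + (k : ℝ) ^ 2) / 2 := by
  rw [e3_m_apply]
  simp [o]

lemma f4_U0 (x : V) : Q.U 1 GF.one x (0 : D) = 0 := by
  have h := U_smul (Q := Q) one_pos isLor_one x (0 : ℂ) (0 : D)
  rwa [zero_smul, zero_smul] at h

/-- lowering operators -/
lemma f4_low (R : H15.Rep Q A) (hS : SN Q N) {f : 𝓢(ℝ, ℂ)} {δ K : ℝ} (hδ : 0 < δ)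
    (hf : FS δ K f) {X : D} (hX : X ∈ EL Q) {r : ℝ} (hr : 0 < r) :
    ∀ᶠ k : ℕ in atTop, N (r • e3_m ((-(k : ℝ), (0 : ℝ)) : ℝ × ℝ)) f X = 0 := by
  obtain ⟨α, β, h⟩ := el_eb hX
  have h2 : Tendsto (fun k : ℕ => r * ((1 + (k : ℝ) ^ 2) / 2) * δ) atTop atTop := by
    refine Tendsto.atTop_mul_const hδ (Tendsto.const_mul_atTop hr ?_)
    refine tendsto_atTop_mono (f := fun k : ℕ => (k : ℝ)) (fun k => ?_) tendsto_natCast_atTop_atTop
    nlinarith [sq_nonneg ((k : ℝ) - 1)]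
  filter_upwards [h2.eventually_gt_atTop β] with k hk
  refine low R hS (bf_smul_null (e3_m_null _) hr) hf h ?_
  have e : (r • e3_m ((-(k : ℝ), (0 : ℝ)) : ℝ × ℝ)) o = r * ((1 + (k : ℝ) ^ 2) / 2) := by
    rw [Pi.smul_apply, f4_e3, smul_eq_mul]
  rw [e]
  exact hk

lemma n_zero (hS : SN Q N) {a : V} (ha : IsNull a) (f : 𝓢(ℝ, ℂ)) : N a f 0 = 0 := by
  obtain ⟨Y, hY⟩ := sn_hasAdj hS ha f
  refine ext_inner_right ℂ fun w => ?_
  rw [hY, inner_zero_left, inner_zero_left]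

/-- the vectors `X` in the class are mapped to vectors orthogonal to the field vectors -/
theorem f4_orth1 (hT : Q.IsStress T) (hJ : IsVirial Q T J) (R : H15.Rep Q A) (hS : SN Q N)
    {a : V} (ha : IsNull a) {f : 𝓢(ℝ, ℂ)} {δ K : ℝ} (hδ : 0 < δ) (hf : FS δ K f) {X : D}
    (hX : X ∈ EL Q) : (∀ m (F : 𝓢(Mink, ℂ)), inner ℂ (J m (fl F) Q.vac) (N a f X) = 0) ∧
      ∀ m n (F : 𝓢(Mink, ℂ)), inner ℂ (T m n (fl F) Q.vac) (N a f X) = 0 := by
  refine bf_orth hT hJ R (f4_bfN hS f) (S := EL Q) (fun L y X hL hX => el_U R y hL hX)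
    (fun Φ lm P r u X hr hX => ?_) ha hX
  refine tendsto_const_nhds.congr' (f₁ := fun _ => (0 : ℂ)) ?_
  filter_upwards [f4_low R hS hδ hf hX hr] with k hk
  rw [hk, f4_U0]
  have h1 := P.smul (nu (-1)) 0 0
  rw [zero_smul, zero_mul] at h1
  exact h1.symm

theorem f4_orth2 (hT : Q.IsStress T) (hJ : IsVirial Q T J) (R : H15.Rep Q A) (hS : SN Q N)
    {a : V} (ha : IsNull a) {f g : 𝓢(ℝ, ℂ)} {δ K : ℝ} (hδ : 0 < δ) (hf : FS δ K f) {X : D}
    (hX : X ∈ EL Q) : (∀ m (F : 𝓢(Mink, ℂ)), inner ℂ (J m (fl F) Q.vac) (N a g (N a f X)) = 0) ∧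
      ∀ m n (F : 𝓢(Mink, ℂ)), inner ℂ (T m n (fl F) Q.vac) (N a g (N a f X)) = 0 := by
  refine bf_orth hT hJ R (f4_bfmul (f4_bfN hS g) (f4_bfN hS f)) (S := EL Q)
    (fun L y X hL hX => el_U R y hL hX) (fun Φ lm P r u X hr hX => ?_) ha hX
  refine tendsto_const_nhds.congr' (f₁ := fun _ => (0 : ℂ)) ?_
  filter_upwards [f4_low R hS hδ hf hX hr] with k hk
  rw [hk, n_zero hS (bf_smul_null (e3_m_null _) hr), f4_U0]
  have h1 := P.smul (nu (-1)) 0 0
  rw [zero_smul, zero_mul] at h1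
  exact h1.symm

/-- band-limited field vectors are killed by the lowering operators and the raising operators -/
theorem f4_bl (hT : Q.IsStress T) (hJ : IsVirial Q T J) (R : H15.Rep Q A) (hS : SN Q N)
    {a : V} (ha : IsNull a) {f : 𝓢(ℝ, ℂ)} {δ K : ℝ} (hδ : 0 < δ)
    (hf : FS δ K f ∨ FS (-K) (-δ) f) {F : 𝓢(Mink, ℂ)} (hF : BL F) :
    (∀ m, N a f (J m (fl F) Q.vac) = 0) ∧ ∀ m n, N a f (T m n (fl F) Q.vac) = 0 := by
  obtain ⟨g, hg⟩ := exists_cj f
  have hadj : ∀ v w, inner ℂ (N a f v) w = inner ℂ v (N a g w) := fun v w =>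
    hS.adj a f g v w ha hg
  have hadj' : ∀ v w, inner ℂ (N a g v) w = inner ℂ v (N a f w) := fun v w =>
    hS.adj a g f v w ha fun u => by rw [hg, conj_conj]
  have hel : ∀ φ : GF.Fld D, Q.fld φ → φ (fl F) Q.vac ∈ EL Q := fun φ hφ =>
    el_dir R fun e => eb_dir hφ hF e
  have hJf : ∀ m, Q.fld (J m) := fun m => Q.bose_fld _ (hJ.bose m)
  have hTf : ∀ m n, Q.fld (T m n) := fun m n => Q.bose_fld _ (hT.bose m n)
  rcases hf with hf | hf
  · -- lowering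
    refine ⟨fun m => ?_, fun m n => ?_⟩
    · have h1 := (f4_orth2 hT hJ R hS ha (g := g) hδ hf (hel _ (hJf m))).1 m F
      rw [← hadj] at h1
      exact inner_self_eq_zero.1 h1
    · have h1 := (f4_orth2 hT hJ R hS ha (g := g) hδ hf (hel _ (hTf m n))).2 m n F
      rw [← hadj] at h1
      exact inner_self_eq_zero.1 h1
  · -- raising
    have hg' : FS δ K g := by
      have h1 := FS_cj hf hg
      rwa [neg_neg, neg_neg] at h1
    refine ⟨fun m => ?_, fun m n => ?_⟩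
    · have h1 := (f4_orth1 hT hJ R hS ha hδ hg' (el_N R hS ha hf (hel _ (hJf m)))).1 m F
      rw [← hadj] at h1
      exact inner_self_eq_zero.1 h1
    · have h1 := (f4_orth1 hT hJ R hS ha hδ hg' (el_N R hS ha hf (hel _ (hTf m n)))).2 m n F
      rw [← hadj] at h1
      exact inner_self_eq_zero.1 h1

/-- a field vector valued distribution killed on the band-limited functions is killed -/
lemma f4_dense {a : V} (hS : SN Q N) (ha : IsNull a) {f : 𝓢(ℝ, ℂ)} {φ : GF.Fld D}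
    (hφ : Q.fld φ) (h : ∀ F : 𝓢(Mink, ℂ), BL F → N a f (φ (fl F) Q.vac) = 0)
    (F : 𝓢(Mink, ℂ)) : N a f (φ (fl F) Q.vac) = 0 := by
  obtain ⟨κ, hκ⟩ := exists_adjL (Q := Q) (sn_hasAdj hS ha f) hφ
  have h1 : (κ : 𝓢(Mink, ℂ) → Completion D) = fun _ => 0 := by
    refine Continuous.ext_on dense_BL κ.continuous continuous_const fun G hG => ?_
    rw [hκ, h G hG, Completion.coe_zero]
  have h2 := congrFun h1 F
  rw [hκ] at h2
  exact Completion.coe_eq_zero_iff.1 h2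

theorem nz (hT : Q.IsStress T) (hJ : IsVirial Q T J) (R : H15.Rep Q A) (hS : SN Q N) {a : V}
    (ha : IsNull a) {f : 𝓢(ℝ, ℂ)} (hf : FZ f) (F : 𝓢(Mink, ℂ)) :
    (∀ m, N a f (J m (fl F) Q.vac) = 0) ∧ ∀ m n, N a f (T m n (fl F) Q.vac) = 0 := by
  obtain ⟨f1, f2, δ, K, hδ, hδK, hf12, h1, h2⟩ := FZ_split hf
  have hJf : ∀ m, Q.fld (J m) := fun m => Q.bose_fld _ (hJ.bose m)
  have hTf : ∀ m n, Q.fld (T m n) := fun m n => Q.bose_fld _ (hT.bose m n)
  have hadd : ∀ v, N a f v = N a f1 v + N a f2 v := by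
    intro v
    have h3 := hS.lin a f1 f2 1 v ha
    rw [one_smul, one_smul] at h3
    rw [hf12, h3]
  refine ⟨fun m => f4_dense hS ha (hJf m) (fun F hF => ?_) F,
    fun m n => f4_dense hS ha (hTf m n) (fun F hF => ?_) F⟩
  · rw [hadd, (f4_bl hT hJ R hS ha hδ (Or.inl h1) hF).1 m,
      (f4_bl hT hJ R hS ha hδ (Or.inr h2) hF).1 m, add_zero]
  · rw [hadd, (f4_bl hT hJ R hS ha hδ (Or.inl h1) hF).2 m n,
      (f4_bl hT hJ R hS ha hδ (Or.inr h2) hF).2 m n, add_zero]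

end Vale.Agent.P352.SL

end
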