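import Vale.Agent.P352.SL.H555a

/-!
# P352 SL: homogeneous families vanish on the vectors created by the stress tensor
-/

set_option linter.all false

noncomputable section

open MeasureTheory Filter Topology SchwartzMap Complex
open scoped SchwartzMap ComplexConjugate ContDiff LineDeriv NNReal

namespace Vale.Agent.P352.SL

open GF (Ix V Fn Fld Theory Sch IsLor bas eta o sim pd tr ev bar)
open H246 H496 H755 H15 H846 H246R H746 N86 NC
open UniformSpace (Completion)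

variable {D : Type*} [NormedAddCommGroup D] [InnerProductSpace ℂ D]
variable {Q : GF.Theory D} {T : Ix → Ix → GF.Fld D} {J : Ix → GF.Fld D}
variable {A : (V → V) → D → D}

/-- products of covariant families -/
lemma BF.comp {B B' : V → D → D} (h : BF Q B) (h' : BF Q B') : BF Q fun a v => B a (B' a v) where
  adj a ha := by
    obtain ⟨Y, hY⟩ := h.adj a ha
    obtain ⟨Y', hY'⟩ := h'.adj a ha
    exact ⟨fun w => Y' (Y w), fun v w => by rw [hY, hY']⟩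
  cov s L a a' v hs hL ha ha' he := by
    rw [h.cov s L a a' _ hs hL ha ha' he, h'.cov s L a a' _ hs hL ha ha' he]
  tra a w v ha hw := by rw [h'.tra a w v ha hw, h.tra a w _ ha hw]

/-- the time component of the null vectors `e3_m c` is positive, and they are multiples of rotated
`nu (-1)` -/
lemma e3_m_rot (c : ℝ × ℝ) : ∃ θ ψ : ℝ, IsNull (sim 1 (Rt θ ψ) 0 (nu (-1))) ∧
    e3_m c = ((1 + (c.1 ^ 2 + c.2 ^ 2)) / 2 : ℝ) • sim 1 (Rt θ ψ) 0 (nu (-1)) := by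
  obtain ⟨θ, ψ, hR⟩ := exists_rot (e3_m_null c)
  have h0 : e3_m c 0 = (1 + (c.1 ^ 2 + c.2 ^ 2)) / 2 := by
    rw [e3_m_apply]; rfl
  have hc : (0 : ℝ) < (1 + (c.1 ^ 2 + c.2 ^ 2)) / 2 := by positivity
  refine ⟨θ, ψ, isNull_lor (isLor_Rt θ ψ) (isNull_nu (Or.inr rfl)), ?_⟩
  rw [hR, h0, smul_smul, mul_inv_cancel₀ hc.ne', one_smul]

/-- conjugation by rotations -/
lemma BF.rot (R : H15.Rep Q A) {B : V → D → D} (h : BF Q B) (θ ψ : ℝ) (v : D) :
    B (sim 1 (Rt θ ψ) 0 (nu (-1))) v =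
      Q.U 1 (Rt θ ψ) 0 (B (nu (-1)) (Q.U 1 (linv (Rt θ ψ)) 0 v)) := by
  have hL := isLor_Rt θ ψ
  have h1 := h.lor hL (isNull_nu (Or.inr rfl)) (Q.U 1 (linv (Rt θ ψ)) 0 v)
  have h4 := H755.U_linv' R one_pos hL v
  rw [inv_one] at h4
  rw [h4] at h1
  exact h1.symm

/-- norms of translated vectors -/
lemma pw1_tr (R : H15.Rep Q A) (n : ℕ) (x : V) (w : D) :
    ‖pw1 (Hm A) n (Q.U 1 GF.one x w)‖ = ‖pw1 (Hm A) n w‖ := by
  have e4 := pw1_U1 R n (WithLp.toLp 2 x) w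
  have e5 : ‖pw1 (Hm A) n (U1 Q (WithLp.toLp 2 x) w)‖ = ‖pw1 (Hm A) n w‖ := by
    rw [e4, U1_norm]
  exact e5

/-- **Bounds in all frames** for the components of a family, applied to the vectors of `T`. -/
theorem bf_bound (hT : Q.IsStress T) (R : H15.Rep Q A) {Φ : V → Fn → D} {lm : V → D → ℂ}
    (P : PV Q A Φ lm) {B : V → D → D} (h : BF Q B) (g : Ix → Ix → 𝓢(Mink, ℂ)) :
    ∃ M : ℝ, ∀ (θ ψ : ℝ) (y : V), ‖lm (nu (-1)) (Q.U 1 GF.one y
      (B (sim 1 (Rt θ ψ) 0 (nu (-1))) (tvec Q T g)))‖ ≤ M := by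
  obtain ⟨C, n, hC0, hC⟩ := P.bdd (nu (-1))
  have hadj : HasAdj (fun v => pw1 (Hm A) n (B (nu (-1)) v)) := by
    obtain ⟨Y, hY⟩ := hasAdj_pw1 R n
    obtain ⟨Z, hZ⟩ := h.adj (nu (-1)) (isNull_nu (Or.inr rfl))
    exact ⟨fun w => Z (Y w), fun v w => by rw [hY, hZ]⟩
  obtain ⟨M, hM⟩ := bdd_rotT hT R hadj g
  refine ⟨C * M, fun θ ψ y => (hC _).trans (mul_le_mul_of_nonneg_left ?_ hC0)⟩
  rw [pw1_tr R, h.rot R, pw1_rot R, U_nrm0 one_pos (isLor_Rt θ ψ)]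
  exact hM θ ψ

/-- **Homogeneous families vanish on the vectors of the stress tensor.** -/
theorem germ_zero (hT : Q.IsStress T) (hJ : IsVirial Q T J) (R : H15.Rep Q A) {N0 : V → D → D}
    (h : BF Q N0) (hsym : ∀ a v w, IsNull a → inner ℂ (N0 a v) w = inner ℂ v (N0 a w))
    (g1 : ∀ (Φ : V → Fn → D) (lm : V → D → ℂ), Φ = PhJ Q J ∨ Φ = PhT Q T → PV Q A Φ lm →
      ∀ (r u : ℝ) (a : V) (v : D), 0 < r → IsNull a → lm (nu (-1)) (Q.U 1 GF.one (-(u • nu (-1))) (N0 (r • a) v)) =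
        ((r⁻¹ : ℝ) : ℂ) * lm (nu (-1)) (Q.U 1 GF.one (-(u • nu (-1))) (N0 a v)))
    (g2 : ∀ (r : ℝ) (a : V) (g : Ix → Ix → 𝓢(Mink, ℂ)), 0 < r → IsNull a →
      N0 (r • a) (tvec Q T g) = ((r⁻¹ : ℝ) : ℂ) • N0 a (tvec Q T g))
    {a : V} (ha : IsNull a) (g : Ix → Ix → 𝓢(Mink, ℂ)) : N0 a (tvec Q T g) = 0 := by
  have hsm : ∀ a (c : ℂ) v, IsNull a → N0 a (c • v) = c • N0 a v := by
    intro a c v ha
    refine ext_inner_right ℂ fun w => ?_
    rw [hsym a _ _ ha, inner_smul_left, inner_smul_left, hsym a _ _ ha]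
  have key := bf_orth' hT hJ R (h.comp h) (S := {v | ∃ g, v = tvec Q T g})
    (fun L y X hL hX => by
      obtain ⟨g, rfl⟩ := hX
      obtain ⟨g', hg'⟩ := tvec_U hT R g one_pos hL y
      exact ⟨g', hg'⟩)
    (fun Φ lm hΦ P r u X hr hX => by
      obtain ⟨g, rfl⟩ := hX
      obtain ⟨M, hM⟩ := bf_bound hT R P (h.comp h) g
      rw [tendsto_zero_iff_norm_tendsto_zero]
      have h2 : Tendsto (fun k : ℕ => ((1 + ((k : ℝ) ^ 2)) / 2)⁻¹) atTop (𝓝 0) := by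
        refine tendsto_inv_atTop_zero.comp ?_
        refine tendsto_atTop_mono (f := fun k : ℕ => (k : ℝ) / 2) (fun k => ?_) ?_
        · have : (0 : ℝ) ≤ k := Nat.cast_nonneg k
          nlinarith [sq_nonneg ((k : ℝ) - 1)]
        · exact tendsto_natCast_atTop_atTop.atTop_div_const (by norm_num)
      have h3 := ((h2.const_mul (r⁻¹)).pow 2).mul_const M
      rw [mul_zero, zero_pow two_ne_zero, zero_mul] at h3
      refine squeeze_zero (fun k => norm_nonneg _) (fun k => ?_) h3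
      obtain ⟨θ, ψ, hnull, hm⟩ := e3_m_rot ((-(k : ℝ), (0 : ℝ)) : ℝ × ℝ)
      have hc : (0 : ℝ) < (1 + (k : ℝ) ^ 2) / 2 := by positivity
      have hm' : e3_m ((-(k : ℝ), (0 : ℝ)) : ℝ × ℝ) =
          ((1 + (k : ℝ) ^ 2) / 2 : ℝ) • sim 1 (Rt θ ψ) 0 (nu (-1)) := by
        rw [hm]
        congr 2
        simp
      set p : ℝ := r * ((1 + (k : ℝ) ^ 2) / 2) with hp
      have hp0 : 0 < p := mul_pos hr hc
      rw [hm', smul_smul, ← hp]
      rw [g1 Φ lm hΦ P p u _ _ hp0 hnull, g2 p _ g hp0 hnull, hsm _ _ _ hnull,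
        U_smul one_pos isLor_one, P.smul, norm_mul, norm_mul, Complex.norm_real,
        Real.norm_of_nonneg (inv_nonneg.2 hp0.le), ← mul_assoc]
      have e : p⁻¹ * p⁻¹ = (r⁻¹ * ((1 + (k : ℝ) ^ 2) / 2)⁻¹) ^ 2 := by
        rw [hp, mul_inv]
        ring
      rw [e]
      exact mul_le_mul_of_nonneg_left (hM θ ψ _) (by positivity)) ha ⟨g, rfl⟩
  have h1 : inner ℂ (tvec Q T g) (N0 a (N0 a (tvec Q T g))) = 0 := by
    conv_lhs => enter [2]; unfold tvec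
    simp only [sum_inner]
    exact Finset.sum_eq_zero fun m _ => Finset.sum_eq_zero fun n _ => key.2 m n (g m n)
  rw [← hsym a _ _ ha] at h1
  exact inner_self_eq_zero.1 h1

end Vale.Agent.P352.SL

end
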