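import Vale.Agent.P352.SL.Base
import Vale.Agent.P352.SL.H555b

/-!
# P352 SL: the operators `N a f`, `F f = 1` near zero, vanish on the vectors of `T`
-/

set_option linter.all false

noncomputable section

open MeasureTheory Filter Topology SchwartzMap Complex
open scoped SchwartzMap ComplexConjugate ContDiff FourierTransform

namespace Vale.Agent.P352.SL

open GF (Ix V Fn Fld Theory Sch IsLor bas eta o sim pd tr ev bar)
open H246 H496 H755 H15 H846 H246R H746 N86 NC NF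
open UniformSpace (Completion)

variable {D : Type*} [NormedAddCommGroup D] [InnerProductSpace ℂ D]
variable {Q : GF.Theory D} {T : Ix → Ix → GF.Fld D} {J : Ix → GF.Fld D}
variable {A : (V → V) → D → D} {N : V → 𝓢(ℝ, ℂ) → D → D}

lemma md_zero_right (b : V) : GF.mdot b 0 = 0 := by
  simp [gf_mdot]

lemma sim_one_id (a : V) : sim 1 GF.one 0 a = a := by
  funext n
  simp [sim, GF.one, bas]

/-- the operators `N a f` form a covariant family -/
theorem bf_N (hS : SN Q N) {f g : 𝓢(ℝ, ℂ)} (hg : ∀ u, g u = conj (f u)) :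
    BF Q fun a => N a f where
  adj a ha := ⟨N a g, fun v w => hS.adj a f g v w ha hg⟩
  cov s L a a' v hs hL ha ha' he :=
    hS.cov s L 0 a a' f f v hs hL ha he fun u => by rw [md_zero_right, sub_zero]
  tra a w v ha hw := (hS.cov 1 GF.one w a a f f v one_pos isLor_one ha
    (by rw [sim_one_id, one_smul]) fun u => by rw [hw, sub_zero]).symm

lemma N_add_v (hS : SN Q N) {a : V} (ha : IsNull a) {f g : 𝓢(ℝ, ℂ)}
    (hg : ∀ u, g u = conj (f u)) (v w : D) : N a f (v + w) = N a f v + N a f w := by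
  refine ext_inner_right ℂ fun z => ?_
  rw [hS.adj a f g _ z ha hg, inner_add_left, inner_add_left, hS.adj a f g _ z ha hg,
    hS.adj a f g _ z ha hg]

lemma N_smul_v (hS : SN Q N) {a : V} (ha : IsNull a) {f g : 𝓢(ℝ, ℂ)}
    (hg : ∀ u, g u = conj (f u)) (c : ℂ) (v : D) : N a f (c • v) = c • N a f v := by
  refine ext_inner_right ℂ fun z => ?_
  rw [hS.adj a f g _ z ha hg, inner_smul_left, inner_smul_left, hS.adj a f g _ z ha hg]

lemma N_zero_v (hS : SN Q N) {a : V} (ha : IsNull a) {f g : 𝓢(ℝ, ℂ)}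
    (hg : ∀ u, g u = conj (f u)) : N a f 0 = 0 := by
  have h := N_smul_v hS ha hg 0 0
  rwa [zero_smul, zero_smul] at h

lemma N_sum_v (hS : SN Q N) {a : V} (ha : IsNull a) {f g : 𝓢(ℝ, ℂ)}
    (hg : ∀ u, g u = conj (f u)) (v : Ix → D) : N a f (∑ m, v m) = ∑ m, N a f (v m) := by
  simp only [Fin.sum_univ_four, N_add_v hS ha hg]

/-- **The vectors `N a f T(g)Ω`, `F f = 1` near zero, vanish**, from the scaling properties. -/
theorem chi_T_of (hT : Q.IsStress T) (hJ : IsVirial Q T J) (R : H15.Rep Q A) (hS : SN Q N)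
    {f : 𝓢(ℝ, ℂ)} (hf : Chi0 f)
    (hcj : ∀ f : 𝓢(ℝ, ℂ), ∃ g : 𝓢(ℝ, ℂ), ∀ u, g u = conj (f u))
    (hps : ∀ (Φ : V → Fn → D) (lm : V → D → ℂ), PV Q A Φ lm → ∀ (a b : V), IsNull a →
      (∀ f : 𝓢(ℝ, ℂ), FZ f → ∀ F : 𝓢(Mink, ℂ), N a f (Φ b (fl F)) = 0) → ∀ r : ℝ, 0 < r →
      ∀ (v : D) (y : Mink), lm b (U1 Q (-y) (N (r • a) f v)) =
        ((r⁻¹ : ℝ) : ℂ) * lm b (U1 Q (-y) (N a f v)))
    (hnz : ∀ a, IsNull a → ∀ f : 𝓢(ℝ, ℂ), FZ f → ∀ F : 𝓢(Mink, ℂ),
      (∀ m, N a f (J m (fl F) Q.vac) = 0) ∧ ∀ m n, N a f (T m n (fl F) Q.vac) = 0)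
    (hts : ∀ (r : ℝ) (a : V) (g : Ix → Ix → 𝓢(Mink, ℂ)), 0 < r → IsNull a →
      N (r • a) f (tvec Q T g) = ((r⁻¹ : ℝ) : ℂ) • N a f (tvec Q T g))
    {a : V} (ha : IsNull a) (g : Ix → Ix → 𝓢(Mink, ℂ)) : N a f (tvec Q T g) = 0 := by
  have hfr : ∀ u, f u = conj (f u) := fun u => (hf.1 u).symm
  refine germ_zero (N0 := fun a => N a f) hT hJ R (bf_N hS hfr)
    (fun a v w ha => hS.adj a f f v w ha hfr) ?_ hts ha g
  intro Φ lm hΦ P r u a v hr ha
  have hz : ∀ h : 𝓢(ℝ, ℂ), FZ h → ∀ F : 𝓢(Mink, ℂ), N a h (Φ (nu (-1)) (fl F)) = 0 := by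
    intro h hh F
    obtain ⟨h', hh'⟩ := hcj h
    obtain ⟨k1, k2⟩ := hnz a ha h hh F
    rcases hΦ with rfl | rfl
    · unfold PhJ
      rw [N_sum_v hS ha hh']
      refine Finset.sum_eq_zero fun m _ => ?_
      rw [N_smul_v hS ha hh', k1, smul_zero]
    · unfold PhT
      rw [N_sum_v hS ha hh']
      refine Finset.sum_eq_zero fun m _ => ?_
      rw [N_sum_v hS ha hh']
      refine Finset.sum_eq_zero fun n _ => ?_
      rw [N_smul_v hS ha hh', k2, smul_zero]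
  have h1 := hps Φ lm P a (nu (-1)) ha hz r hr v (WithLp.toLp 2 (u • nu (-1)))
  exact h1

end Vale.Agent.P352.SL

end
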