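import Vale.Agent.P352.SL.S1
import Vale.Agent.P352.SL.N1
import Vale.Agent.P352.N86.K.C4

/-!
# P352 SL: the germ property
-/

set_option linter.all false

noncomputable section

open MeasureTheory Filter Topology SchwartzMap Complex
open scoped SchwartzMap ComplexConjugate ContDiff FourierTransform

namespace Vale.Agent.P352.SL

open GF (Ix V Fn Fld Theory Sch IsLor bas eta o sim pd tr ev bar)
open H246 H496 H755 H15 H846 H246R H746 N86 NC NF
open UniformSpace (Completion)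

variable {D : Type*} [NormedAddCommGroup D] [InnerProductSpace ℂ D]
variable {Q : GF.Theory D} {T : Ix → Ix → GF.Fld D} {J : Ix → GF.Fld D}
variable {A : (V → V) → D → D} {N M : V → 𝓢(ℝ, ℂ) → D → D}

/-- a continuous function that is orthogonal to the test functions is zero -/
lemma h788_cont_zero {G : Mink → ℂ} (hG : Continuous G)
    (h : ∀ F : 𝓢(Mink, ℂ), ∫ x, conj (F x) * G x = 0) (x : Mink) : G x = 0 := by
  have h1 : ∀ᵐ x : Mink, G x = 0 := by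
    refine ae_eq_zero_of_integral_contDiff_smul_eq_zero hG.locallyIntegrable fun g hg hc => ?_
    have h2 : HasCompactSupport fun p : Mink => ((g p : ℝ) : ℂ) :=
      hc.comp_left (g := fun x : ℝ => (x : ℂ)) Complex.ofReal_zero
    have h3 : ContDiff ℝ ∞ fun p : Mink => ((g p : ℝ) : ℂ) := Complex.ofRealCLM.contDiff.comp hg
    rw [← h (h2.toSchwartzMap h3)]
    refine integral_congr_ae (Eventually.of_forall fun p => ?_)
    change g p • G p = conj ((g p : ℝ) : ℂ) * G p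
    rw [Complex.conj_ofReal, Complex.real_smul]
  exact congrFun ((hG.ae_eq_iff_eq volume continuous_const).1 h1) x

/-- `N a f` with `f` of type `FZ` has no components along the field, if it kills the field -/
theorem pv_germ {Φ : V → Fn → D} {lm : V → D → ℂ} (P : PV Q A Φ lm) (hS : SN Q N) {a b : V}
    (ha : IsNull a) (hz : ∀ f : 𝓢(ℝ, ℂ), FZ f → ∀ F : 𝓢(Mink, ℂ), N a f (Φ b (fl F)) = 0)
    {f : 𝓢(ℝ, ℂ)} (hf : FZ f) (v : D) (y : Mink) : lm b (U1 Q (-y) (N a f v)) = 0 := by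
  obtain ⟨g, hg⟩ := exists_cj f
  refine h788_cont_zero (P.cont b (N a f v)) (fun F => ?_) y
  rw [← P.rep b F, ← inner_conj_symm, hS.adj a f g v _ ha hg, hz g (FZ_cj hf hg) F,
    inner_zero_right, map_zero]

/-- the difference of the two scalings -/
lemma sn_scale (hS : SN Q N) {a : V} (ha : IsNull a) {f : 𝓢(ℝ, ℂ)} (hf : Chi0 f) {r : ℝ}
    (hr : 0 < r) : ∃ g : 𝓢(ℝ, ℂ), FZ g ∧ ∀ v,
      N (r • a) f v = N a g v + ((r⁻¹ : ℝ) : ℂ) • N a f v := by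
  obtain ⟨g, hg⟩ := exists_dl f hr
  refine ⟨g - ((r⁻¹ : ℝ) : ℂ) • f, FZ_dl hr hf hg, fun v => ?_⟩
  rw [hS.hom r a f g v hr ha hg, ← hS.lin a _ f _ v ha, sub_add_cancel]

/-- scaling of the values -/
theorem pv_scale {Φ : V → Fn → D} {lm : V → D → ℂ} (P : PV Q A Φ lm) (hS : SN Q N) {a b : V}
    (ha : IsNull a) (hz : ∀ f : 𝓢(ℝ, ℂ), FZ f → ∀ F : 𝓢(Mink, ℂ), N a f (Φ b (fl F)) = 0)
    {f : 𝓢(ℝ, ℂ)} (hf : Chi0 f) {r : ℝ} (hr : 0 < r) (v : D) (y : Mink) :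
    lm b (U1 Q (-y) (N (r • a) f v)) = ((r⁻¹ : ℝ) : ℂ) * lm b (U1 Q (-y) (N a f v)) := by
  obtain ⟨g, hg, h1⟩ := sn_scale hS ha hf hr
  rw [h1, U1_add, U1_smul, P.add, P.smul, pv_germ P hS ha hz hg, zero_add]

/-- scaling on a vector killed by the functions of type `FZ` -/
theorem v_scale (hS : SN Q N) {a : V} (ha : IsNull a) {f : 𝓢(ℝ, ℂ)} (hf : Chi0 f) {r : ℝ}
    (hr : 0 < r) {v : D} (hz : ∀ f : 𝓢(ℝ, ℂ), FZ f → N a f v = 0) :
    N (r • a) f v = ((r⁻¹ : ℝ) : ℂ) • N a f v := by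
  obtain ⟨g, hg, h1⟩ := sn_scale hS ha hf hr
  rw [h1, hz g hg, zero_add]

/-- a linear operator that kills the vectors of `T` kills `tvec` -/
lemma h788_tvec {B : D → D} (hB : HasAdj B) {g : Ix → Ix → 𝓢(Mink, ℂ)}
    (h : ∀ m n, B (T m n (fl (g m n)) Q.vac) = 0) : B (tvec Q T g) = 0 := by
  have h1 : ∀ (s : Finset Ix) (x : Ix → D), B (∑ i ∈ s, x i) = ∑ i ∈ s, B (x i) := by
    intro s x
    exact map_sum (LinearMap.mk ⟨B, HasAdj.add hB⟩ (HasAdj.smul hB) : D →ₗ[ℂ] D) x s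
  rw [tvec, h1]
  refine Finset.sum_eq_zero fun m _ => ?_
  rw [h1]
  exact Finset.sum_eq_zero fun n _ => h m n

/-- `tv_scale` from the vanishing `nz` -/
theorem tv_scale' (hS : SN Q N)
    (hnz : ∀ a, IsNull a → ∀ f : 𝓢(ℝ, ℂ), FZ f → ∀ (F : 𝓢(Mink, ℂ)) m n,
      N a f (T m n (fl F) Q.vac) = 0)
    {a : V} (ha : IsNull a) {f : 𝓢(ℝ, ℂ)} (hf : Chi0 f) {r : ℝ} (hr : 0 < r)
    (g : Ix → Ix → 𝓢(Mink, ℂ)) :
    N (r • a) f (tvec Q T g) = ((r⁻¹ : ℝ) : ℂ) • N a f (tvec Q T g) :=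
  v_scale hS ha hf hr fun _ hf' => h788_tvec (sn_hasAdj hS ha _) fun m n => hnz a ha _ hf' _ m n

end Vale.Agent.P352.SL

end
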