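import Vale.Agent.P352.SL.S1
import Vale.Agent.P352.SL.S3
import Vale.Agent.P352.Bdl.B1

/-!
# P352 SL, block S4: a continuous linear map which kills the translates of `f0` and all functions
of type `FZ` is zero
-/

set_option linter.all false

noncomputable section

open MeasureTheory Filter Topology SchwartzMap Complex
open scoped SchwartzMap ComplexConjugate ContDiff FourierTransform

namespace Vale.Agent.P352.SL

/-- the convolution `f * f0` and the remainder -/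
theorem conv_split {K : ℝ} {f f0 : 𝓢(ℝ, ℂ)} (hf : FS (-K) K f) (h0 : Chi0 f0) :
    ∃ c : 𝓢(ℝ, ℂ), (∀ x, c x = ∫ a, f a * f0 (x - a)) ∧ FZ (f - c) := by
  refine ⟨convolution (ContinuousLinearMap.mul ℂ ℂ) f f0, fun x => ?_, ?_⟩
  · rw [convolution_apply]
    rfl
  · obtain ⟨-, -, δ, hδ, h1⟩ := h0
    refine ⟨δ, K, hδ, fun ξ hξ => ?_⟩
    have h2 : 𝓕 (convolution (ContinuousLinearMap.mul ℂ ℂ) f f0) ξ = 𝓕 f ξ * 𝓕 f0 ξ := by
      rw [fourier_convolution_apply, fourier_coe, fourier_coe]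
      exact Real.fourier_mul_convolution_eq f.integrable f0.integrable ξ
    rw [ft_sub, h2]
    rcases hξ with hξ | hξ
    · rw [h1 ξ hξ, mul_one, sub_self]
    · rw [hf ξ (by
        rcases lt_abs.1 hξ with h | h
        · exact Or.inr h
        · exact Or.inl (by linarith)), zero_mul, sub_self]

theorem conv_kill {E : Type*} [NormedAddCommGroup E] [NormedSpace ℂ E] [CompleteSpace E]
    (κ : 𝓢(ℝ, ℂ) →L[ℂ] E) {f0 : 𝓢(ℝ, ℂ)} (h0 : Chi0 f0)
    (h1 : ∀ (s : ℝ) (g : 𝓢(ℝ, ℂ)), (∀ u, g u = f0 (u - s)) → κ g = 0)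
    (h2 : ∀ g, FZ g → κ g = 0) (f : 𝓢(ℝ, ℂ)) : κ f = 0 := by
  have hz : Set.EqOn (κ : 𝓢(ℝ, ℂ) → E) (fun _ => 0) {f : 𝓢(ℝ, ℂ) | ∃ K, FS (-K) K f} := by
    rintro f ⟨K, hK⟩
    obtain ⟨c, hc, hz⟩ := conv_split hK h0
    have h3 : κ c = 0 := by
      rw [Vale.Agent.P352.conv_identity_gen volume κ f0 f c hc]
      have : ∀ a : ℝ, κ (compSubConstCLM ℂ a f0) = 0 := fun a =>
        h1 a _ fun u => compSubConstCLM_apply ..
      simp [this]
    have h4 := h2 _ hz
    rwa [map_sub, h3, sub_zero] at h4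
  exact congrFun (Continuous.ext_on dense_FS κ.continuous continuous_const hz) f

end Vale.Agent.P352.SL

end
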