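import Vale.Agent.P352.SL.F4
import Vale.Agent.P352.SL.S4
import Vale.Agent.P352.SL.H555c
import Vale.Agent.P352.SL.H788b

/-!
# P352 SL, block F7: the operators `N a f` kill the vectors created by the stress tensor
-/

set_option linter.all false

noncomputable section

open MeasureTheory Filter Topology SchwartzMap Complex
open scoped SchwartzMap ComplexConjugate ContDiff FourierTransform

namespace Vale.Agent.P352.SL

open GF (Ix V Fn Fld Theory Sch IsLor bas eta o sim pd tr ev bar)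
open H246 H496 H755 H15 H846 H246R H746 N86 NC NF
open UniformSpace (Completion)

variable {D : Type*} [NormedAddCommGroup D] [InnerProductSpace ℂ D]
variable {Q : GF.Theory D} {T : Ix → Ix → GF.Fld D} {J : Ix → GF.Fld D}
variable {A : (V → V) → D → D} {N : V → 𝓢(ℝ, ℂ) → D → D}

theorem f7_chi (hT : Q.IsStress T) (hJ : IsVirial Q T J) (R : H15.Rep Q A) (hS : SN Q N) {a : V}
    (ha : IsNull a) {f : 𝓢(ℝ, ℂ)} (hf : Chi0 f) (g : Ix → Ix → 𝓢(Mink, ℂ)) :
    N a f (tvec Q T g) = 0 :=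
  chi_T_of hT hJ R hS hf exists_cj
    (fun Φ lm P a b ha hz r hr v y => pv_scale P hS ha hz hf hr v y)
    (fun a ha f hf F => nz hT hJ R hS ha hf F)
    (fun r a g hr ha => tv_scale' hS (fun a ha f hf F m n => (nz hT hJ R hS ha hf F).2 m n)
      ha hf hr g) ha g

lemma f7_sum (hS : SN Q N) {a : V} (ha : IsNull a) (f : 𝓢(ℝ, ℂ)) {ι : Type*} (s : Finset ι)
    (x : ι → D) : N a f (∑ i ∈ s, x i) = ∑ i ∈ s, N a f (x i) := by
  obtain ⟨Y, hY⟩ := sn_hasAdj hS ha f
  exact map_sum (⟨⟨N a f, fun v w => Adj.add hY v w⟩, fun c v => Adj.smul hY c v⟩ : D →ₗ[ℂ] D) x s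

theorem nT (hT : Q.IsStress T) (hJ : IsVirial Q T J) (R : H15.Rep Q A) (hS : SN Q N) {a : V}
    (ha : IsNull a) (f : 𝓢(ℝ, ℂ)) (g : Ix → Ix → 𝓢(Mink, ℂ)) : N a f (tvec Q T g) = 0 := by
  obtain ⟨f0, h0⟩ := exists_chi0
  obtain ⟨κ, hκ⟩ := sn_cl hS ha (tvec Q T g)
  have h1 := conv_kill κ h0 (fun s k hk => ?_) (fun k hk => ?_) f
  · rw [hκ] at h1
    exact Completion.coe_eq_zero_iff.1 h1
  · obtain ⟨y, hy⟩ : ∃ y : V, GF.mdot a y = s :=
      ⟨s • e11x a, by rw [e11_gm_smul_right, e11_gm_base ha, mul_one]⟩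
    obtain ⟨g', hg'⟩ := tvec_U hT R g one_pos isLor_one (-y)
    have h2 := hS.cov 1 GF.one y a a f0 k (Q.U 1 GF.one (-y) (tvec Q T g)) one_pos isLor_one ha
      (by rw [sim_one, one_smul]; funext n; simp) (fun u => by rw [hk, hy])
    rw [Uadd1, add_neg_cancel, Uone, hg', f7_chi hT hJ R hS ha h0, f4_U0] at h2
    rw [hκ, ← h2, Completion.coe_zero]
  · rw [hκ, tvec, f7_sum hS ha]
    have h2 : ∀ m, N a k (∑ n, T m n (fl (g m n)) Q.vac) = 0 := by
      intro m
      rw [f7_sum hS ha]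
      exact Finset.sum_eq_zero fun n _ => (nz hT hJ R hS ha hk (g m n)).2 m n
    simp only [h2, Finset.sum_const_zero, Completion.coe_zero]

end Vale.Agent.P352.SL

end
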