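import Vale.Agent.P352.SL.Base

/-!
# P352 SL: field vectors with bounded energies
-/

set_option linter.all false

noncomputable section

open MeasureTheory Filter Topology SchwartzMap Complex
open scoped SchwartzMap ComplexConjugate ContDiff FourierTransform

namespace Vale.Agent.P352.SL

open GF (Ix V Fn Fld Theory Sch IsLor bas eta o sim pd tr ev bar)
open H246 H496 H755 H15 H846 H246R H746 N86 NC NF
open UniformSpace (Completion)

lemma h788_bump {R : ℝ} (hR : 0 < R) : ∃ χ : 𝓢(Mink, ℂ), (∀ p, ‖p‖ ≤ R → χ p = 1) ∧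
    ∀ p, R + 1 ≤ ‖p‖ → χ p = 0 := by
  let b : ContDiffBump (0 : Mink) := ⟨R, R + 1, hR, by linarith⟩
  have h1 : HasCompactSupport fun p : Mink => ((b p : ℝ) : ℂ) :=
    b.hasCompactSupport.comp_left (g := fun x : ℝ => (x : ℂ)) Complex.ofReal_zero
  have h2 : ContDiff ℝ ∞ fun p : Mink => ((b p : ℝ) : ℂ) :=
    Complex.ofRealCLM.contDiff.comp b.contDiff
  refine ⟨h1.toSchwartzMap h2, fun p hp => ?_, fun p hp => ?_⟩
  · change ((b p : ℝ) : ℂ) = 1
    rw [b.one_of_mem_closedBall (by simpa using hp), Complex.ofReal_one]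
  · change ((b p : ℝ) : ℂ) = 0
    rw [b.zero_of_le_dist (by simpa using hp), Complex.ofReal_zero]

lemma h788_rep {F χ : 𝓢(Mink, ℂ)} (h : ∀ p, χ p * 𝓕 F p = 𝓕 F p) (x : Mink) :
    F x = ∫ a, (𝓕⁻ χ : 𝓢(Mink, ℂ)) a * F (x - a) := by
  have h1 : SchwartzMap.convolution (ContinuousLinearMap.mul ℂ ℂ) (𝓕⁻ χ : 𝓢(Mink, ℂ)) F = F := by
    have h2 : 𝓕 (SchwartzMap.convolution (ContinuousLinearMap.mul ℂ ℂ) (𝓕⁻ χ : 𝓢(Mink, ℂ)) F) =
        𝓕 F := by
      rw [SchwartzMap.fourier_convolution]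
      ext p
      rw [pairing_apply_apply, FourierTransform.fourier_fourierInv_eq]
      exact h p
    have h3 := congrArg (fun G : 𝓢(Mink, ℂ) => (𝓕⁻ G : 𝓢(Mink, ℂ))) h2
    simpa using h3
  conv_lhs => rw [← h1]
  rw [SchwartzMap.convolution_apply]
  rfl

lemma h788_fub1 (h : 𝓢(ℝ, ℂ)) (χ : 𝓢(Mink, ℂ)) (b e : Mink) :
    ∫ t : ℝ, h t * (𝓕⁻ χ : 𝓢(Mink, ℂ)) (b - t • e) =
      ∫ p : Mink, χ p * ((Real.fourierChar (inner ℝ p b) : ℂ) * 𝓕 h (inner ℝ p e)) := by
  have e1 : ∀ t : ℝ, h t * (𝓕⁻ χ : 𝓢(Mink, ℂ)) (b - t • e) =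
      ∫ p : Mink, h t * ((Real.fourierChar (inner ℝ p (b - t • e)) : ℂ) * χ p) := by
    intro t
    rw [integral_const_mul, SchwartzMap.fourierInv_coe, Real.fourierInv_eq]
    rfl
  simp only [e1]
  rw [integral_integral_swap]
  · refine integral_congr_ae (Eventually.of_forall fun p => ?_)
    have e3 : 𝓕 h (inner ℝ p e : ℝ) = ∫ t : ℝ, Real.fourierChar (-inner ℝ t (inner ℝ p e : ℝ)) • h t := by
      rw [SchwartzMap.fourier_coe, Real.fourier_eq]
    change ∫ t : ℝ, h t * ((Real.fourierChar (inner ℝ p (b - t • e)) : ℂ) * χ p) =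
      χ p * ((Real.fourierChar (inner ℝ p b) : ℂ) * 𝓕 h (inner ℝ p e))
    rw [e3, ← integral_const_mul, ← integral_const_mul]
    refine integral_congr_ae (Eventually.of_forall fun t => ?_)
    change h t * ((Real.fourierChar (inner ℝ p (b - t • e)) : ℂ) * χ p) =
      χ p * ((Real.fourierChar (inner ℝ p b) : ℂ) * (Real.fourierChar (-inner ℝ t (inner ℝ p e)) • h t))
    rw [Circle.smul_def, smul_eq_mul]
    have e2 : (inner ℝ p (b - t • e) : ℝ) = inner ℝ p b + -inner ℝ t (inner ℝ p e : ℝ) := by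
      rw [inner_sub_right, inner_smul_right, sub_eq_add_neg]
      congr 2
      simp [mul_comm]
    rw [e2, AddChar.map_add_eq_mul, Circle.coe_mul]
    ring
  · have h1 : Integrable (fun z : ℝ × Mink => h z.1 * χ z.2) (volume.prod volume) :=
      h.integrable.mul_prod χ.integrable
    refine h1.mono ?_ (Eventually.of_forall fun z => ?_)
    · refine Continuous.aestronglyMeasurable ?_
      refine (h.continuous.comp continuous_fst).mul (Continuous.mul ?_
        (χ.continuous.comp continuous_snd))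
      refine continuous_subtype_val.comp (Real.continuous_fourierChar.comp ?_)
      fun_prop
    · change ‖h z.1 * ((Real.fourierChar (inner ℝ z.2 (b - z.1 • e)) : ℂ) * χ z.2)‖ ≤
        ‖h z.1 * χ z.2‖
      rw [norm_mul, norm_mul, norm_mul, Circle.norm_coe, one_mul]

lemma h788_zero {h : 𝓢(ℝ, ℂ)} {χ : 𝓢(Mink, ℂ)} {R : ℝ} (hχ : ∀ p, R ≤ ‖p‖ → χ p = 0)
    (e : Mink) (hh : ∀ ξ, -(R * ‖e‖) ≤ ξ → ξ ≤ R * ‖e‖ → 𝓕⁻ h ξ = 0) (b : Mink) :
    ∫ t : ℝ, h t * (𝓕⁻ χ : 𝓢(Mink, ℂ)) (b - t • e) = 0 := by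
  rw [h788_fub1]
  have h1 : ∀ p : Mink, χ p * ((Real.fourierChar (inner ℝ p b) : ℂ) * 𝓕 h (inner ℝ p e)) = 0 := by
    intro p
    by_cases hp : R ≤ ‖p‖
    · rw [hχ p hp, zero_mul]
    · have h2 : |(inner ℝ p e : ℝ)| ≤ R * ‖e‖ :=
        (abs_real_inner_le_norm p e).trans
          (mul_le_mul_of_nonneg_right (not_le.1 hp).le (norm_nonneg e))
      have h3 : 𝓕 h (inner ℝ p e : ℝ) = 0 := by
        have h4 := hh (-(inner ℝ p e : ℝ)) (by linarith [(abs_le.1 h2).2]) (by linarith [(abs_le.1 h2).1])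
        rw [SchwartzMap.fourierInv_coe, Real.fourierInv_eq_fourier_neg, neg_neg] at h4
        rw [SchwartzMap.fourier_coe]
        exact h4
      rw [h3, mul_zero, mul_zero]
  simp only [h1, integral_zero]

/-- **the line integral of the translates** -/
theorem h788_line (κ : 𝓢(Mink, ℂ) →L[ℂ] ℂ) {F : 𝓢(Mink, ℂ)} {C : ℝ}
    (hC : ∀ a, ‖κ (tauS a F)‖ ≤ C) {R : ℝ} (hR : 0 < R) (hF : ∀ p, R < ‖p‖ → 𝓕 F p = 0)
    (e : Mink) {h : 𝓢(ℝ, ℂ)}
    (hh : ∀ ξ, -((R + 1) * ‖e‖) ≤ ξ → ξ ≤ (R + 1) * ‖e‖ → 𝓕⁻ h ξ = 0) :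
    ∫ t : ℝ, h t * κ (tauS (t • e) F) = 0 := by
  obtain ⟨χ, hχ1, hχ0⟩ := h788_bump hR
  set k : 𝓢(Mink, ℂ) := 𝓕⁻ χ with hk
  have h1 : ∀ p, χ p * 𝓕 F p = 𝓕 F p := by
    intro p
    by_cases hp : R < ‖p‖
    · rw [hF p hp, mul_zero]
    · rw [hχ1 p (not_lt.1 hp), one_mul]
  have h2 : ∀ x, F x = ∫ a, k a * F (x - a) := h788_rep h1
  have hψc : Continuous fun b : Mink => κ (tauS b F) := κ.continuous.comp (continuous_shift F)
  have h3 : ∀ t : ℝ, κ (tauS (t • e) F) = ∫ b, k (b - t • e) * κ (tauS b F) := by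
    intro t
    have h4 := conv_identity κ (tauS (t • e) F) k (tauS (t • e) F) (fun x => by
      rw [tauS_apply, h2 (x - t • e)]
      refine integral_congr_ae (Eventually.of_forall fun a => ?_)
      change k a * F (x - t • e - a) = k a * tauS (t • e) F (x - a)
      rw [tauS_apply]
      congr 2
      abel)
    rw [h4, ← integral_sub_right_eq_self _ (t • e)]
    refine integral_congr_ae (Eventually.of_forall fun b => ?_)
    change k (b - t • e) • κ (tauS (b - t • e) (tauS (t • e) F)) = _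
    rw [smul_eq_mul]
    congr 2
    ext x
    rw [tauS_apply, tauS_apply, tauS_apply]
    congr 1
    abel
  have h5 : ∀ t : ℝ, h t * κ (tauS (t • e) F) = ∫ b, h t * (k (b - t • e) * κ (tauS b F)) := by
    intro t
    rw [integral_const_mul, ← h3 t]
  simp only [h5]
  have h6 : Integrable (fun z : ℝ × Mink => h z.1 * k (z.2 - z.1 • e)) (volume.prod volume) := by
    have hc : Continuous fun z : ℝ × Mink => h z.1 * k (z.2 - z.1 • e) :=
      (h.continuous.comp continuous_fst).mul (k.continuous.comp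
        (continuous_snd.sub (continuous_fst.smul continuous_const)))
    rw [integrable_prod_iff hc.aestronglyMeasurable]
    refine ⟨Eventually.of_forall fun t => ?_, ?_⟩
    · exact (k.integrable.comp_sub_right (t • e)).const_mul (h t)
    · have e1 : ∀ t : ℝ, ∫ b : Mink, ‖h t * k (b - t • e)‖ = ‖h t‖ * ∫ b : Mink, ‖k b‖ := by
        intro t
        simp only [norm_mul]
        rw [integral_const_mul, integral_sub_right_eq_self (fun b : Mink => ‖k b‖)]
      simp only [e1]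
      exact h.integrable.norm.mul_const _
  rw [integral_integral_swap]
  · have h7 : ∀ b : Mink, ∫ t : ℝ, h t * (k (b - t • e) * κ (tauS b F)) = 0 := by
      intro b
      have h8 := h788_zero (h := h) hχ0 e hh b
      calc ∫ t : ℝ, h t * (k (b - t • e) * κ (tauS b F))
          = ∫ t : ℝ, (h t * k (b - t • e)) * κ (tauS b F) := by simp only [mul_assoc]
        _ = (∫ t : ℝ, h t * k (b - t • e)) * κ (tauS b F) := integral_mul_const _ _
        _ = 0 := by rw [h8, zero_mul]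
    simp only [h7, integral_zero]
  · have h9 : (Function.uncurry fun (t : ℝ) (b : Mink) => h t * (k (b - t • e) * κ (tauS b F))) =
        fun z : ℝ × Mink => κ (tauS z.2 F) * (h z.1 * k (z.2 - z.1 • e)) := by
      funext z
      rw [Function.uncurry]
      ring
    rw [h9]
    exact h6.bdd_mul (c := C) (hψc.comp continuous_snd).aestronglyMeasurable
      (Eventually.of_forall fun z => hC z.2)

variable {D : Type*} [NormedAddCommGroup D] [InnerProductSpace ℂ D]
variable {Q : GF.Theory D}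

lemma h788_shift {φ : GF.Fld D} (hφ : Q.fld φ) (F : 𝓢(Mink, ℂ)) (e : V) (t : ℝ) :
    Q.U 1 GF.one (t • e) (φ (fl F) Q.vac) =
      φ (fl (tauS (t • (WithLp.toLp 2 e : Mink)) F)) Q.vac := by
  have h1 := U_fld hφ F (t • (WithLp.toLp 2 e : Mink)) Q.vac
  have h2 : (t • (WithLp.toLp 2 e : Mink)).ofLp = t • e := rfl
  rw [h2, Q.U_vac _ _ _ one_pos isLor_one] at h1
  exact h1

/-- the momenta of the vectors created by a field are bounded in every direction if the test
function is band limited -/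
theorem eb_dir {φ : GF.Fld D} (hφ : Q.fld φ) {F : 𝓢(Mink, ℂ)} (hF : BL F) (e : V) :
    ∃ α β, ∀ w : D, Bd α β fun t => inner ℂ w (Q.U 1 GF.one (t • e) (φ (fl F) Q.vac)) := by
  obtain ⟨R, hR⟩ := (HasCompactSupport.isCompact hF).isBounded.subset_closedBall (0 : Mink)
  have hR' : ∀ p, max R 1 < ‖p‖ → 𝓕 F p = 0 := by
    intro p hp
    by_contra hne
    have h1 := hR (subset_tsupport _ (Function.mem_support.2 hne))
    rw [mem_closedBall_zero_iff] at h1
    exact absurd ((le_max_left R 1).trans_lt hp) (not_lt.2 h1)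
  refine ⟨-((max R 1 + 1) * ‖(WithLp.toLp 2 e : Mink)‖), (max R 1 + 1) *
    ‖(WithLp.toLp 2 e : Mink)‖, fun w h hh => ?_⟩
  have h1 := h788_line (((innerSL ℂ w : D →L[ℂ] ℂ)).comp (fcl hφ Q.vac)) (F := F)
    (C := ‖w‖ * ‖φ (fl F) Q.vac‖) (fun a => ?_) (R := max R 1) (lt_max_of_lt_right one_pos) hR'
    (WithLp.toLp 2 e : Mink) hh
  · rw [← h1]
    refine integral_congr_ae (Eventually.of_forall fun t => ?_)
    change h t * inner ℂ w (Q.U 1 GF.one (t • e) (φ (fl F) Q.vac)) =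
      h t * inner ℂ w (φ (fl (tauS (t • (WithLp.toLp 2 e : Mink)) F)) Q.vac)
    rw [h788_shift hφ]
  · change ‖inner ℂ w (φ (fl (tauS a F)) Q.vac)‖ ≤ _
    have h2 := U_fld hφ F a Q.vac
    rw [Q.U_vac _ _ _ one_pos isLor_one] at h2
    rw [← h2]
    refine (norm_inner_le_norm _ _).trans (le_of_eq ?_)
    exact congrArg (‖w‖ * ·) (U1_norm a (φ (fl F) Q.vac))

/-- the energies of the vectors created by a field are bounded if the test function is band
limited -/
theorem eb_fld {φ : GF.Fld D} (hφ : Q.fld φ) {F : 𝓢(Mink, ℂ)} (hF : BL F) :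
    ∃ α β, EB Q α β (φ (fl F) Q.vac) := eb_dir hφ hF (bas o 1)

end Vale.Agent.P352.SL

end
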