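import Vale.Agent.P352.SL.F4
import Vale.Agent.P352.SL.H788b

/-!
# P352 SL: scaling on the vectors created by the stress tensor
-/

set_option linter.all false

noncomputable section

open MeasureTheory Filter Topology SchwartzMap Complex
open scoped SchwartzMap ComplexConjugate ContDiff FourierTransform

namespace Vale.Agent.P352.SL

open GF (Ix V Fn Fld Theory Sch IsLor bas eta o sim pd tr ev bar)
open H246 H496 H755 H15 H846 H246R H746 N86 NC NF
open UniformSpace (Completion)

variable {D : Type*} [NormedAddCommGroup D] [InnerProductSpace ℂ D]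
variable {Q : GF.Theory D} {T : Ix → Ix → GF.Fld D} {J : Ix → GF.Fld D}
variable {A : (V → V) → D → D} {N M : V → 𝓢(ℝ, ℂ) → D → D}

theorem tv_scale (hT : Q.IsStress T) (hJ : IsVirial Q T J) (R : H15.Rep Q A) (hS : SN Q N)
    {a : V} (ha : IsNull a) {f : 𝓢(ℝ, ℂ)} (hf : Chi0 f) {r : ℝ} (hr : 0 < r)
    (g : Ix → Ix → 𝓢(Mink, ℂ)) :
    N (r • a) f (tvec Q T g) = ((r⁻¹ : ℝ) : ℂ) • N a f (tvec Q T g) :=
  tv_scale' hS (fun _ ha' _ hf' F m n => (nz hT hJ R hS ha' hf' F).2 m n) ha hf hr g

end Vale.Agent.P352.SL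

end
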