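import Vale.Agent.P352.NF.F1

/-!
# P352 SL: locality of smeared second moments
-/

set_option linter.all false

noncomputable section

open MeasureTheory SchwartzMap Filter Topology Set
open scoped SchwartzMap ContDiff ComplexConjugate

namespace Vale.Agent.P352.SL

open GF (Ix V Fn Fld bas eta o bar pd)
open H246 H496 H755 H15 NF
open H746 (vf isTest_vf A_T A_J A_symm A_vac)

variable {D : Type*} [NormedAddCommGroup D] [InnerProductSpace ℂ D]
variable {Q : GF.Theory D} {T : Ix → Ix → GF.Fld D}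

section

variable {a b : V} (ha : IsNull a) (hb : IsNull b) (hab : GF.mdot a b = 1)
include ha hb hab

/-- a limit of smeared components `T_aa` over a slab above the support of `f` that annihilates
`Ω` and `φ(f)Ω` commutes with `φ(f)` on the vectors of a wedge -/
lemma loc_S1 (hT : Q.IsStress T) {φ : GF.Fld D} (hφ : Q.bose φ)
    (hherm : ∀ f v w, GF.IsTest f → inner ℂ (φ f v) w = inner ℂ v (φ (bar f) w))
    {f : Fn} (hf : GF.IsTest f) {B : D → D} {κ : V → ℝ} {G : ℝ → ℝ} (hAd : Adm a b κ G)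
    {p0 : V → ℝ} (hp0 : ContDiff ℝ ∞ p0)
    (lim : ∀ v z, Tendsto (fun R => inner ℂ z (tq T a (fun x => p0 x * ctf a b κ 0 G R x) v))
      atTop (𝓝 (inner ℂ z (B v))))
    {A0 N B0 : ℝ} (hA0 : ∀ z ∈ tsupport f, GF.mdot a z ≤ A0)
    (hB0 : ∀ z ∈ tsupport f, -B0 ≤ GF.mdot b z) (hu : ∀ u ∈ tsupport G, A0 < u)
    (hN : ∀ u ∈ tsupport G, u < N) (hAN : A0 < N) (h0 : B Q.vac = 0) (h1 : B (φ f Q.vac) = 0)
    {Y Y' : D → D} (hY : Al Q {y | N < GF.mdot a y ∧ GF.mdot b y < -B0 - 4} Y Y') :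
    B (φ f (Y Q.vac)) = φ f (B (Y Q.vac)) := by
  have hca := (H846.contDiff_mdot a).continuous
  have hcb := (H846.contDiff_mdot b).continuous
  have hG : Tst G := hAd.2.2.2.2.2
  have e : ∀ w z, inner ℂ w (φ f z) = inner ℂ (φ (bar f) w) z := by
    intro w z
    rw [← inner_conj_symm, hherm f z w hf, inner_conj_symm]
  refine ext_inner_left ℂ fun w => ?_
  set p : ℝ → V → ℝ := fun R x => p0 x * ctf a b κ 0 G R x with hp
  have hpt : ∀ R, 1 ≤ R → Tst (p R) := fun R hR =>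
    tst_smul hp0 (H755.ctf_tst hAd 0 hR)
  have hps : ∀ R x, p R x ≠ 0 → GF.mdot a x ∈ tsupport G := by
    intro R x hx
    exact subset_tsupport _ fun h => hx (by simp only [hp, ctf, h, mul_zero])
  set p1 : ℝ → V → ℝ := fun R x => H746.chi (GF.mdot b x + B0 + 2) * p R x with hp1
  set p2 : ℝ → V → ℝ := fun R x => (1 - H746.chi (GF.mdot b x + B0 + 2)) * p R x with hp2
  have hchi : ContDiff ℝ ∞ fun x : V => H746.chi (GF.mdot b x + B0 + 2) :=
    H746.chi_smooth.comp (((H846.contDiff_mdot b).add contDiff_const).add contDiff_const)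
  have hp1t : ∀ R, 1 ≤ R → Tst (p1 R) := fun R hR => H755.tst_smul hchi (hpt R hR)
  have hp2t : ∀ R, 1 ≤ R → Tst (p2 R) := fun R hR =>
    H755.tst_smul (contDiff_const.sub hchi) (hpt R hR)
  have hsum : ∀ R, p R = fun x => p1 R x + p2 R x := by
    intro R
    funext x
    simp only [hp1, hp2]
    ring
  have s1 : ∀ R, ∀ x ∈ tsupport (p1 R),
      GF.mdot a x ∈ tsupport G ∧ GF.mdot b x ≤ -B0 - 1 := by
    intro R x hx
    have hcl : IsClosed {x : V | GF.mdot a x ∈ tsupport G ∧ GF.mdot b x ≤ -B0 - 1} :=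
      ((isClosed_tsupport G).preimage hca).inter (isClosed_le hcb continuous_const)
    refine closure_minimal (fun z hz => ?_) hcl hx
    have hz' : p1 R z ≠ 0 := hz
    have h1 : p R z ≠ 0 := fun h => hz' (by simp only [hp1, h, mul_zero])
    have h2 : H746.chi (GF.mdot b z + B0 + 2) ≠ 0 :=
      fun h => hz' (by simp only [hp1, h, zero_mul])
    refine ⟨hps R z h1, ?_⟩
    by_contra hle
    push Not at hle
    exact h2 (H746.chi_ge (by linarith))
  have s2 : ∀ R, ∀ x ∈ tsupport (p2 R),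
      GF.mdot a x ∈ tsupport G ∧ -B0 - 3 ≤ GF.mdot b x := by
    intro R x hx
    have hcl : IsClosed {x : V | GF.mdot a x ∈ tsupport G ∧ -B0 - 3 ≤ GF.mdot b x} :=
      ((isClosed_tsupport G).preimage hca).inter (isClosed_le continuous_const hcb)
    refine closure_minimal (fun z hz => ?_) hcl hx
    have hz' : p2 R z ≠ 0 := hz
    have h1 : p R z ≠ 0 := fun h => hz' (by simp only [hp2, h, mul_zero])
    have h2 : 1 - H746.chi (GF.mdot b z + B0 + 2) ≠ 0 :=
      fun h => hz' (by simp only [hp2, h, zero_mul])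
    refine ⟨hps R z h1, ?_⟩
    by_contra hle
    push Not at hle
    exact h2 (by rw [H746.chi_le (by linarith), sub_self])
  have hR : ∀ R, 1 ≤ R → inner ℂ w (tq T a (p R) (φ f (Y Q.vac))) -
      inner ℂ (φ (bar f) w) (tq T a (p R) (Y Q.vac)) =
      inner ℂ (Y' w) (tq T a (p R) (φ f Q.vac)) -
        inner ℂ (φ (bar f) (Y' w)) (tq T a (p R) Q.vac) := by
    intro R hR
    have k := tq_comm_R hT (a := a) (hp1t R hR) (hp2t R hR) (hsum R) hφ hf
      (W := {y | N < GF.mdot a y ∧ GF.mdot b y < -B0 - 4})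
      (fun x hx y hy => sep_pm ha hb hab (by linarith [hu _ (s1 R x hx).1, hA0 y hy])
        (by linarith [(s1 R x hx).2, hB0 y hy]))
      (fun x hx y hy => sep_mp ha hb hab (by linarith [hN _ (s2 R x hx).1, hy.1])
        (by linarith [(s2 R x hx).2, hy.2]))
      (fun x hx y hy => sep_mp ha hb hab (by linarith [hA0 x hx, hy.1])
        (by linarith [hB0 x hx, hy.2])) hY Q.vac
    have k2 := congrArg (fun z => inner ℂ w z) k
    simp only [inner_sub_right] at k2
    rw [← hY.adj', inner_sub_right] at k2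
    rw [e, e (Y' w)] at k2
    exact k2
  have l1 := lim (φ f (Y Q.vac)) w
  have l2 := lim (Y Q.vac) (φ (bar f) w)
  have l3 := lim (φ f Q.vac) (Y' w)
  have l4 := lim Q.vac (φ (bar f) (Y' w))
  have l6 := (l1.sub l2).congr' (f₂ := fun R => inner ℂ (Y' w) (tq T a (p R) (φ f Q.vac)) -
      inner ℂ (φ (bar f) (Y' w)) (tq T a (p R) Q.vac)) (by
    filter_upwards [eventually_ge_atTop (1:ℝ)] with R hR1
    exact hR R hR1)
  have h5 := tendsto_nhds_unique l6 (l3.sub l4)
  rw [h0, h1, inner_zero_right, inner_zero_right, sub_zero] at h5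
  rw [e]
  exact sub_eq_zero.1 h5

end

/-- a symmetric limit of smeared components `T_aa` over a slab above the support of `f` that
annihilates `Ω`, `φ(f)Ω` and `φ(f)^*Ω` commutes with `φ(f)` -/
theorem loc_S (hT : Q.IsStress T) {a b : V} (ha : IsNull a) (hb : IsNull b)
    (hab : GF.mdot a b = 1) {φ : GF.Fld D} (hφ : Q.bose φ)
    (hherm : ∀ f v w, GF.IsTest f → inner ℂ (φ f v) w = inner ℂ v (φ (bar f) w))
    {f : Fn} (hf : GF.IsTest f) (hc : HasCompactSupport f) {B : D → D} {κ : V → ℝ} {G : ℝ → ℝ}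
    (hAd : Adm a b κ G) {p0 : V → ℝ} (hp0 : ContDiff ℝ ∞ p0)
    (lim : ∀ v z, Tendsto (fun R => inner ℂ z (tq T a (fun x => p0 x * ctf a b κ 0 G R x) v))
      atTop (𝓝 (inner ℂ z (B v))))
    (hu : ∀ u ∈ tsupport G, ∀ y ∈ tsupport f, GF.mdot a y < u)
    (hsym : ∀ v w, inner ℂ (B v) w = inner ℂ v (B w)) (h0 : B Q.vac = 0)
    (h1 : B (φ f Q.vac) = 0) (h2 : B (φ (bar f) Q.vac) = 0) (v : D) :
    B (φ f v) = φ f (B v) := by
  have hca := (H846.contDiff_mdot a).continuous
  have hcb := (H846.contDiff_mdot b).continuous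
  have hG : Tst G := hAd.2.2.2.2.2
  -- bounds on the supports
  obtain ⟨m, hm⟩ : ∃ m, ∀ u ∈ tsupport G, m < u := by
    obtain ⟨c, hc'⟩ := IsCompact.bddBelow hG.2
    exact ⟨c - 1, fun u hu' => by linarith [hc' hu']⟩
  obtain ⟨A0, hA0, hA1⟩ : ∃ A0, (∀ z ∈ tsupport f, GF.mdot a z ≤ A0) ∧
      ∀ u ∈ tsupport G, A0 < u := by
    by_cases hne : (tsupport f).Nonempty
    · obtain ⟨z, hz, hmax⟩ := IsCompact.exists_isMaxOn (s := tsupport f) hc hne
        (f := fun z : V => GF.mdot a z) hca.continuousOn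
      exact ⟨GF.mdot a z, fun y hy => hmax hy, fun u hu' => hu u hu' z hz⟩
    · exact ⟨m, fun z hz => (hne ⟨z, hz⟩).elim, hm⟩
  obtain ⟨B0, hB0⟩ : ∃ B0, ∀ z ∈ tsupport f, -B0 ≤ GF.mdot b z := by
    have h3 : IsCompact ((fun z : V => GF.mdot b z) '' tsupport f) := IsCompact.image hc hcb
    obtain ⟨c, hc⟩ := h3.bddBelow
    exact ⟨-c, fun z hz => by rw [neg_neg]; exact hc ⟨z, hz, rfl⟩⟩
  obtain ⟨N, hN, hAN⟩ : ∃ N, (∀ u ∈ tsupport G, u < N) ∧ A0 < N := by
    obtain ⟨c, hc'⟩ := IsCompact.bddAbove hG.2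
    exact ⟨max c A0 + 1, fun u hu' => by linarith [hc' hu', le_max_left c A0],
      by linarith [le_max_right c A0]⟩
  have hts : tsupport (bar f) = tsupport f := tsupport_bar f
  have hba : GF.mdot b a = 1 := by rw [md_comm]; exact hab
  have hW : Big (MW {y : V | N < GF.mdot a y ∧ GF.mdot b y < -B0 - 4}) := by
    refine big_two (c := b - a) one_pos one_pos ?_ ?_
    · rw [md_sub, hab, ha.1, sub_zero]
    · rw [md_sub, hba, hb.1, zero_sub]
  rw [← sub_eq_zero]
  refine dens_eq (Q := Q) ha hb hab hW fun Y Y' hY => ?_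
  have e : ∀ u z, inner ℂ u (φ f z) = inner ℂ (φ (bar f) u) z := by
    intro u z
    rw [← inner_conj_symm, hherm f z u hf, inner_conj_symm]
  have h3 := loc_S1 ha hb hab hT hφ hherm (isTest_bar hf) hAd hp0 lim
    (by rw [hts]; exact hA0) (by rw [hts]; exact hB0) hA1 hN hAN h0 h2 hY
  rw [inner_sub_right, ← hsym, e, ← h3, hsym, ← e, sub_self]

end Vale.Agent.P352.SL

end
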