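import Vale.Agent.P352.SL.Base

/-!
# P352 SL, block S1: Schwartz functions on the line, translations, dilations, conjugation,
splitting and cut-offs of the Fourier transform
-/

set_option linter.all false

noncomputable section

open MeasureTheory Filter Topology SchwartzMap Complex
open scoped SchwartzMap ComplexConjugate ContDiff FourierTransform

namespace Vale.Agent.P352.SL

theorem exists_tr (f : 𝓢(ℝ, ℂ)) (s : ℝ) : ∃ g : 𝓢(ℝ, ℂ), ∀ u, g u = f (u - s) :=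
  ⟨compSubConstCLM ℂ s f, fun u => compSubConstCLM_apply ..⟩

theorem exists_dl (f : 𝓢(ℝ, ℂ)) {r : ℝ} (hr : 0 < r) : ∃ g : 𝓢(ℝ, ℂ), ∀ u, g u = f (r * u) :=
  ⟨compCLMOfContinuousLinearEquiv ℂ (ContinuousLinearEquiv.unitsEquivAut ℝ (Units.mk0 r hr.ne')) f,
    fun u => by
      rw [compCLMOfContinuousLinearEquiv_apply]
      simp [mul_comm]⟩

theorem exists_cj (f : 𝓢(ℝ, ℂ)) : ∃ g : 𝓢(ℝ, ℂ), ∀ u, g u = conj (f u) :=
  ⟨postcompCLM (𝕜 := ℝ) (Complex.conjCLE : ℂ →L[ℝ] ℂ) f, fun u => by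
    rw [postcompCLM_apply]; rfl⟩

theorem ft_eq (f : 𝓢(ℝ, ℂ)) (ξ : ℝ) :
    𝓕 f ξ = ∫ v : ℝ, Complex.exp (↑(-2 * Real.pi * v * ξ) * Complex.I) * f v := by
  rw [fourier_coe, Real.fourier_real_eq_integral_exp_smul]
  rfl

theorem ft_sub (f g : 𝓢(ℝ, ℂ)) (ξ : ℝ) : 𝓕 (f - g) ξ = 𝓕 f ξ - 𝓕 g ξ := by
  have h := map_sub (FourierTransform.fourierCLM ℂ 𝓢(ℝ, ℂ)) f g
  simp only [FourierTransform.fourierCLM_apply] at h
  rw [h]
  rfl

theorem ft_tr {f g : 𝓢(ℝ, ℂ)} {s : ℝ} (hg : ∀ u, g u = f (u - s)) (ξ : ℝ) :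
    𝓕 g ξ = Complex.exp (↑(-2 * Real.pi * s * ξ) * Complex.I) * 𝓕 f ξ := by
  rw [ft_eq, ft_eq, ← integral_const_mul]
  rw [← integral_add_right_eq_self (fun v : ℝ =>
    Complex.exp (↑(-2 * Real.pi * v * ξ) * Complex.I) * g v) s]
  refine integral_congr_ae (ae_of_all _ fun v => ?_)
  simp only [hg, add_sub_cancel_right]
  rw [← mul_assoc, ← Complex.exp_add]
  congr 2
  push_cast
  ring

theorem ft_dl {f g : 𝓢(ℝ, ℂ)} {r : ℝ} (hr : 0 < r) (hg : ∀ u, g u = f (r * u)) (ξ : ℝ) :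
    𝓕 g ξ = ((r⁻¹ : ℝ) : ℂ) * 𝓕 f (r⁻¹ * ξ) := by
  rw [ft_eq, ft_eq]
  have h := Measure.integral_comp_mul_left (fun v : ℝ =>
    Complex.exp (↑(-2 * Real.pi * v * (r⁻¹ * ξ)) * Complex.I) * f v) r
  rw [abs_of_pos (inv_pos.2 hr)] at h
  rw [← Complex.real_smul, ← h]
  refine integral_congr_ae (ae_of_all _ fun v => ?_)
  simp only [hg]
  congr 3
  push_cast
  have : (r : ℂ) ≠ 0 := by exact_mod_cast hr.ne'
  field_simp

theorem ft_cj {f g : 𝓢(ℝ, ℂ)} (hg : ∀ u, g u = conj (f u)) (ξ : ℝ) :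
    𝓕 g ξ = conj (𝓕 f (-ξ)) := by
  rw [ft_eq, ft_eq, ← integral_conj]
  refine integral_congr_ae (ae_of_all _ fun v => ?_)
  simp only [hg, map_mul, ← Complex.exp_conj, Complex.conj_ofReal, Complex.conj_I]
  congr 2
  push_cast
  ring

theorem FS_tr {f g : 𝓢(ℝ, ℂ)} {α β s : ℝ} (hf : FS α β f) (hg : ∀ u, g u = f (u - s)) :
    FS α β g := fun ξ h => by
  rw [ft_tr hg, hf ξ h, mul_zero]

theorem FS_dl {f g : 𝓢(ℝ, ℂ)} {α β r : ℝ} (hr : 0 < r) (hf : FS α β f)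
    (hg : ∀ u, g u = f (r * u)) : FS (r * α) (r * β) g := fun ξ h => by
  rw [ft_dl hr hg, hf _ (h.imp (fun h1 => ?_) fun h1 => ?_), mul_zero]
  · rw [inv_mul_lt_iff₀ hr]; exact h1
  · rw [lt_inv_mul_iff₀ hr]; exact h1

theorem FS_cj {f g : 𝓢(ℝ, ℂ)} {α β : ℝ} (hf : FS α β f) (hg : ∀ u, g u = conj (f u)) :
    FS (-β) (-α) g := fun ξ h => by
  rw [ft_cj hg, hf, map_zero]
  rcases h with h | h
  · right; linarith
  · left; linarith

theorem FZ_cj {f g : 𝓢(ℝ, ℂ)} (hf : FZ f) (hg : ∀ u, g u = conj (f u)) : FZ g := by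
  obtain ⟨δ, K, hδ, h⟩ := hf
  refine ⟨δ, K, hδ, fun ξ hξ => ?_⟩
  rw [ft_cj hg, h _ (by rwa [abs_neg]), map_zero]

/-- multiplication of the Fourier transform with a bump function -/
theorem exists_bmp {c : ℝ} (f : 𝓢(ℝ, ℂ)) (b : ContDiffBump c) : ∃ g : 𝓢(ℝ, ℂ),
    ∀ ξ, 𝓕 g ξ = (b ξ : ℂ) * 𝓕 f ξ := by
  have hb : Function.HasTemperateGrowth fun ξ : ℝ => ((b ξ : ℝ) : ℂ) := by
    refine HasCompactSupport.hasTemperateGrowth ?_ ?_
    · exact b.hasCompactSupport.comp_left (g := fun x : ℝ => (x : ℂ)) (by simp)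
    · exact Complex.ofRealCLM.contDiff.comp b.contDiff
  refine ⟨𝓕⁻ (smulLeftCLM ℂ (fun ξ : ℝ => ((b ξ : ℝ) : ℂ)) (𝓕 f)), fun ξ => ?_⟩
  rw [FourierTransform.fourier_fourierInv_eq, smulLeftCLM_apply_apply hb]
  rfl

theorem FZ_split {f : 𝓢(ℝ, ℂ)} (hf : FZ f) : ∃ (f1 f2 : 𝓢(ℝ, ℂ)) (δ K : ℝ), 0 < δ ∧ δ ≤ K ∧
    f = f1 + f2 ∧ FS δ K f1 ∧ FS (-K) (-δ) f2 := by
  obtain ⟨δ, K, hδ, h⟩ := hf
  set L := max K δ + δ with hL
  have hKL : K < L := by have := le_max_left K δ; linarith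
  have hδL : 2 * δ ≤ L := by have := le_max_right K δ; linarith
  -- bump: one on `[δ, L]`, zero for `ξ ≤ δ / 2`
  have hr : 0 < (L - δ) / 2 := by linarith
  let b : ContDiffBump (E := ℝ) ((L + δ) / 2) :=
    { rIn := (L - δ) / 2, rOut := L / 2, rIn_pos := hr, rIn_lt_rOut := by linarith }
  obtain ⟨f1, h1⟩ := exists_bmp f b
  have hb1 : ∀ ξ, δ ≤ ξ → ξ ≤ L → b ξ = 1 := fun ξ h2 h3 => by
    refine b.one_of_mem_closedBall ?_
    rw [Metric.mem_closedBall, Real.dist_eq, abs_le]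
    constructor <;> simp only [b] <;> linarith
  have hb0 : ∀ ξ, ξ ≤ δ / 2 → b ξ = 0 := fun ξ h2 => by
    refine b.zero_of_le_dist ?_
    rw [Real.dist_eq, abs_sub_comm]
    refine le_trans ?_ (le_abs_self _)
    simp only [b]
    linarith
  refine ⟨f1, f - f1, δ, L, hδ, by linarith, by abel, fun ξ hξ => ?_, fun ξ hξ => ?_⟩
  · rw [h1]
    rcases hξ with hξ | hξ
    · by_cases h2 : ξ ≤ δ / 2
      · rw [hb0 ξ h2]; simp
      · rw [h ξ (Or.inl (by rw [abs_lt]; constructor <;> linarith)), mul_zero]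
    · rw [h ξ (Or.inr (by rw [abs_of_pos (by linarith)]; linarith)), mul_zero]
  · rw [ft_sub, h1]
    rcases hξ with hξ | hξ
    · rw [h ξ (Or.inr (by rw [abs_of_neg (by linarith)]; linarith))]; simp
    · by_cases h2 : |ξ| < δ
      · rw [h ξ (Or.inl h2)]; simp
      · have h3 : δ ≤ ξ := by
          rw [abs_lt, not_and_or] at h2
          rcases h2 with h2 | h2
          · exact absurd hξ (by linarith)
          · linarith
        by_cases h4 : ξ ≤ L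
        · rw [hb1 ξ h3 h4]; simp
        · rw [h ξ (Or.inr (by rw [abs_of_pos (by linarith)]; linarith))]; simp

theorem FZ_dl {f g : 𝓢(ℝ, ℂ)} {r : ℝ} (hr : 0 < r) (hf : Chi0 f) (hg : ∀ u, g u = f (r * u)) :
    FZ (g - ((r⁻¹ : ℝ) : ℂ) • f) := by
  obtain ⟨-, ⟨K, hK⟩, δ, hδ, h1⟩ := hf
  have hri := inv_pos.2 hr
  refine ⟨min δ (r * δ), max K (r * K), lt_min hδ (mul_pos hr hδ), fun ξ hξ => ?_⟩
  have h5 : 𝓕 (g - ((r⁻¹ : ℝ) : ℂ) • f) ξ = 𝓕 g ξ - ((r⁻¹ : ℝ) : ℂ) * 𝓕 f ξ := by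
    rw [ft_sub, FourierTransform.fourier_smul]
    rfl
  rw [h5, ft_dl hr hg]
  have h6 : |r⁻¹ * ξ| = r⁻¹ * |ξ| := by rw [abs_mul, abs_of_pos hri]
  rcases hξ with hξ | hξ
  · rw [h1 ξ (hξ.trans_le (min_le_left _ _)), h1 (r⁻¹ * ξ), sub_self]
    rw [h6, inv_mul_lt_iff₀ hr]
    exact hξ.trans_le (min_le_right _ _)
  · have h7 : ∀ ξ, K < |ξ| → 𝓕 f ξ = 0 := fun ξ h => hK ξ (by
      rcases lt_abs.1 h with h | h
      · exact Or.inr h
      · exact Or.inl (by linarith))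
    rw [h7 ξ ((le_max_left _ _).trans_lt hξ), h7 (r⁻¹ * ξ), mul_zero, sub_self]
    rw [h6, lt_inv_mul_iff₀ hr]
    exact (le_max_right _ _).trans_lt hξ

theorem exists_chi0 : ∃ f : 𝓢(ℝ, ℂ), Chi0 f := by
  let b : ContDiffBump (E := ℝ) 0 :=
    { rIn := 1, rOut := 2, rIn_pos := one_pos, rIn_lt_rOut := by norm_num }
  have hc : HasCompactSupport fun ξ : ℝ => ((b ξ : ℝ) : ℂ) :=
    b.hasCompactSupport.comp_left (g := fun x : ℝ => (x : ℂ)) (by simp)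
  have hs : ContDiff ℝ ∞ fun ξ : ℝ => ((b ξ : ℝ) : ℂ) := Complex.ofRealCLM.contDiff.comp b.contDiff
  let h : 𝓢(ℝ, ℂ) := hc.toSchwartzMap hs
  have hh : ∀ ξ, h ξ = (b ξ : ℂ) := fun ξ => rfl
  have hb : ∀ ξ, b (-ξ) = b ξ := fun ξ => b.neg ξ
  have hF : ∀ ξ, 𝓕 (𝓕⁻ h) ξ = (b ξ : ℂ) := fun ξ => by
    rw [FourierTransform.fourier_fourierInv_eq, hh]
  refine ⟨𝓕⁻ h, fun u => ?_, ⟨2, fun ξ hξ => ?_⟩, 1, one_pos, fun ξ hξ => ?_⟩
  · have e1 : (𝓕⁻ h) u = ∫ v : ℝ, Complex.exp ((↑(2 * Real.pi * (v * u)) * Complex.I)) * h v := by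
      rw [fourierInv_coe, Real.fourierInv_eq']
      refine integral_congr_ae (ae_of_all _ fun v => ?_)
      simp only [smul_eq_mul]
      congr 4
      simp [mul_comm]
    rw [e1, ← integral_conj, ← integral_neg_eq_self]
    refine integral_congr_ae (ae_of_all _ fun v => ?_)
    simp only [map_mul, ← Complex.exp_conj, Complex.conj_ofReal, Complex.conj_I, hh, hb]
    congr 2
    push_cast
    ring
  · rw [hF, b.zero_of_le_dist]
    · simp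
    · rw [Real.dist_eq, sub_zero]
      rcases hξ with hξ | hξ
      · rw [abs_of_neg (by linarith)]; simp only [b]; linarith
      · rw [abs_of_pos (by linarith)]; simp only [b]; linarith
  · rw [hF, b.one_of_mem_closedBall]
    · simp
    · rw [Metric.mem_closedBall, Real.dist_eq, sub_zero]; exact hξ.le

end Vale.Agent.P352.SL

end
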