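import Vale.Agent.P352.SL.Loc
import Vale.Agent.P352.SL.ComA
import Vale.Agent.P352.SL.S1
import Vale.Agent.P352.SL.N1
import Vale.Agent.P352.SL.M1
import Vale.Agent.P352.SL.F7

/-!
# P352 SL: the smeared second moments annihilate the vacuum, are local and commute with generators
-/

set_option linter.all false

noncomputable section

open MeasureTheory Filter Topology SchwartzMap Complex
open scoped SchwartzMap ComplexConjugate ContDiff FourierTransform

namespace Vale.Agent.P352.SL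

open GF (Ix V Fn Fld Theory Sch IsLor bas o sim pd tr ev bar)
open H246 H496 H755 H15 H846 H246R H746 N86 NC NF
open UniformSpace (Completion)

/-! ### Real and imaginary parts -/

/-- the real part of a function -/
def rp (f : 𝓢(ℝ, ℂ)) (u : ℝ) : ℝ := (f u).re

lemma rp_smooth (f : 𝓢(ℝ, ℂ)) : ContDiff ℝ ∞ (rp f) :=
  Complex.reCLM.contDiff.comp f.smooth'

lemma rp_real {f : 𝓢(ℝ, ℂ)} (hf : ∀ u, conj (f u) = f u) (u : ℝ) : f u = ((rp f u : ℝ) : ℂ) :=
  (Complex.conj_eq_iff_re.1 (hf u)).symm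

lemma rp_supp (f : 𝓢(ℝ, ℂ)) : tsupport (rp f) ⊆ tsupport f := by
  refine closure_mono fun x hx => ?_
  intro h0
  apply hx
  show (f x).re = 0
  rw [h0]
  rfl

lemma deriv_real {g : ℝ → ℝ} (hg : Differentiable ℝ g) (u : ℝ) :
    deriv (fun v => ((g v : ℝ) : ℂ)) u = ((deriv g u : ℝ) : ℂ) :=
  ((hg u).hasDerivAt.ofReal_comp).deriv

/-- the second derivative of the real part -/
def drp (f : 𝓢(ℝ, ℂ)) : ℝ → ℝ := deriv (deriv (rp f))

lemma dd_real {f : 𝓢(ℝ, ℂ)} (hf : ∀ u, conj (f u) = f u) (u : ℝ) :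
    dd f u = ((drp f u : ℝ) : ℂ) := by
  have h0 : (f : ℝ → ℂ) = fun v => ((rp f v : ℝ) : ℂ) := funext fun v => rp_real hf v
  have h1 : Differentiable ℝ (rp f) := (rp_smooth f).differentiable (by simp)
  have h2 : Differentiable ℝ (deriv (rp f)) :=
    ((contDiff_infty_iff_deriv.1 (rp_smooth f)).2).differentiable (by simp)
  have e1 : ((derivCLM ℂ ℂ f : 𝓢(ℝ, ℂ)) : ℝ → ℂ) = fun v => ((deriv (rp f) v : ℝ) : ℂ) := by
    funext v
    rw [derivCLM_apply, h0]
    exact deriv_real h1 v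
  unfold dd drp
  rw [derivCLM_apply, e1]
  exact deriv_real h2 u

lemma drp_supp (f : 𝓢(ℝ, ℂ)) : tsupport (drp f) ⊆ tsupport f :=
  fun _ hx => rp_supp f (tsupport_deriv_subset (tsupport_deriv_subset hx))

lemma drp_tst {f : 𝓢(ℝ, ℂ)} (hc : HasCompactSupport f) : Tst (drp f) := by
  refine ⟨(contDiff_infty_iff_deriv.1 (contDiff_infty_iff_deriv.1 (rp_smooth f)).2).2, ?_⟩
  exact hc.mono' (subset_trans subset_closure (drp_supp f))

/-- decomposition into real functions -/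
lemma re_im (f : 𝓢(ℝ, ℂ)) : ∃ f1 f2 : 𝓢(ℝ, ℂ), (∀ u, conj (f1 u) = f1 u) ∧
    (∀ u, conj (f2 u) = f2 u) ∧ f = f1 + I • f2 ∧ tsupport f1 ⊆ tsupport f ∧
    tsupport f2 ⊆ tsupport f := by
  obtain ⟨g, hg⟩ := exists_cj f
  refine ⟨(1 / 2 : ℂ) • (f + g), (-I / 2 : ℂ) • (f - g), fun u => ?_, fun u => ?_, ?_, ?_, ?_⟩
  · show conj ((1 / 2 : ℂ) * (f u + g u)) = (1 / 2 : ℂ) * (f u + g u)
    rw [hg]
    simp only [map_mul, map_add, Complex.conj_conj, map_div₀, map_one, Complex.conj_ofNat]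
    ring
  · show conj ((-I / 2 : ℂ) * (f u - g u)) = (-I / 2 : ℂ) * (f u - g u)
    rw [hg]
    simp only [map_mul, map_sub, Complex.conj_conj, map_div₀, map_neg, Complex.conj_I,
      Complex.conj_ofNat]
    ring
  · ext u
    show f u = (1 / 2 : ℂ) * (f u + g u) + I * ((-I / 2 : ℂ) * (f u - g u))
    have : I * I = -1 := I_mul_I
    linear_combination ((f u - g u) / 2) * this
  · refine closure_mono fun x hx => ?_
    intro h0
    apply hx
    show (1 / 2 : ℂ) * (f x + g x) = 0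
    rw [hg, h0, map_zero, add_zero, mul_zero]
  · refine closure_mono fun x hx => ?_
    intro h0
    apply hx
    show (-I / 2 : ℂ) * (f x - g x) = 0
    rw [hg, h0, map_zero, sub_zero, mul_zero]

variable {D : Type*} [NormedAddCommGroup D] [InnerProductSpace ℂ D]
variable {Q : GF.Theory D} {T : Ix → Ix → GF.Fld D} {J : Ix → GF.Fld D}
variable {A : (V → V) → D → D} {N M : V → 𝓢(ℝ, ℂ) → D → D}

lemma m_split (hT : Q.IsStress T) (h : SlabMom Q T A M) {a : V} (ha : IsNull a)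
    (f1 f2 : 𝓢(ℝ, ℂ)) (v : D) :
    M a (dd (f1 + I • f2)) v = M a (dd f1) v + I • M a (dd f2) v :=
  (sn_of hT h).lin a f1 f2 I v ha

section

variable (hT : Q.IsStress T) (hJ : IsVirial Q T J) (h : SlabMom Q T A M) {a : V}
  (ha : IsNull a)
include hT h ha

lemma m_symm {f : 𝓢(ℝ, ℂ)} (hr : ∀ u, conj (f u) = f u) (v w : D) :
    inner ℂ (M a (dd f) v) w = inner ℂ v (M a (dd f) w) :=
  (sn_of hT h).adj a f f v w ha fun u => (hr u).symm

lemma m_lim {f : 𝓢(ℝ, ℂ)} (hr : ∀ u, conj (f u) = f u) (hf : HasCompactSupport f)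
    {b : V} {κ : V → ℝ} (hAd : Adm a b κ (drp f)) (v z : D) : Tendsto (fun R => inner ℂ z
      (tq T a (fun x => -GF.mdot x x * ctf a b κ 0 (drp f) R x) v)) atTop
      (𝓝 (inner ℂ z (M a (dd f) v))) := by
  have h1 := h.mom a b κ 0 (drp f) (dd f) v z hAd (dd_real hr)
  refine h1.congr fun R => ?_
  unfold tq
  congr 2
  funext m n x
  ring

include hJ

/-- real functions -/
lemma m_vac0 {f : 𝓢(ℝ, ℂ)} (hr : ∀ u, conj (f u) = f u) (hf : HasCompactSupport f) :
    M a (dd f) Q.vac = 0 := by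
  obtain ⟨b, hb, hab⟩ := H755.exists_dual ha
  obtain ⟨κ, hκ, hκ1⟩ := exists_kp
  have hAd : Adm a b κ (drp f) := ⟨ha, hb, hab, hκ, hκ1, drp_tst hf⟩
  have h1 := m_lim hT h ha hr hf hAd Q.vac (M a (dd f) Q.vac)
  have hz : ∀ R, 1 ≤ R → inner ℂ (M a (dd f) Q.vac)
      (tq T a (fun x => -GF.mdot x x * ctf a b κ 0 (drp f) R x) Q.vac) = 0 := by
    intro R hR
    have hp : Tst fun x => -GF.mdot x x * ctf a b κ 0 (drp f) R x :=
      H755.tst_smul (by unfold GF.mdot; fun_prop) (H755.ctf_tst hAd 0 hR)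
    have hF : ∀ m n, GF.IsTest fun x => ((GF.eta m * a m * (GF.eta n * a n) *
        (-GF.mdot x x * ctf a b κ 0 (drp f) R x) : ℝ) : ℂ) := fun m n => (tst_c hp _).isTest
    choose g hg using fun m n => exists_fl (hF m n)
    have e : tq T a (fun x => -GF.mdot x x * ctf a b κ 0 (drp f) R x) Q.vac = tvec Q T g := by
      unfold tq sm tvec
      simp only [hg]
    rw [e, m_symm hT h ha hr, nT hT hJ h.toRep (sn_of hT h) ha f g, inner_zero_right]
  have h2 : Tendsto (fun R => inner ℂ (M a (dd f) Q.vac)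
      (tq T a (fun x => -GF.mdot x x * ctf a b κ 0 (drp f) R x) Q.vac)) atTop (𝓝 0) := by
    refine (tendsto_const_nhds (x := (0 : ℂ))).congr' ?_
    filter_upwards [eventually_ge_atTop (1:ℝ)] with R hR
    exact (hz R hR).symm
  exact inner_self_eq_zero.1 (tendsto_nhds_unique h1 h2)

/-- real functions -/
lemma m_loc0 {f : 𝓢(ℝ, ℂ)} (hr : ∀ u, conj (f u) = f u) (hf : HasCompactSupport f) (m n : Ix)
    {F : Fn} (hF : GF.IsTest F) (hc : HasCompactSupport F)
    (hs : ∀ u ∈ tsupport f, ∀ y ∈ tsupport F, GF.mdot a y < u) (v : D) :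
    M a (dd f) (T m n F v) = T m n F (M a (dd f) v) := by
  obtain ⟨b, hb, hab⟩ := H755.exists_dual ha
  obtain ⟨κ, hκ, hκ1⟩ := exists_kp
  have hAd : Adm a b κ (drp f) := ⟨ha, hb, hab, hκ, hκ1, drp_tst hf⟩
  have hz : ∀ {G : Fn}, GF.IsTest G → M a (dd f) (T m n G Q.vac) = 0 := by
    intro G hG
    obtain ⟨F', rfl⟩ := exists_fl hG
    rw [← e13_single hT m n F']
    exact nT hT hJ h.toRep (sn_of hT h) ha f _
  exact loc_S hT ha hb hab (hT.bose m n) (fun f v w hf => hT.herm m n f v w hf) hF hc hAd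
    (p0 := fun x => -GF.mdot x x) (by unfold GF.mdot; fun_prop) (m_lim hT h ha hr hf hAd)
    (fun u hu y hy => hs u (drp_supp f hu) y hy) (m_symm hT h ha hr) (m_vac0 hT hJ h ha hr hf)
    (hz hF) (hz (isTest_bar hF)) v

/-- real functions -/
lemma m_A0 {f : 𝓢(ℝ, ℂ)} (hr : ∀ u, conj (f u) = f u) (hf : HasCompactSupport f) {X : V → V}
    (hX : IsSim 0 X) (hX' : Fol a X) (v : D) : M a (dd f) (A X v) = A X (M a (dd f) v) := by
  obtain ⟨b, hb, hab⟩ := H755.exists_dual ha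
  obtain ⟨c, hc⟩ : ∃ c, ∀ u ∈ tsupport f, c ≤ u := by
    obtain ⟨c, hc⟩ := IsCompact.bddBelow hf
    exact ⟨c, fun u hu => hc hu⟩
  refine com_A (m_symm hT h ha hr) h.gen ha hb hab (M := c) ?_ hX hX' v
  intro m n F hF hFc hs v
  exact m_loc0 hT hJ h ha hr hf m n hF hFc (fun u hu y hy => (hs y hy).trans_le (hc u hu)) v

end

/-- **The smeared second moments of second derivatives annihilate the vacuum.** -/
theorem m_vac (hT : Q.IsStress T) (hJ : IsVirial Q T J) (h : SlabMom Q T A M) {a : V}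
    (ha : IsNull a) {f : 𝓢(ℝ, ℂ)} (hf : HasCompactSupport f) : M a (dd f) Q.vac = 0 := by
  obtain ⟨f1, f2, r1, r2, rfl, s1, s2⟩ := re_im f
  rw [m_split hT h ha, m_vac0 hT hJ h ha r1 (hf.mono' (subset_closure.trans s1)),
    m_vac0 hT hJ h ha r2 (hf.mono' (subset_closure.trans s2)), smul_zero, add_zero]

/-- **Locality.** -/
theorem m_loc (hT : Q.IsStress T) (hJ : IsVirial Q T J) (h : SlabMom Q T A M) {a : V}
    (ha : IsNull a) {f : 𝓢(ℝ, ℂ)} (hf : HasCompactSupport f) (m n : Ix) {F : Fn}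
    (hF : GF.IsTest F) (hc : HasCompactSupport F)
    (hs : ∀ u ∈ tsupport f, ∀ y ∈ tsupport F, GF.mdot a y < u) (v : D) :
    M a (dd f) (T m n F v) = T m n F (M a (dd f) v) := by
  obtain ⟨f1, f2, r1, r2, rfl, s1, s2⟩ := re_im f
  have hφ := Q.bose_fld _ (hT.bose m n)
  obtain ⟨F', rfl⟩ := exists_fl hF
  rw [m_split hT h ha, m_split hT h ha, fld_add hφ, Vale.Agent.P352.fld_smul hφ,
    m_loc0 hT hJ h ha r1 (hf.mono' (subset_closure.trans s1)) m n hF hc
      (fun u hu => hs u (s1 hu)),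
    m_loc0 hT hJ h ha r2 (hf.mono' (subset_closure.trans s2)) m n hF hc
      (fun u hu => hs u (s2 hu))]

/-- **The smeared second moments of second derivatives commute with the generators.** -/
theorem m_A (hT : Q.IsStress T) (hJ : IsVirial Q T J) (h : SlabMom Q T A M) {a : V}
    (ha : IsNull a) {f : 𝓢(ℝ, ℂ)} (hf : HasCompactSupport f) {X : V → V} (hX : IsSim 0 X)
    (hX' : Fol a X) (v : D) : M a (dd f) (A X v) = A X (M a (dd f) v) := by
  obtain ⟨f1, f2, r1, r2, rfl, s1, s2⟩ := re_im f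
  have hA := A_symm h.toRep hX
  rw [m_split hT h ha, m_split hT h ha, sym_add hA, sym_smul hA,
    m_A0 hT hJ h ha r1 (hf.mono' (subset_closure.trans s1)) hX hX',
    m_A0 hT hJ h ha r2 (hf.mono' (subset_closure.trans s2)) hX hX']

end Vale.Agent.P352.SL

end
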