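import Vale.Agent.P352.SL.M5
import Vale.Agent.P352.SL.M6

/-!
# P352 SL: sharp second moments from smeared second moments
-/

set_option linter.all false

noncomputable section

open MeasureTheory Filter Topology SchwartzMap Complex
open scoped SchwartzMap ComplexConjugate ContDiff FourierTransform

namespace Vale.Agent.P352.SL

open GF (Ix V Fn Fld Theory Sch IsLor bas o sim pd tr ev bar)
open H246 H496 H755 H15 H846 H246R H746 N86 NC NF

variable {D : Type*} [NormedAddCommGroup D] [InnerProductSpace ℂ D]
variable {Q : GF.Theory D} {T : Ix → Ix → GF.Fld D} {J : Ix → GF.Fld D}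
variable {A : (V → V) → D → D} {M : V → 𝓢(ℝ, ℂ) → D → D}

/-- **Sharp second moments on null planes from second moments smeared over the planes.** -/
theorem main (hT : Q.IsStress T) (hJ : IsVirial Q T J) (h : SlabMom Q T A M) :
    ∃ K : V → D → D, NullMom Q T A K :=
  nullMom hT h fun a ha f hf v => m_zero hT hJ h ha hf v

end Vale.Agent.P352.SL

end
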