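import Vale.Agent.P352.SL.Base
import Vale.Agent.P352.SL.S2a

set_option linter.all false

noncomputable section

open scoped SchwartzMap

namespace Vale.Agent.P352.SL

/-- Schwartz space over the line is barrelled -/
theorem barrelled_R : BarrelledSpace ℂ 𝓢(ℝ, ℂ) := barrelled_R'

end Vale.Agent.P352.SL

end
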