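import Vale.Agent.P352.SL.M1
import Vale.Agent.P352.SL.Conv

/-!
# The smeared second moments are determined by the stress tensor
-/

set_option linter.all false

noncomputable section

open MeasureTheory Filter Topology Set SchwartzMap
open scoped ContDiff ComplexConjugate SchwartzMap

namespace Vale.Agent.P352.SL

open GF (Ix V Fn Fld bas eta pd bar sim o)
open H246 H496 H15 H755 H121 H846 NF

variable {D : Type*} [NormedAddCommGroup D] [InnerProductSpace ℂ D] {Q : GF.Theory D}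
  {T : Ix → Ix → GF.Fld D} {J : Ix → GF.Fld D} {A : (V → V) → D → D} {K C : V → D → D}
  {M M' : V → 𝓢(ℝ, ℂ) → D → D}

theorem slab_unique (h : SlabMom Q T A M) (h' : SlabMom Q T A M') {a : V} (ha : IsNull a)
    (f : 𝓢(ℝ, ℂ)) (v : D) : M a f v = M' a f v := by
  refine ext_inner_left ℂ fun w => ?_
  refine m1_ext (F := fun f => inner ℂ w (M a f v)) (G := fun f => inner ℂ w (M' a f v))
    (h.cont a v w ha) (h'.cont a v w ha) (fun f hf => ?_) f
  obtain ⟨b, hb, hab⟩ := H755.exists_dual ha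
  obtain ⟨κ, hκ, hκ1⟩ := exists_kp
  have key : ∀ (p : ℝ → ℝ) (hp : Tst p), inner ℂ w (M a (tS p hp) v) =
      inner ℂ w (M' a (tS p hp) v) := fun p hp =>
    tendsto_nhds_unique (m1_tt h ⟨ha, hb, hab, hκ, hκ1, hp⟩ 0 hp v w)
      (m1_tt h' ⟨ha, hb, hab, hκ, hκ1, hp⟩ 0 hp v w)
  obtain ⟨p, q, hp, hq, hpq⟩ := m1_parts hf
  rw [hpq, h.lin a _ _ _ v ha, h'.lin a _ _ _ v ha, inner_add_right, inner_add_right,
    inner_smul_right, inner_smul_right, key, key]

/-- the smeared second moments in terms of the sharp ones -/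
theorem slab_eq (hT : Q.IsStress T) (hJ : IsVirial Q T J) (h : SlabMom Q T A M)
    (hK : NullMom Q T A K) : ∃ C : V → D → D, (∀ a b v, IsNull a → IsNull b → GF.mdot a b = 1 →
      C a v = Cop Q A K a b v) ∧ ∀ a f v, IsNull a → M a f v = (∫ u : ℝ, f u) • K a v -
        (2 * ∫ u : ℝ, (u : ℂ) * f u) • (A (fun z => z) v + C a v) := by
  obtain ⟨C, hC, h'⟩ := slab_of hT hJ hK
  exact ⟨C, hC, fun a f v ha => slab_unique h h' ha f v⟩

/-- the smeared second moments, if the tensor fields of real dimension generate the theory: the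
second moment on the plane `a·x = u` is `K a - 2 u A (fun z => z)` -/
theorem slab_tgen (hT : Q.IsStress T) (hJ : IsVirial Q T J) (h : SlabMom Q T A M)
    (hK : NullMom Q T A K) (hg : TGen Q) {a : V} (ha : IsNull a) (f : 𝓢(ℝ, ℂ)) (v : D) :
    M a f v = (∫ u : ℝ, f u) • K a v - (2 * ∫ u : ℝ, (u : ℂ) * f u) • A (fun z => z) v := by
  obtain ⟨C, hC, h1⟩ := slab_eq hT hJ h hK
  obtain ⟨b, hb, hab⟩ := H755.exists_dual ha
  have h2 : C a v = 0 := by
    rw [hC a b v ha hb hab]
    exact kc_zero hT hK.mom hg (fun l d Φ hΦ μ => gl_ten hK.toRep hΦ μ)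
      (kc_all hT hJ hK ha hb hab) v
  rw [h1 a f v ha, h2, add_zero]

end Vale.Agent.P352.SL
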